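import Vale.Agent.P224.POS.LhsM

/-!
The value of the rows of a certificate, in any even dimension.
-/

namespace Vale.Agent.P224.POS.RM

open Vale.Agent.P224.UE

noncomputable section

/-- the moments times `m + 1` -/
def momP (m : Nat) (a b : Nat) : PE :=
  match a, b with
  | 0, 0 => PE.c (m + 1)
  | 1, 0 => PE.mul (PE.c (m + 1)) (PE.v 0)
  | 2, 0 => PE.mul (PE.c (m + 1)) (PE.v 1)
  | 0, 2 => PE.sub (PE.v 0) (PE.v 1)
  | _, _ => PE.c 0

lemma ev_momP (f : ℕ → ℝ) (m a b : ℕ) :
    PE.ev f (momP m a b) = (m + 1) * momM m (f 0) (f 1) a b := by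
  have hm : (m : ℝ) + 1 ≠ 0 := by positivity
  unfold momP momM
  rcases a with _ | _ | _ | a <;> rcases b with _ | _ | _ | b <;>
    simp only [PE.ev_c, PE.ev_mul, PE.ev_sub, PE.ev_v] <;> push_cast <;>
    first | ring1 | field_simp

/-- `m + 1` times the value of a term, in the variables `u`, `r` -/
def tvM (m : Nat) (T : RTerm) : PE :=
  Bool.rec (motive := fun _ => PE)
    (PE.mul (Bool.rec (motive := fun _ => PE) (PE.c (-1)) (PE.c 1) (decide (T.fam = 0)))
      (PE.mul (PE.pow (PE.v 0) T.l) (momP m T.kn T.kx)))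
    (PE.c 0) (T.subM m)

lemma ev_tvM (f : ℕ → ℝ) (m : ℕ) (T : RTerm) :
    PE.ev f (tvM m T) = (m + 1) * T.VM m (f 0) (f 1) := by
  unfold tvM RTerm.VM
  cases h : T.subM m with
  | true => simp
  | false =>
    simp only [Bool.false_eq_true, if_false]
    by_cases hf : T.fam = 0
    · simp only [hf, decide_true, if_true]
      rw [PE.ev_mul, PE.ev_mul, PE.ev_pow, PE.ev_c, PE.ev_v, ev_momP]
      push_cast
      ring
    · simp only [hf, decide_false, if_false]
      rw [PE.ev_mul, PE.ev_mul, PE.ev_pow, PE.ev_c, PE.ev_v, ev_momP]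
      push_cast
      ring

/-- `m + 1` times the value of the list -/
def lvM (m : Nat) (l : List (Int × RTerm)) : PE :=
  List.rec (motive := fun _ => PE) (PE.c 0)
    (fun cT _ ih => PE.add (PE.mul (PE.c cT.1) (tvM m cT.2)) ih) l

lemma ev_lvM (f : ℕ → ℝ) (m : ℕ) {D : Int} (hD : D ≠ 0) (l : List (Int × RTerm)) :
    PE.ev f (lvM m l) = (m + 1) * D * rvalM m (rl D l) (f 0) (f 1) := by
  have hD' : (D : ℝ) ≠ 0 := by exact_mod_cast hD
  induction l with
  | nil => simp [lvM, rvalM, rl]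
  | cons cT l ih =>
    have e1 : lvM m (cT :: l) = PE.add (PE.mul (PE.c cT.1) (tvM m cT.2)) (lvM m l) := rfl
    rw [e1, PE.ev_add, PE.ev_mul, PE.ev_c, ev_tvM, ih]
    simp only [rvalM, rl, List.map_cons, List.sum_cons]
    field_simp

/-- The value of a list in closed form: `u c1 + r c2 + ...` verified by the kernel. -/
theorem rvalM_eq {m : ℕ} {D : Int} (hD : D ≠ 0) {l : List (Int × RTerm)} {q : PE}
    (h : chk [] (PE.sub (lvM m l) q) = true) (u r : ℝ) :
    rvalM m (rl D l) u r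
      = PE.ev (fun i => ([u, r] : List ℝ).getD i 0) q / ((m + 1) * D) := by
  have hD' : (D : ℝ) ≠ 0 := by exact_mod_cast hD
  have hm : (m : ℝ) + 1 ≠ 0 := by positivity
  have h1 := ev_eq_of_chk h (fun i => ([u, r] : List ℝ).getD i 0) (fun i hi =>
    List.getD_eq_default _ _ (by simp at hi ⊢; omega))
  rw [← h1, ev_lvM _ m hD]
  have e0 : ([u, r] : List ℝ).getD 0 0 = u := rfl
  have e1 : ([u, r] : List ℝ).getD 1 0 = r := rfl
  rw [e0, e1]
  field_simp

/-- admissibility from the integer list -/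
lemma okM_rl {m : ℕ} {D : Int} {l : List (Int × RTerm)}
    (h : (l.all fun x => x.2.okM m) = true) : ∀ cT ∈ rl D l, cT.2.okM m = true := by
  intro cT hcT
  unfold rl at hcT
  obtain ⟨x, hx, rfl⟩ := List.mem_map.1 hcT
  exact List.all_eq_true.1 h x hx

end

end Vale.Agent.P224.POS.RM
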