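import Vale.Agent.P224.POS.EOk

/-!
The data of the static part from the explicit coefficient functions.
-/

namespace Vale.Agent.P224.POS

open Set Filter Function Vale.Agent.P224
open Vale.Agent.P224.SMH Vale.Agent.P224.SH
open Vale.Agent.P224.SM2 hiding ker

/-- the data from the bounds of the explicit coefficient functions -/
theorem eok_of_expl2 {h : ℕ} (h2 : 2 ≤ h) (h8 : h ≤ 8) {d : HD} {γ a c : ℝ}
    (ha : ((2 * h : ℕ) : ℝ) / 2 = a) (hc : cE (2 * h) = c)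
    (hb : ∀ lam : ℝ, Cert (2 * h) (yF a c) (ZF a c) (eF a c) (rF a c) →
      CertLim (2 * h) (yF a c) (ZF a c) (eF a c) (rF a c) lam →
      ((2 * h : ℕ) : ℝ) * rF a c 0 ≤ γ ∧ ∀ T ∈ Ioo (0 : ℝ) 1, ∀ k, Adm k →
        Hd' d T k ≤ FK (2 * h) T (yF a c T) (eF a c T) (rF a c T) k) :
    EOk (2 * h) (evenRatio h) γ d := by
  subst ha hc
  have h4 : 4 ≤ 2 * h := by omega
  have hm4 : (4 : ℝ) ≤ ((2 * h : ℕ) : ℝ) := by exact_mod_cast h4
  have hI := II_pos (a := ((2 * h : ℕ) : ℝ) / 2) (by linarith) 0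
  have hc0 : 0 ≤ cE (2 * h) := div_nonneg (div_nonneg (by linarith) (by linarith)) hI.le
  have hl := certLimF (m := 2 * h) (c := cE (2 * h)) h4 hc0
  obtain ⟨b1, b2⟩ := hb _ (certF h4 (by omega) hc0) hl
  exact eok_of_expl h2 h8 b1 b2

end Vale.Agent.P224.POS
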