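import Vale.Agent.P224.POS.ZE
import Vale.Agent.P224.SM2.Gam
import Vale.Agent.P224.SM2.Cst

/-!
The data of the static part in even dimension, as one proposition.
-/

namespace Vale.Agent.P224.POS

open MeasureTheory Set Filter Function Module Vale.Agent.P224 Vale.Agent.P224.UE
open Vale.Agent.P224.SMH Vale.Agent.P224.SH
open Vale.Agent.P224.SM2 hiding ker
open scoped Topology RealInnerProductSpace ENNReal ContDiff Manifold

set_option linter.unusedSectionVars false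

/-- the data of the static part in dimension `m`, with constant `C` and defect `g` -/
def EOk (m : ℕ) (C g : ℝ) (d : HD) : Prop :=
  ∃ (y Z e r : ℝ → ℝ) (lam : ℝ), 0 ≤ lam ∧ C = 2 * lam ∧ Cert m y Z e r ∧
    CertLim m y Z e r lam ∧ y 0 = ((m : ℝ) - 1) / (m - 2) ∧ Z 0 = ((m : ℝ) - 1) / (m - 2) ∧
    e 0 = 0 ∧ m * r 0 ≤ g ∧
    ∀ T ∈ Ioo (0 : ℝ) 1, ∀ k, Adm k → Hd' d T k ≤ FK m T (y T) (e T) (r T) k

/-- the factor of the explicit coefficient functions -/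
noncomputable def cE (m : ℕ) : ℝ := ((m : ℝ) - 1) / (m - 2) / II ((m : ℝ) / 2) 0

/-- the data from the bounds of the explicit coefficient functions -/
theorem eok_of_expl {h : ℕ} (h2 : 2 ≤ h) (h8 : h ≤ 8) {d : HD} {γ : ℝ}
    (hr : ((2 * h : ℕ) : ℝ) * rF (((2 * h : ℕ) : ℝ) / 2) (cE (2 * h)) 0 ≤ γ)
    (hb : ∀ T ∈ Ioo (0 : ℝ) 1, ∀ k, Adm k →
      Hd' d T k ≤ FK (2 * h) T (yF (((2 * h : ℕ) : ℝ) / 2) (cE (2 * h)) T)
      (eF (((2 * h : ℕ) : ℝ) / 2) (cE (2 * h)) T) (rF (((2 * h : ℕ) : ℝ) / 2) (cE (2 * h)) T) k) :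
    EOk (2 * h) (evenRatio h) γ d := by
  have h4 : 4 ≤ 2 * h := by omega
  set m := 2 * h with hm
  have hm4 : (4 : ℝ) ≤ m := by exact_mod_cast h4
  have ha : (2 : ℝ) ≤ (m : ℝ) / 2 := by linarith
  have hI := II_pos ha 0
  have hI1 := (II_pos ha 1).le
  have hc0 : 0 ≤ cE m := div_nonneg (div_nonneg (by linarith) (by linarith)) hI.le
  refine ⟨yF (m / 2) (cE m), ZF (m / 2) (cE m), eF (m / 2) (cE m), rF (m / 2) (cE m),
    ((m : ℝ) - 1) / (m - 2) * (II (m / 2) 1 / II (m / 2) 0),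
    mul_nonneg (div_nonneg (by linarith) (by linarith)) (div_nonneg hI1 hI.le),
    (lam_eq h h2).symm, certF h4 (by omega) hc0, ?_, ?_, ?_, eF_zero ha, hr, hb⟩
  · have := certLimF (c := cE m) h4 hc0
    have e : cE m * II (m / 2) 1 = (m - 1) / (m - 2) * (II (m / 2) 1 / II (m / 2) 0) := by
      rw [cE]; ring
    rwa [e] at this
  · unfold yF
    rw [show (1 : ℝ) - 0 ^ 2 = 1 by norm_num, Real.one_rpow, cE]
    field_simp
  · unfold ZF
    rw [show (1 : ℝ) - 0 ^ 2 = 1 by norm_num, Real.one_rpow, cE, Jc_zero]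
    field_simp

/-- the data from the bounds for all certificates -/
theorem eok_of_all {h : ℕ} (h2 : 2 ≤ h) (h8 : h ≤ 8) {d : HD} {γ : ℝ}
    (hb : ∀ (y Z e r : ℝ → ℝ) (lam : ℝ), Cert (2 * h) y Z e r → CertLim (2 * h) y Z e r lam →
      y 0 = (((2 * h : ℕ) : ℝ) - 1) / (((2 * h : ℕ) : ℝ) - 2) →
      Z 0 = (((2 * h : ℕ) : ℝ) - 1) / (((2 * h : ℕ) : ℝ) - 2) → e 0 = 0 →
      ((2 * h : ℕ) : ℝ) * r 0 ≤ γ ∧ ∀ T ∈ Ioo (0 : ℝ) 1, ∀ k, Adm k →
        Hd' d T k ≤ FK (2 * h) T (y T) (e T) (r T) k) :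
    EOk (2 * h) (evenRatio h) γ d := by
  obtain ⟨y, Z, e, r, hc, hl, hy0, hZ0, he0, -⟩ := exists_cert2 (m := 2 * h) (by omega) (by omega)
  obtain ⟨hr, hB⟩ := hb y Z e r _ hc hl hy0 hZ0 he0
  have hm4 : (4 : ℝ) ≤ ((2 * h : ℕ) : ℝ) := by
    have : 4 ≤ 2 * h := by omega
    exact_mod_cast this
  have ha : (2 : ℝ) ≤ ((2 * h : ℕ) : ℝ) / 2 := by linarith
  exact ⟨y, Z, e, r, _, mul_nonneg (div_nonneg (by linarith) (by linarith))
    (div_nonneg (II_pos ha 1).le (II_pos ha 0).le), (lam_eq h h2).symm, hc, hl, hy0, hZ0, he0, hr,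
    hB⟩

section

variable {V W M : Type*} [NormedAddCommGroup V] [InnerProductSpace ℝ V] [FiniteDimensional ℝ V]
  [NormedAddCommGroup W] [InnerProductSpace ℝ W] [FiniteDimensional ℝ W]
  [TopologicalSpace M] [ChartedSpace V M]
  [MeasurableSpace V] [BorelSpace V] [MeasurableSpace M] [BorelSpace M]
  [IsManifold 𝓘(ℝ, V) ∞ M] [CompactSpace M] [T2Space M]
  [MeasurableSpace W] [BorelSpace W]

/-- the static inequality from the data -/
theorem EOk.static {m : ℕ} {C g : ℝ} {d : HD} (h : EOk m C g d) (hm : 3 ≤ m)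
    {kA kB : ℕ} (hz : d.zOk = true) (hd : d.dvOk kA kB = true)
    (hqA : 2 * kA < m) (hqB : 2 * kB < m + 4)
    {L : R9 → ℝ} (hLd : ∀ x : R9, x 0 < 1 → Hd d 1 (x 0, x 1, x 2, x 3) = L x)
    (hV : finrank ℝ V = m) (hW : finrank ℝ W = finrank ℝ V + 2) {F : M → W}
    (hF : SphImm V F) (hmin : ∀ x n, IsUnitNormal V F x n → meanCurv V F x n = 0)
    {N : M → W} (hNs : ContMDiff 𝓘(ℝ, V) 𝓘(ℝ, W) ∞ N) (hN : ∀ x, IsUnitNormal V F x (N x))
    (hinj : Injective F) (v : W) :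
    Integrable (fun q => L (dat F N v q)) ((volM V F).prod (volM V F)) ∧
      ∫ q, L (dat F N v q) ∂((volM V F).prod (volM V F))
        + C * sphereVol m * (volM V F).real univ
      ≤ (volM V F).real univ ^ 2 + g * ‖∫ x, N x ∂(volM V F)‖ ^ 2 := by
  obtain ⟨y, Z, e, r, lam, hlam, hC, hc, hl, h0, h1, he, hr, hle⟩ := h
  obtain ⟨a1, a2⟩ := staticM_of_le hm hV hW hF hmin hlam hC rfl hc hl h0 h1 he hz hd hqA hqB hle
    hLd hNs hN hinj v
  refine ⟨a1, a2.trans ?_⟩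
  have := mul_le_mul_of_nonneg_right hr (sq_nonneg ‖∫ x, N x ∂(volM V F)‖)
  linarith

end

end Vale.Agent.P224.POS
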