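import Vale.Agent.P224.POS.Kron

/-!
Verification of polynomial identities by evaluation in the kernel.
-/

namespace Vale.Agent.P224.POS

noncomputable section

/-- the codes of the variables that are not replaced by numbers -/
def prs : List Nat := [2, 3, 5, 7, 11, 13, 17, 19, 23, 29]

/-- look up -/
def lk {α : Type} (d : Nat → α) (L : List α) (i : Nat) : α :=
  List.rec (motive := fun _ => Nat → α) d
    (fun a _ ih j => Nat.rec (motive := fun _ => α) a (fun j' _ => ih j') j) L i

lemma lk_nil {α : Type} (d : Nat → α) (i : ℕ) : lk d [] i = d i := rfl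
lemma lk_zero {α : Type} (d : Nat → α) (a : α) (L : List α) : lk d (a :: L) 0 = a := rfl
lemma lk_succ {α : Type} (d : Nat → α) (a : α) (L : List α) (i : ℕ) :
    lk d (a :: L) (i + 1) = lk d L i := rfl

lemma lk_lt {α : Type} (d : Nat → α) (x : α) (L : List α) (i : ℕ) (h : i < L.length) :
    lk d L i = L.getD i x := by
  induction L generalizing i with
  | nil => exact absurd h (by simp)
  | cons a L ih =>
    cases i with
    | zero => simp [lk_zero]
    | succ i =>
      rw [lk_succ, ih i (by simpa using h)]
      simp

lemma lk_ge {α : Type} (d : Nat → α) (L : List α) (i : ℕ) (h : L.length ≤ i) :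
    lk d L i = d (i - L.length) := by
  induction L generalizing i with
  | nil => simp [lk_nil]
  | cons a L ih =>
    cases i with
    | zero => exact absurd h (by simp)
    | succ i =>
      rw [lk_succ, ih i (by simpa using h)]
      simp

/-- the environment -/
def env (Ms : List Nat) (i : Nat) : HP :=
  lk (fun j => lk (fun _ => HP.nil) (List.map (fun p => HP.cons p 1 HP.nil) prs) j)
    (List.map (fun a => HP.cons 1 (Int.ofNat a) HP.nil) Ms) i

/-- the bounds -/
def bchk (e : PE) (L : List Nat) (pre : List Nat) : Bool :=
  List.rec (motive := fun _ => List Nat → Bool) (fun _ => true)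
    (fun M _ ih pre => Bool.rec (motive := fun _ => Bool) false (ih (pre ++ [M]))
      (Nat.ble (Nat.succ (PE.abN (lk (fun _ => 1) pre) e)) M)) L pre

/-- the check -/
def chk (Ms : List Nat) (e : PE) : Bool :=
  Bool.rec (motive := fun _ => Bool) false (HP.zero (PE.hp (env Ms) e)) (bchk e Ms [])

lemma bchk_spec (e : PE) (L pre : List ℕ) (h : bchk e L pre = true) :
    ∀ k < L.length, PE.ab (fun i => lk (fun _ => 1) (pre ++ L.take k) i) e < L.getD k 1 := by
  induction L generalizing pre with
  | nil => intro k hk; exact absurd hk (by simp)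
  | cons M L ih =>
    have e1 : bchk e (M :: L) pre = Bool.rec (motive := fun _ => Bool) false
      (bchk e L (pre ++ [M])) (Nat.ble (Nat.succ (PE.abN (lk (fun _ => 1) pre) e)) M) := rfl
    rw [e1] at h
    cases h1 : Nat.ble (Nat.succ (PE.abN (lk (fun _ => 1) pre) e)) M with
    | false =>
      rw [h1] at h
      exact absurd h (by simp)
    | true =>
      rw [h1] at h
      have h2 := Nat.le_of_ble_eq_true h1
      rw [PE.abN_eq] at h2
      intro k hk
      cases k with
      | zero =>
        rw [List.take_zero, List.append_nil, List.getD_cons_zero]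
        exact h2
      | succ k =>
        have := ih (pre ++ [M]) h k (by simpa using hk)
        rw [List.getD_cons_succ, List.take_succ_cons]
        rwa [List.append_assoc, List.singleton_append] at this

section

variable {R : Type*} [CommRing R]

/-- the value of a code -/
def mo (z : ℕ → R) (k : ℕ) : R :=
  if k = 0 then 0 else ∏ j ∈ Finset.range 10, z j ^ (k.factorization (prs.getD j 0))

lemma mo_mul (z : ℕ → R) (k l : ℕ) : mo z (k * l) = mo z k * mo z l := by
  unfold mo
  by_cases hk : k = 0
  · simp [hk]
  by_cases hl : l = 0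
  · simp [hl]
  rw [if_neg hk, if_neg hl, if_neg (Nat.mul_ne_zero hk hl), Nat.factorization_mul hk hl,
    ← Finset.prod_mul_distrib]
  refine Finset.prod_congr rfl fun j _ => ?_
  rw [Finsupp.add_apply, pow_add]

lemma mo_one (z : ℕ → R) : mo z 1 = 1 := by
  simp [mo]

lemma prs_prime : ∀ i < 10, Nat.Prime (prs.getD i 0) := by
  intro i hi
  unfold prs
  interval_cases i <;> norm_num

lemma prs_inj : ∀ i < 10, ∀ j < 10, prs.getD i 0 = prs.getD j 0 → i = j := by
  decide

lemma mo_pr (z : ℕ → R) (i : ℕ) (hi : i < 10) : mo z (prs.getD i 0) = z i := by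
  have hp := prs_prime i hi
  unfold mo
  rw [if_neg hp.ne_zero, hp.factorization]
  rw [Finset.prod_eq_single i]
  · simp
  · intro j hj hji
    have : prs.getD i 0 ≠ prs.getD j 0 := fun h =>
      hji (prs_inj i hi j (Finset.mem_range.1 hj) h).symm
    rw [Finsupp.single_apply, if_neg this, pow_zero]
  · intro h
    exact absurd (Finset.mem_range.2 hi) h

end

lemma env_val (Ms : List ℕ) (i : ℕ) :
    HP.val (mo (fun j => (MvPolynomial.X (Ms.length + j) : AZ))) (env Ms i)
      = yv Ms (Ms.length + 10) Ms.length i := by
  unfold env yv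
  by_cases h : i < Ms.length
  · rw [if_pos h, lk_lt _ HP.nil _ _ (by simpa using h)]
    have : (List.map (fun a => HP.cons 1 (Int.ofNat a) HP.nil) Ms).getD i HP.nil
        = HP.cons 1 (Int.ofNat (Ms.getD i 1)) HP.nil := by
      rw [List.getD_eq_getElem _ _ (by simpa using h), List.getElem_map,
        List.getD_eq_getElem _ _ h]
    rw [this]
    simp [mo_one]
  · rw [if_neg h, lk_ge _ _ _ (by simpa using h), List.length_map]
    have hi : Ms.length + (i - Ms.length) = i := by omega
    by_cases h2 : i - Ms.length < 10
    · rw [if_pos (by omega), lk_lt _ HP.nil _ _ (by simpa [prs] using h2)]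
      have : (List.map (fun p => HP.cons p 1 HP.nil) prs).getD (i - Ms.length) HP.nil
          = HP.cons (prs.getD (i - Ms.length) 0) 1 HP.nil := by
        rw [List.getD_eq_getElem _ _ (by simpa [prs] using h2), List.getElem_map,
          List.getD_eq_getElem _ _ (by simpa [prs] using h2)]
      rw [this, HP.val_cons, HP.val_nil, mo_pr _ _ h2, hi]
      simp
    · rw [if_neg (by omega), lk_ge _ _ _ (by simpa [prs] using not_lt.1 h2)]
      rfl

/-- Verified identities: if the check succeeds, the expression vanishes for all values of the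
variables. -/
theorem ev_eq_zero_of_chk {Ms : List ℕ} {e : PE} (h : chk Ms e = true) {R : Type*} [CommRing R]
    (f : ℕ → R) (hf : ∀ i, Ms.length + 10 ≤ i → f i = 0) : PE.ev f e = 0 := by
  have e1 : chk Ms e = Bool.rec (motive := fun _ => Bool) false
    (HP.zero (PE.hp (env Ms) e)) (bchk e Ms []) := rfl
  rw [e1] at h
  cases h1 : bchk e Ms [] with
  | false =>
    rw [h1] at h
    exact absurd h (by simp)
  | true =>
    rw [h1] at h
    refine ev_of_univ (N := Ms.length + 10) (Ms := Ms) ?_ f hf
    refine kron Ms _ e Ms.length (by omega) ?_ ?_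
    · intro k hk
      have h2 := bchk_spec e Ms [] h1 k hk
      convert h2 using 2
      funext i
      rw [List.nil_append]
      by_cases hi : i < k
      · rw [if_pos hi, lk_lt _ 1 _ _ (by simp; omega)]
        rw [List.getD_eq_getElem _ _ (by omega), List.getD_eq_getElem _ _ (by simp; omega),
          List.getElem_take]
      · rw [if_neg hi, lk_ge _ _ _ (by simp; omega)]
    · have h2 := HP.val_zero (mo (fun j => (MvPolynomial.X (Ms.length + j) : AZ))) h
      rw [PE.val_hp _ (mo_mul _) (mo_one _)] at h2
      rw [← h2]
      congr 1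
      funext i
      exact (env_val Ms i).symm

theorem ev_eq_of_chk {Ms : List ℕ} {a b : PE} (h : chk Ms (a.sub b) = true) {R : Type*}
    [CommRing R] (f : ℕ → R) (hf : ∀ i, Ms.length + 10 ≤ i → f i = 0) :
    PE.ev f a = PE.ev f b := by
  have := ev_eq_zero_of_chk h f hf
  rwa [PE.ev_sub, sub_eq_zero] at this

end

end Vale.Agent.P224.POS
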