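import Vale.Agent.P224.UE.LawS
import Vale.Agent.P224.POS.Check

/-!
The rows of a certificate as polynomial expressions.
-/

namespace Vale.Agent.P224.POS

open Vale.Agent.P224.UE
open Vale.Agent.P224.SM2 hiding ker

noncomputable section

/-- substitution -/
def PE.sb (g : Nat → PE) (e : PE) : PE :=
  PE.rec (motive := fun _ => PE) (fun n => PE.c n) g (fun _ _ x y => PE.add x y)
    (fun _ _ x y => PE.sub x y) (fun _ _ x y => PE.mul x y) (fun _ n x => PE.pow x n) e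

lemma PE.ev_sb {R : Type*} [CommRing R] (f : ℕ → R) (g : ℕ → PE) (e : PE) :
    PE.ev f (PE.sb g e) = PE.ev (fun i => PE.ev f (g i)) e := by
  induction e with
  | c n => rfl
  | v i => rfl
  | add a b ha hb => rw [PE.ev_add, ← ha, ← hb]; rfl
  | sub a b ha hb => rw [PE.ev_sub, ← ha, ← hb]; rfl
  | mul a b ha hb => rw [PE.ev_mul, ← ha, ← hb]; rfl
  | pow a n ha => rw [PE.ev_pow, ← ha]; rfl

lemma PE.ev_lit {R : Type*} [CommRing R] (f : ℕ → R) (n : ℕ) :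
    PE.ev f (no_index (OfNat.ofNat n : PE)) = (n : R) := PE.ev_ofNat f n

/-- the pair data as values of the variables -/
def cd (d : R9) (i : ℕ) : ℝ := if h : i < 9 then d ⟨i, h⟩ else 0

lemma cd0 (d : R9) : cd d 0 = d 0 := rfl
lemma cd1 (d : R9) : cd d 1 = d 1 := rfl
lemma cd2 (d : R9) : cd d 2 = d 2 := rfl
lemma cd3 (d : R9) : cd d 3 = d 3 := rfl
lemma cd4 (d : R9) : cd d 4 = d 4 := rfl
lemma cd5 (d : R9) : cd d 5 = d 5 := rfl
lemma cd6 (d : R9) : cd d 6 = d 6 := rfl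
lemma cd7 (d : R9) : cd d 7 = d 7 := rfl
lemma cd8 (d : R9) : cd d 8 = d 8 := rfl

/-- the exchange of the points on the variables -/
def swi (i : Nat) : Nat :=
  match i with
  | 1 => 2
  | 2 => 1
  | 4 => 5
  | 5 => 4
  | 6 => 7
  | 7 => 6
  | i => i

lemma cd_sw (d : R9) (i : ℕ) : cd (sw9 d) i = cd d (swi i) := by
  match i with
  | 0 => rfl
  | 1 => rfl
  | 2 => rfl
  | 3 => rfl
  | 4 => rfl
  | 5 => rfl
  | 6 => rfl
  | 7 => rfl
  | 8 => rfl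
  | i + 9 =>
    have h1 : ¬ (i + 9 < 9) := by omega
    have e1 : swi (i + 9) = i + 9 := rfl
    rw [e1]
    unfold cd
    rw [dif_neg h1, dif_neg h1]

/-- the six rows as expressions -/
def rowP (k : Nat) (s t p c n1 n2 x1 x2 E K fs ft fe : PE) : PE :=
  match k with
  | 0 => (fs * (1 - s ^ 2 - p ^ 2) + ft * (0 - s * t - p * c) + fe * (x2 - s * x1 - p * n1))
      - 4 * s * K
  | 1 => (fs * (0 - s * t - p * c) + ft * (1 - t ^ 2 - c ^ 2) + fe * (n2 - t * x1 - c * n1))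
      - 4 * t * K
  | 2 => (fs * (x2 - s * x1 - p * n1) + ft * (n2 - t * x1 - c * n1) + fe * (E - x1 ^ 2 - n1 ^ 2))
      - 4 * x1 * K
  | 3 => p * (fs * (0 - s * t - p * c) + ft * (1 - t ^ 2 - c ^ 2) + fe * (n2 - t * x1 - c * n1))
      - c * (fs * (1 - s ^ 2 - p ^ 2) + ft * (0 - s * t - p * c) + fe * (x2 - s * x1 - p * n1))
      - 4 * (p * t - c * s) * K
  | 4 => p * (fs * (x2 - s * x1 - p * n1) + ft * (n2 - t * x1 - c * n1)
        + fe * (E - x1 ^ 2 - n1 ^ 2))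
      - n1 * (fs * (1 - s ^ 2 - p ^ 2) + ft * (0 - s * t - p * c) + fe * (x2 - s * x1 - p * n1))
      - 4 * (p * x1 - n1 * s) * K
  | _ => c * (fs * (x2 - s * x1 - p * n1) + ft * (n2 - t * x1 - c * n1)
        + fe * (E - x1 ^ 2 - n1 ^ 2))
      - n1 * (fs * (0 - s * t - p * c) + ft * (1 - t ^ 2 - c ^ 2) + fe * (n2 - t * x1 - c * n1))
      - 4 * (c * x1 - n1 * t) * K

lemma ev_rowP (f : ℕ → ℝ) (k : Fin 6) (s t p c n1 n2 x1 x2 E K fs ft fe : PE) :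
    PE.ev f (rowP k.val s t p c n1 n2 x1 x2 E K fs ft fe)
      = rowE k 4 (PE.ev f s) (PE.ev f t) (PE.ev f p) (PE.ev f c) (PE.ev f n1) (PE.ev f n2)
        (PE.ev f x1) (PE.ev f x2) (PE.ev f E) (PE.ev f K) (PE.ev f fs) (PE.ev f ft)
        (PE.ev f fe) := by
  fin_cases k <;>
  · simp only [rowP, rowE, PE.ev_add', PE.ev_sub', PE.ev_mul', PE.ev_pow', PE.ev_lit]
    push_cast
    ring

lemma rowE_mul (k : Fin 6) (m s t p c n1 n2 x1 x2 E K fs ft fe a : ℝ) :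
    rowE k m s t p c n1 n2 x1 x2 E (a * K) (a * fs) (a * ft) (a * fe)
      = a * rowE k m s t p c n1 n2 x1 x2 E K fs ft fe := by
  fin_cases k <;>
  · simp only [rowE]
    ring

/-- the term multiplied by the cube of `1 - s` -/
def tP (T : RTerm) : PE :=
  let s := PE.v 0
  let t := PE.v 1
  let p := PE.v 2
  let c := PE.v 3
  let n1 := PE.v 4
  let n2 := PE.v 5
  let x1 := PE.v 6
  let x2 := PE.v 7
  let E := PE.v 8
  let A := s ^ T.a
  let A' := PE.c T.a * s ^ (T.a - 1)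
  let w := (1 - s) ^ (3 - T.q)
  let w' := PE.c T.q * (1 - s) ^ (2 - T.q)
  E ^ T.l * (n2 ^ T.k * x2 ^ T.d) *
    rowP T.fam.val s t p c n1 n2 x1 x2 E (x1 ^ T.j * (t ^ T.i * (A * w)))
      (x1 ^ T.j * (t ^ T.i * (A' * w + A * w')))
      (x1 ^ T.j * (PE.c T.i * t ^ (T.i - 1) * (A * w)))
      (PE.c T.j * x1 ^ (T.j - 1) * (t ^ T.i * (A * w)))

lemma ker_one_mul {s : ℝ} (hs : s < 1) {q : ℕ} (hq : q ≤ 3) :
    (1 - s) ^ 3 * SM2.ker 1 q s = (1 - s) ^ (3 - q) := by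
  have h : (1 - s) ≠ 0 := by
    have : 0 < 1 - s := by linarith
    exact this.ne'
  unfold SM2.ker
  rw [one_mul]
  interval_cases q
  · simp
  · field_simp
  · field_simp
    norm_num
  · field_simp
    norm_num

lemma ev_tP {d : R9} (hs : d 0 < 1) {T : RTerm} (hq : T.q ≤ 2) :
    PE.ev (cd d) (tP T) = (1 - d 0) ^ 3 * T.F d := by
  have h1 := ker_one_mul hs (q := T.q) (by omega)
  have h2 := ker_one_mul hs (q := T.q + 1) (by omega)
  have e2 : 3 - (T.q + 1) = 2 - T.q := by omega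
  rw [e2] at h2
  unfold tP RTerm.F rG
  simp only [PE.ev_mul', PE.ev_pow', PE.ev_v, ev_rowP, PE.ev_add', PE.ev_sub', PE.ev_c,
    PE.ev_lit, cd0, cd1, cd2, cd3, cd4, cd5, cd6, cd7, cd8]
  push_cast
  rw [← h1, ← h2]
  have e3 : (1 - d 0) ^ 3 * (d 8 ^ T.l * (d 5 ^ T.k * d 7 ^ T.d)
      * rowE T.fam 4 (d 0) (d 1) (d 2) (d 3) (d 4) (d 5) (d 6) (d 7) (d 8)
        (d 6 ^ T.j * (d 1 ^ T.i * sk 1 T.a T.q (d 0)))
        (d 6 ^ T.j * (d 1 ^ T.i * sk' 1 T.a T.q (d 0)))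
        (d 6 ^ T.j * (T.i * d 1 ^ (T.i - 1) * sk 1 T.a T.q (d 0)))
        (T.j * d 6 ^ (T.j - 1) * (d 1 ^ T.i * sk 1 T.a T.q (d 0))))
      = d 8 ^ T.l * (d 5 ^ T.k * d 7 ^ T.d) * ((1 - d 0) ^ 3
        * rowE T.fam 4 (d 0) (d 1) (d 2) (d 3) (d 4) (d 5) (d 6) (d 7) (d 8)
        (d 6 ^ T.j * (d 1 ^ T.i * sk 1 T.a T.q (d 0)))
        (d 6 ^ T.j * (d 1 ^ T.i * sk' 1 T.a T.q (d 0)))
        (d 6 ^ T.j * (T.i * d 1 ^ (T.i - 1) * sk 1 T.a T.q (d 0)))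
        (T.j * d 6 ^ (T.j - 1) * (d 1 ^ T.i * sk 1 T.a T.q (d 0)))) := by ring
  rw [e3, ← rowE_mul T.fam 4 (d 0) (d 1) (d 2) (d 3) (d 4) (d 5) (d 6) (d 7) (d 8) _ _ _ _
    ((1 - d 0) ^ 3)]
  congr 2
  · unfold sk; ring
  · unfold sk'; ring
  · unfold sk; ring
  · unfold sk; ring

/-- the sum of the terms and of their exchanged versions -/
def rowsP (l : List (Int × RTerm)) : PE :=
  List.rec (motive := fun _ => PE) (PE.c 0)
    (fun cT _ ih => PE.add (PE.mul (PE.c cT.1)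
      (PE.add (tP cT.2) (PE.sb (fun i => PE.v (swi i)) (tP cT.2)))) ih) l

/-- the list with real coefficients -/
def rl (D : Int) (l : List (Int × RTerm)) : List (ℝ × RTerm) :=
  l.map fun cT => ((cT.1 : ℝ) / D, cT.2)

lemma ev_rowsP {d : R9} (hs : d 0 < 1) {D : Int} (hD : D ≠ 0) {l : List (Int × RTerm)}
    (hl : ∀ cT ∈ l, cT.2.q ≤ 2) :
    PE.ev (cd d) (rowsP l) = 2 * D * (1 - d 0) ^ 3 * rsum (rl D l) d := by
  have hD' : (D : ℝ) ≠ 0 := by exact_mod_cast hD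
  have hs' : (sw9 d) 0 < 1 := hs
  have e0 : (sw9 d) 0 = d 0 := rfl
  induction l with
  | nil => simp [rowsP, rsum, rl]
  | cons cT l ih =>
    have h1 := ev_tP hs (hl cT List.mem_cons_self)
    have h2 := ev_tP hs' (hl cT List.mem_cons_self)
    have h3 := ih fun x hx => hl x (List.mem_cons_of_mem _ hx)
    have e1 : rowsP (cT :: l) = PE.add (PE.mul (PE.c cT.1)
      (PE.add (tP cT.2) (PE.sb (fun i => PE.v (swi i)) (tP cT.2)))) (rowsP l) := rfl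
    have e2 : PE.ev (cd d) (PE.sb (fun i => PE.v (swi i)) (tP cT.2))
        = PE.ev (cd (sw9 d)) (tP cT.2) := by
      rw [PE.ev_sb]
      congr 1
      funext i
      rw [PE.ev_v, cd_sw]
    rw [e1, PE.ev_add, PE.ev_mul, PE.ev_c, PE.ev_add, e2, h1, h2, h3, e0]
    simp only [rsum, rl, List.map_cons, List.sum_cons]
    field_simp

/-- the value terms: twice `W9` -/
def valP (b0 b1 b2 b3 b4 b5 b6 b7 b8 : Int) : PE :=
  let c := PE.v 3
  let n1 := PE.v 4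
  let n2 := PE.v 5
  let x1 := PE.v 6
  let x2 := PE.v 7
  let E := PE.v 8
  2 * PE.c b0 + 2 * PE.c b1 * c + PE.c b2 * (n1 + n2) + 2 * PE.c b3 * E
    + PE.c b4 * (n1 ^ 2 + n2 ^ 2) + 2 * PE.c b5 * (n1 * n2) + 2 * PE.c b6 * (c * E)
    + PE.c b7 * (c * (n1 + n2)) + PE.c b8 * (x1 ^ 2 + x2 ^ 2)

lemma ev_valP (d : R9) {D : Int} (hD : D ≠ 0) (b0 b1 b2 b3 b4 b5 b6 b7 b8 : Int) :
    PE.ev (cd d) (valP b0 b1 b2 b3 b4 b5 b6 b7 b8) = 2 * D * W9 (b0 / D) (b1 / D) (b2 / D)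
      (b3 / D) (b4 / D) (b5 / D) (b6 / D) (b7 / D) (b8 / D) d := by
  have hD' : (D : ℝ) ≠ 0 := by exact_mod_cast hD
  unfold valP W9
  simp only [PE.ev_mul', PE.ev_pow', PE.ev_v, PE.ev_add', PE.ev_c, PE.ev_lit, cd3, cd4, cd5, cd6,
    cd7, cd8]
  push_cast
  field_simp

/-- the lower bound of the balanced functional -/
def Lr (d : R9) : ℝ :=
  (0.1857 * (1 - d 0)⁻¹ - 0.25 + 0.163 * (1 - d 0) - 0.037 * (1 - d 0) ^ 2) * (d 3 - d 0) ^ 2
    + (d 2 - d 1) ^ 2 * (0.2472 * (1 - d 0)⁻¹ ^ 3 + 0.2462 * (1 - d 0)⁻¹ ^ 2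
        + 0.2157 * (1 - d 0)⁻¹ + 0.0118
      + (-0.0021 * (1 - d 0)⁻¹ ^ 3 - 0.015 * (1 - d 0)⁻¹ ^ 2 + 0.067 * (1 - d 0)⁻¹ - 0.0147) * d 3
      + (0.067 * (1 - d 0)⁻¹ ^ 3 + 0.0222 * (1 - d 0)⁻¹ ^ 2 - 0.003 * (1 - d 0)⁻¹) * (d 2 * d 1))

/-- `10000 (1 - s) ^ 3` times the lower bound -/
def LP : PE :=
  let s := PE.v 0
  let t := PE.v 1
  let p := PE.v 2
  let c := PE.v 3
  let w := 1 - s
  (1857 * w ^ 2 - 2500 * w ^ 3 + 1630 * w ^ 4 - 370 * w ^ 5) * (c - s) ^ 2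
    + (p - t) ^ 2 * (2472 + 2462 * w + 2157 * w ^ 2 + 118 * w ^ 3
      + (670 * w ^ 2 - 21 - 150 * w - 147 * w ^ 3) * c + (670 + 222 * w - 30 * w ^ 2) * (p * t))

lemma ev_LP {d : R9} (hs : d 0 < 1) :
    PE.ev (cd d) LP = 10000 * (1 - d 0) ^ 3 * Lr d := by
  have h : (1 - d 0) ≠ 0 := by
    have : 0 < 1 - d 0 := by linarith
    exact this.ne'
  unfold LP Lr
  simp only [PE.ev_mul', PE.ev_pow', PE.ev_v, PE.ev_add', PE.ev_sub', PE.ev_lit, cd0, cd1, cd2,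
    cd3]
  push_cast
  generalize 1 - d 0 = w at h ⊢
  field_simp
  ring

/-- the left side of the certificate -/
def lhsP (D4 b0 b1 b2 b3 b4 b5 b6 b7 b8 : Int) (l : List (Int × RTerm)) : PE :=
  2 * PE.c D4 * LP + (1 - PE.v 0) ^ 3 * valP b0 b1 b2 b3 b4 b5 b6 b7 b8 + rowsP l

theorem ev_lhsP {d : R9} (hs : d 0 < 1) {D4 D : Int} (hD : D ≠ 0) (hD4 : D = 10000 * D4)
    (b0 b1 b2 b3 b4 b5 b6 b7 b8 : Int) {l : List (Int × RTerm)} (hl : ∀ cT ∈ l, cT.2.q ≤ 2) :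
    PE.ev (cd d) (lhsP D4 b0 b1 b2 b3 b4 b5 b6 b7 b8 l)
      = 2 * D * (1 - d 0) ^ 3 * (Lr d + W9 (b0 / D) (b1 / D) (b2 / D)
      (b3 / D) (b4 / D) (b5 / D) (b6 / D) (b7 / D) (b8 / D) d + rsum (rl D l) d) := by
  unfold lhsP
  rw [PE.ev_add', PE.ev_add', PE.ev_mul', PE.ev_mul', PE.ev_mul', PE.ev_pow', PE.ev_sub', ev_LP hs,
    ev_valP d hD, ev_rowsP hs hD hl, PE.ev_v, PE.ev_c, cd0, PE.ev_lit, PE.ev_lit, hD4]
  push_cast
  ring

/-- nonnegativity of the certificate -/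
theorem nonneg_of_lhsP {d : R9} (hs : d 0 < 1) {D4 D : Int} (hD : 0 < D) (hD4 : D = 10000 * D4)
    (b0 b1 b2 b3 b4 b5 b6 b7 b8 : Int) {l : List (Int × RTerm)} (hl : ∀ cT ∈ l, cT.2.q ≤ 2)
    (h : 0 ≤ PE.ev (cd d) (lhsP D4 b0 b1 b2 b3 b4 b5 b6 b7 b8 l)) :
    0 ≤ Lr d + W9 (b0 / D) (b1 / D) (b2 / D)
      (b3 / D) (b4 / D) (b5 / D) (b6 / D) (b7 / D) (b8 / D) d + rsum (rl D l) d := by
  rw [ev_lhsP hs hD.ne' hD4 b0 b1 b2 b3 b4 b5 b6 b7 b8 hl] at h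
  have hD' : (0 : ℝ) < D := by exact_mod_cast hD
  have hw : 0 < (1 - d 0) ^ 3 := pow_pos (by linarith) 3
  exact nonneg_of_mul_nonneg_right h (by positivity)

/-- five times the value of a term, in the variables `u`, `r` -/
def tv (T : RTerm) : PE :=
  let u := PE.v 0
  let r := PE.v 1
  Bool.rec (motive := fun _ => PE)
    (PE.mul (Bool.rec (motive := fun _ => PE) (PE.c (-1)) (PE.c 1) (decide (T.fam = 0)))
      (PE.mul (PE.pow u T.l)
        (match T.kn, T.kx with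
          | 0, 0 => 5
          | 1, 0 => 5 * u
          | 2, 0 => 5 * r
          | 0, 2 => u - r
          | _, _ => 0)))
    (PE.c 0) T.sub

lemma ev_tv (f : ℕ → ℝ) (T : RTerm) : PE.ev f (tv T) = 5 * T.V (f 0) (f 1) := by
  unfold tv RTerm.V
  cases h : T.sub with
  | true => simp
  | false =>
    simp only [Bool.false_eq_true, if_false]
    have e0 : ∀ a b : ℕ, PE.ev f (match a, b with
          | 0, 0 => (5 : PE)
          | 1, 0 => 5 * PE.v 0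
          | 2, 0 => 5 * PE.v 1
          | 0, 2 => PE.v 0 - PE.v 1
          | _, _ => 0) = 5 * mom (f 0) (f 1) a b := by
      intro a b
      unfold mom
      rcases a with _ | _ | _ | a <;> rcases b with _ | _ | _ | b <;> simp [PE.ev_lit] <;> ring
    have e1 := e0 T.kn T.kx
    by_cases hf : T.fam = 0
    · simp only [hf, decide_true, if_true]
      rw [PE.ev_mul, PE.ev_mul, PE.ev_pow, PE.ev_c, PE.ev_v, e1]
      push_cast
      ring
    · simp only [hf, decide_false, if_false]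
      rw [PE.ev_mul, PE.ev_mul, PE.ev_pow, PE.ev_c, PE.ev_v, e1]
      push_cast
      ring

/-- five times the value of the list -/
def lv (l : List (Int × RTerm)) : PE :=
  List.rec (motive := fun _ => PE) (PE.c 0)
    (fun cT _ ih => PE.add (PE.mul (PE.c cT.1) (tv cT.2)) ih) l

lemma ev_lv (f : ℕ → ℝ) {D : Int} (hD : D ≠ 0) (l : List (Int × RTerm)) :
    PE.ev f (lv l) = 5 * D * rval (rl D l) (f 0) (f 1) := by
  have hD' : (D : ℝ) ≠ 0 := by exact_mod_cast hD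
  induction l with
  | nil => simp [lv, rval, rl]
  | cons cT l ih =>
    have e1 : lv (cT :: l) = PE.add (PE.mul (PE.c cT.1) (tv cT.2)) (lv l) := rfl
    rw [e1, PE.ev_add, PE.ev_mul, PE.ev_c, ev_tv, ih]
    simp only [rval, rl, List.map_cons, List.sum_cons]
    field_simp

end

end Vale.Agent.P224.POS
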