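import Vale.Agent.P224.POS.Rows
import Vale.Agent.P224.POS.Lhs

/-!
The polynomial side of a certificate, in any dimension.
-/

namespace Vale.Agent.P224.POS.RM

open Vale.Agent.P224.UE

set_option linter.unusedSimpArgs false

noncomputable section

lemma vd_eq_cd (d : R9) : vd d = cd d := by
  funext i
  by_cases hi : i < 9
  · interval_cases i <;> rfl
  · rw [vd_ge _ _ (not_lt.1 hi)]
    unfold cd
    rw [dif_neg hi]

lemma toR_eq_rl (D : ℕ) (L : List (Int × RTerm)) : toR D L = rl (D : ℤ) L := by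
  unfold toR rl
  simp

/-- the value of a polynomial given by its coefficients -/
def hor (l : List Int) (w : ℝ) : ℝ := List.rec (motive := fun _ => ℝ) 0 (fun a _ ih => a + w * ih) l

lemma hor_nil (w : ℝ) : hor [] w = 0 := rfl
lemma hor_cons (a : Int) (l : List Int) (w : ℝ) : hor (a :: l) w = a + w * hor l w := rfl

/-- the expression of a polynomial given by its coefficients -/
def horP (w : PE) (l : List Int) : PE :=
  List.rec (motive := fun _ => PE) (PE.c 0) (fun a _ ih => PE.add (PE.c a) (PE.mul w ih)) l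

lemma ev_horP (f : ℕ → ℝ) (w : PE) (l : List Int) : PE.ev f (horP w l) = hor l (PE.ev f w) := by
  induction l with
  | nil => simp [horP, hor]
  | cons a l ih =>
    change PE.ev f (PE.add (PE.c a) (PE.mul w (horP w l))) = (a : ℝ) + PE.ev f w * hor l (PE.ev f w)
    rw [PE.ev_add, PE.ev_mul, PE.ev_c, ih]

/-- the functional that does not involve the fixed vector -/
def Lg (DL K : ℕ) (lA l0 l1 l2 : List Int) (d : R9) : ℝ :=
  ((1 - d 0) ^ K)⁻¹ / DL * ((1 - d 0) ^ 2 * hor lA (1 - d 0) * (d 3 - d 0) ^ 2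
    + (d 2 - d 1) ^ 2 * (hor l0 (1 - d 0) + hor l1 (1 - d 0) * d 3
      + hor l2 (1 - d 0) * (d 2 * d 1)))

lemma Lg_four {d : R9} (hd : d 0 < 1) :
    Lg 10000 3 [1857, -2500, 1630, -370] [2472, 2462, 2157, 118] [-21, -150, 670, -147]
      [670, 222, -30] d = Lr d := by
  have h : (1 - d 0) ≠ 0 := by
    have : 0 < 1 - d 0 := by linarith
    exact this.ne'
  unfold Lg Lr
  simp only [hor_cons, hor_nil]
  push_cast
  generalize 1 - d 0 = w at h ⊢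
  field_simp
  ring

/-- the expression of this functional -/
def LgP (lA l0 l1 l2 : List Int) : PE :=
  PE.add
    (PE.mul (PE.mul (PE.pow uP 2) (horP uP lA)) (PE.pow (PE.sub (PE.v 3) (PE.v 0)) 2))
    (PE.mul (PE.pow (PE.sub (PE.v 2) (PE.v 1)) 2)
      (PE.add (PE.add (horP uP l0) (PE.mul (horP uP l1) (PE.v 3)))
        (PE.mul (horP uP l2) (PE.mul (PE.v 2) (PE.v 1)))))

lemma ev_LgP {d : R9} (hd : d 0 < 1) {DL : ℕ} (hDL : 0 < DL) (K : ℕ) (lA l0 l1 l2 : List Int) :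
    PE.ev (vd d) (LgP lA l0 l1 l2) = DL * (1 - d 0) ^ K * Lg DL K lA l0 l1 l2 d := by
  have h : (1 - d 0) ≠ 0 := by
    have : 0 < 1 - d 0 := by linarith
    exact this.ne'
  have hDL' : (DL : ℝ) ≠ 0 := by exact_mod_cast hDL.ne'
  have hu : PE.ev (vd d) uP = 1 - d 0 := by simp [uP]
  unfold LgP Lg
  simp only [PE.ev_add, PE.ev_sub, PE.ev_mul, PE.ev_pow, PE.ev_v, ev_horP, hu, vd0, vd1, vd2, vd3]
  field_simp

/-- the left side of the certificate -/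
def lhsM (m K : Nat) (D4 : Int) (lA l0 l1 l2 : List Int) (b0 b1 b2 b3 b4 b5 b6 b7 b8 : Int)
    (L : List (Int × RTerm)) : PE :=
  PE.add (PE.add (PE.mul (PE.c (2 * D4)) (LgP lA l0 l1 l2)) (WP K b0 b1 b2 b3 b4 b5 b6 b7 b8))
    (RP m K L)

theorem ev_lhsM {d : R9} (hd : d 0 < 1) (m : ℕ) {K DL D D4 : ℕ} (hDL : 0 < DL) (hD4 : 0 < D4)
    (hD : D = DL * D4) (lA l0 l1 l2 : List Int) (b0 b1 b2 b3 b4 b5 b6 b7 b8 : Int)
    {L : List (Int × RTerm)} (hL : ∀ x ∈ L, x.2.q + 1 ≤ K) :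
    PE.ev (cd d) (lhsM m K D4 lA l0 l1 l2 b0 b1 b2 b3 b4 b5 b6 b7 b8 L)
      = 2 * D * (1 - d 0) ^ K * (Lg DL K lA l0 l1 l2 d
        + W9 (b0 / D) (b1 / D) (b2 / D) (b3 / D) (b4 / D) (b5 / D) (b6 / D) (b7 / D) (b8 / D) d
        + rsumM m (rl (D : ℤ) L) d) := by
  have hD0 : 0 < D := hD ▸ Nat.mul_pos hDL hD4
  rw [← vd_eq_cd, ← toR_eq_rl]
  unfold lhsM
  rw [PE.ev_add, PE.ev_add, PE.ev_mul, PE.ev_c, ev_LgP hd hDL K, ev_WP hD0, ev_RP m hD0 hL hd.ne]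
  have : (D : ℝ) = DL * D4 := by rw [hD]; push_cast; ring
  push_cast
  rw [this]
  ring

/-- nonnegativity of the certificate -/
theorem nonneg_of_lhsM {d : R9} (hd : d 0 < 1) (m : ℕ) {K DL D D4 : ℕ} (hDL : 0 < DL)
    (hD4 : 0 < D4) (hD : D = DL * D4) (lA l0 l1 l2 : List Int)
    (b0 b1 b2 b3 b4 b5 b6 b7 b8 : Int) {L : List (Int × RTerm)} (hL : ∀ x ∈ L, x.2.q + 1 ≤ K)
    (h : 0 ≤ PE.ev (cd d) (lhsM m K D4 lA l0 l1 l2 b0 b1 b2 b3 b4 b5 b6 b7 b8 L)) :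
    0 ≤ Lg DL K lA l0 l1 l2 d
        + W9 (b0 / D) (b1 / D) (b2 / D) (b3 / D) (b4 / D) (b5 / D) (b6 / D) (b7 / D) (b8 / D) d
        + rsumM m (rl (D : ℤ) L) d := by
  rw [ev_lhsM hd m hDL hD4 hD lA l0 l1 l2 b0 b1 b2 b3 b4 b5 b6 b7 b8 hL] at h
  have hD0 : (0 : ℝ) < D := by exact_mod_cast (hD ▸ Nat.mul_pos hDL hD4 : 0 < D)
  have hw : 0 < (1 - d 0) ^ K := pow_pos (by linarith) K
  exact nonneg_of_mul_nonneg_right h (by positivity)

/-- the bound of the exponents is decidable -/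
lemma all_le {K : ℕ} {L : List (Int × RTerm)}
    (h : (L.all fun x => Nat.ble (x.2.q + 1) K) = true) : ∀ x ∈ L, x.2.q + 1 ≤ K := by
  intro x hx
  exact Nat.le_of_ble_eq_true (List.all_eq_true.1 h x hx)

end

end Vale.Agent.P224.POS.RM
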