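import Vale.Agent.P224.POS.MainE
import Vale.Agent.P224.POS.M14.Main
import Vale.Agent.P224.POS.M14.Eok
import Vale.Agent.P224.POS.M16.Main
import Vale.Agent.P224.POS.M16.Eok

/-!
The sharp volume bound in the even dimensions from four to sixteen.
-/

namespace Vale.Agent.P224.POS

open MeasureTheory Set Filter Function Module Vale.Agent.P224 Vale.Agent.P224.UE
open scoped Topology RealInnerProductSpace ENNReal ContDiff Manifold

variable {V W M : Type*} [NormedAddCommGroup V] [InnerProductSpace ℝ V] [FiniteDimensional ℝ V]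
  [NormedAddCommGroup W] [InnerProductSpace ℝ W] [FiniteDimensional ℝ W]
  [TopologicalSpace M] [ChartedSpace V M]
  [MeasurableSpace V] [BorelSpace V] [MeasurableSpace M] [BorelSpace M]
  [IsManifold 𝓘(ℝ, V) ∞ M] [CompactSpace M] [T2Space M] [ConnectedSpace M]
  [MeasurableSpace W] [BorelSpace W]

/-- **The sharp bound in the even dimensions from four to sixteen.** A closed connected minimal
hypersurface of the sphere, immersed and not contained in a great sphere, has at least the volume
of the least Clifford hypersurface. -/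
theorem mainE16 (h2 : Even (finrank ℝ V)) (h4 : 4 ≤ finrank ℝ V) (h16 : finrank ℝ V ≤ 16)
    (hW : finrank ℝ W = finrank ℝ V + 2)
    {F : M → W} (hF : SphImm V F) (hmin : ∀ x n, IsUnitNormal V F x n → meanCurv V F x n = 0)
    (hng : ¬ ∃ a : W, a ≠ 0 ∧ ∀ x, ⟪F x, a⟫ = 0) :
    ENNReal.ofReal (leastClifford (finrank ℝ V)) ≤ volM V F univ := by
  rcases Nat.lt_or_ge 12 (finrank ℝ V) with h | h
  · obtain ⟨k, hk⟩ := h2
    have h14 : finrank ℝ V = 14 ∨ finrank ℝ V = 16 := by omega
    rcases h14 with h14 | h14
    · exact M14.main_of_eok M14.eok h14 hW hF hmin hng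
    · exact M16.main_of_eok M16.eok h14 hW hF hmin hng
  · exact mainE h2 h4 h hW hF hmin hng

end Vale.Agent.P224.POS
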