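import Vale.Agent.P224.POS.Psd

/-!
A faster kernel check of positive semidefiniteness of a large integer matrix. The witness is the
same as in `POS/Psd.lean`: `sc * G = (L - M) * (L - M)ᵀ + (n + 1) * ε + R`, `|R p q| ≤ ε`, but every
inner product of two rows is one digit of one product of two packed natural numbers, so that the
check takes `O(n ^ 2)` instead of `O(n ^ 3)` kernel steps.

* `psdF C sc M ε BL BG W G : Bool`, by `decide +kernel`; `W`, `G` = packed rows of `L` (base `BL`) and
  of the lower triangle of `G` (base `BG`, offset `BG / 2`); `C` = base of the products;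
* `qpos_of_psdF : psdF C sc M ε BL BG W G = true → QPos (rowsZ BG G 0)` (the form of `qpos_of_chk`).
-/

namespace Vale.Agent.P224.POS

noncomputable section

/-- `∑ a k * C ^ k` -/
def pkN (C : Nat) (a : List Nat) : Nat :=
  List.rec (motive := fun _ => Nat) 0 (fun x _ ih => Nat.add x (Nat.mul C ih)) a

/-- the packed row with the last entry as lowest digit -/
def rvN (C : Nat) (a : List Nat) (acc : Nat) : Nat :=
  List.rec (motive := fun _ => Nat → Nat) (fun acc => acc)
    (fun x _ ih acc => ih (Nat.add (Nat.mul C acc) x)) a acc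

/-- the sum of a row -/
def smN (a : List Nat) : Nat :=
  List.rec (motive := fun _ => Nat) 0 (fun x _ ih => Nat.add x ih) a

/-- the data of a row: `C ^ q`, the reversed packed row, `M *` its sum, the constant -/
structure RD where
  /-- `C ^ q` -/
  cq : Nat
  /-- the reversed packed row -/
  R : Nat
  /-- `M *` the sum of the row -/
  ms : Nat
  /-- `M * M * (q + 1) + c0` -/
  ky : Nat

/-- the data of all rows -/
def rdL (C BL M c0 : Nat) (W : List Nat) (q Cq : Nat) : List RD :=
  List.rec (motive := fun _ => Nat → Nat → List RD) (fun _ _ => [])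
    (fun w _ ih q Cq => List.cons
      (RD.mk Cq (rvN C (unp BL (Nat.succ q) w) 0) (Nat.mul M (smN (unp BL (Nat.succ q) w)))
        (Nat.add (Nat.mul (Nat.mul M M) (Nat.succ q)) c0))
      (ih (Nat.succ q) (Nat.mul Cq C))) W q Cq

/-- one entry -/
def entF (C sc M ε d A : Nat) (r : RD) (gz S : Nat) : Bool :=
  Bool.rec (motive := fun _ => Bool) false
    (Nat.ble (Nat.add (Nat.add d r.ky) (Nat.mod (Nat.div (Nat.mul A r.R) r.cq) C))
      (Nat.add (Nat.add (Nat.mul sc gz) (Nat.add (Nat.mul M S) r.ms)) ε))
    (Nat.ble (Nat.add (Nat.mul sc gz) (Nat.add (Nat.mul M S) r.ms))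
      (Nat.add (Nat.add (Nat.add d r.ky) (Nat.mod (Nat.div (Nat.mul A r.R) r.cq) C)) ε))

/-- one row -/
def rowF (C sc M ε D BG BL p A : Nat) (LD : List RD) (gx ax S q : Nat) : Bool :=
  List.rec (motive := fun _ => Nat → Nat → Nat → Nat → Bool) (fun _ _ _ _ => false)
    (fun r _ ih gx ax S q => Bool.rec (motive := fun _ => Bool)
      (Bool.rec (motive := fun _ => Bool) false
        (ih (Nat.div gx BG) (Nat.div ax BL) (Nat.add S (Nat.mod ax BL)) (Nat.succ q))
        (entF C sc M ε 0 A r (Nat.mod gx BG) (Nat.add S (Nat.mod ax BL))))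
      (entF C sc M ε D A r (Nat.mod gx BG) (Nat.add S (Nat.mod ax BL)))
      (Nat.beq q p)) LD gx ax S q

/-- all rows -/
def rowsF (C sc M ε D BG BL : Nat) (LD : List RD) (G W : List Nat) (p : Nat) : Bool :=
  List.rec (motive := fun _ => List Nat → Nat → Bool) (fun _ _ => true)
    (fun gx _ ih W p => List.rec (motive := fun _ => Bool) false
      (fun w t _ => Bool.rec (motive := fun _ => Bool) false (ih t (Nat.succ p))
        (rowF C sc M ε D BG BL p (pkN C (unp BL (Nat.succ p) w)) LD gx w 0 0)) W) G W p

/-- the check -/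
def psdF (C sc M ε BL BG : Nat) (W G : List Nat) : Bool :=
  Bool.rec (motive := fun _ => Bool) false
    (Bool.rec (motive := fun _ => Bool) false
      (Bool.rec (motive := fun _ => Bool) false
        (rowsF C sc M ε (Nat.mul (Nat.succ (List.length G)) ε) BG BL
          (rdL C BL M (Nat.mul sc (Nat.div BG 2)) W 0 1) G W 0)
        (Nat.ble (Nat.succ (Nat.mul (Nat.mul 2 (Nat.succ (List.length W))) (Nat.mul BL BL))) C))
      (Nat.ble 1 BL)) (Nat.ble 1 sc)

/-! ### Digits -/

lemma unp_length (B len x : ℕ) : (unp B len x).length = len := by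
  induction len generalizing x with
  | zero => rfl
  | succ n ih =>
    have e : unp B (n + 1) x = (x % B) :: unp B n (x / B) := rfl
    rw [e, List.length_cons, ih]

lemma unp_lt {B : ℕ} (hB : 0 < B) (len x : ℕ) : ∀ a ∈ unp B len x, a < B := by
  induction len generalizing x with
  | zero => intro a ha; exact absurd ha List.not_mem_nil
  | succ n ih =>
    have e : unp B (n + 1) x = (x % B) :: unp B n (x / B) := rfl
    rw [e]
    intro a ha
    rcases List.mem_cons.1 ha with rfl | ha
    · exact Nat.mod_lt _ hB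
    · exact ih _ a ha

lemma unp_getD (B len x j : ℕ) (hj : j < len) : (unp B len x).getD j 0 = x / B ^ j % B := by
  induction len generalizing x j with
  | zero => omega
  | succ n ih =>
    have e : unp B (n + 1) x = (x % B) :: unp B n (x / B) := rfl
    rw [e]
    cases j with
    | zero => simp
    | succ j =>
      rw [List.getD_cons_succ, ih _ _ (by omega), Nat.div_div_eq_div_mul, pow_succ, mul_comm B]

lemma unpZ_length (B len x : ℕ) : (unpZ B len x).length = len := by
  induction len generalizing x with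
  | zero => rfl
  | succ n ih =>
    have e : unpZ B (n + 1) x =
      (Int.sub (Int.ofNat (x % B)) (Int.ofNat (B / 2))) :: unpZ B n (x / B) := rfl
    rw [e, List.length_cons, ih]

lemma unpZ_getD (B len x j : ℕ) (hj : j < len) :
    (unpZ B len x).getD j 0 = ((x / B ^ j % B : ℕ) : ℤ) - ((B / 2 : ℕ) : ℤ) := by
  induction len generalizing x j with
  | zero => omega
  | succ n ih =>
    have e : unpZ B (n + 1) x =
      (Int.sub (Int.ofNat (x % B)) (Int.ofNat (B / 2))) :: unpZ B n (x / B) := rfl
    rw [e]
    cases j with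
    | zero =>
      rw [List.getD_cons_zero, pow_zero, Nat.div_one]
      rfl
    | succ j =>
      rw [List.getD_cons_succ, ih _ _ (by omega), Nat.div_div_eq_div_mul, pow_succ, mul_comm B]

lemma rowsZ_length (B : ℕ) (xs : List ℕ) (p : ℕ) : (rowsZ B xs p).length = xs.length := by
  induction xs generalizing p with
  | nil => rfl
  | cons x xs ih =>
    have e : rowsZ B (x :: xs) p = unpZ B (p + 1) x :: rowsZ B xs (p + 1) := rfl
    rw [e, List.length_cons, List.length_cons, ih]

lemma rowsZ_getD (B : ℕ) (xs : List ℕ) (p i : ℕ) (hi : i < xs.length) :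
    (rowsZ B xs p).getD i [] = unpZ B (p + i + 1) (xs.getD i 0) := by
  induction xs generalizing p i with
  | nil => exact absurd hi (by simp)
  | cons x xs ih =>
    have e : rowsZ B (x :: xs) p = unpZ B (p + 1) x :: rowsZ B xs (p + 1) := rfl
    rw [e]
    cases i with
    | zero => simp
    | succ i =>
      rw [List.getD_cons_succ, List.getD_cons_succ, ih (p + 1) i (by simpa using hi)]
      congr 1
      omega

/-! ### Packed products -/

lemma pkN_nil (C : ℕ) : pkN C [] = 0 := rfl
lemma pkN_cons (C x : ℕ) (a : List ℕ) : pkN C (x :: a) = x + C * pkN C a := rfl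

lemma rvN_eq (C : ℕ) (a : List ℕ) (acc : ℕ) : rvN C a acc = acc * C ^ a.length + rvN C a 0 := by
  induction a generalizing acc with
  | nil =>
    have e : ∀ c, rvN C [] c = c := fun _ => rfl
    rw [e, e]
    simp
  | cons x a ih =>
    have e : ∀ c, rvN C (x :: a) c = rvN C a (C * c + x) := fun _ => rfl
    rw [e, e, ih, ih (C * 0 + x), List.length_cons, pow_succ]
    ring

lemma rvN_cons (C x : ℕ) (a : List ℕ) : rvN C (x :: a) 0 = x * C ^ a.length + rvN C a 0 := by
  have e : rvN C (x :: a) 0 = rvN C a (C * 0 + x) := rfl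
  rw [e, rvN_eq]
  ring

lemma rvN_le {C B : ℕ} (hC : 2 ≤ C) (a : List ℕ) (ha : ∀ x ∈ a, x < B) :
    C * rvN C a 0 ≤ 2 * B * C ^ a.length := by
  induction a with
  | nil =>
    have e : rvN C [] 0 = 0 := rfl
    rw [e]
    simp
  | cons x a ih =>
    have h1 := ih fun y hy => ha y (by simp [hy])
    have h2 : x + 1 ≤ B := ha x (by simp)
    rw [rvN_cons, List.length_cons, pow_succ]
    have h3 : C * (x * C ^ a.length) ≤ (B - 1) * (C ^ a.length * C) := by
      calc C * (x * C ^ a.length) = x * (C ^ a.length * C) := by ring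
        _ ≤ (B - 1) * (C ^ a.length * C) := Nat.mul_le_mul_right _ (by omega)
    have h4 : 2 * B * C ^ a.length ≤ (B + 1) * (C ^ a.length * C) := by
      calc 2 * B * C ^ a.length = B * (C ^ a.length * 2) := by ring
        _ ≤ (B + 1) * (C ^ a.length * C) :=
          Nat.mul_le_mul (by omega) (Nat.mul_le_mul_left _ hC)
    have h5 : (B - 1) * (C ^ a.length * C) + (B + 1) * (C ^ a.length * C)
        = 2 * B * (C ^ a.length * C) := by
      rw [← Nat.add_mul]
      congr 1
      omega
    calc C * (x * C ^ a.length + rvN C a 0) = C * (x * C ^ a.length) + C * rvN C a 0 := by ring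
      _ ≤ (B - 1) * (C ^ a.length * C) + (B + 1) * (C ^ a.length * C) := by omega
      _ = _ := h5

lemma dotN_cons (m x y : ℕ) (a b : List ℕ) :
    dotN m (x :: a) (y :: b) = x * y + m + dotN m a b := rfl
lemma dotN_nil (m : ℕ) (b : List ℕ) : dotN m [] b = 0 := rfl
lemma dotN_nil' (m : ℕ) (a : List ℕ) : dotN m a [] = 0 := by cases a <;> rfl

lemma prod_split {C B : ℕ} (hC : 2 ≤ C) (y : ℕ) (t a : List ℕ) (ha : ∀ x ∈ a, x < B)
    (hb : ∀ x ∈ y :: t, x < B) :
    ∃ low high, pkN C a * rvN C (y :: t) 0 = low + C ^ t.length * dotN 0 a (y :: t)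
      + C ^ (t.length + 1) * high ∧ low * C ≤ t.length * (2 * (B * B)) * C ^ t.length := by
  induction t generalizing y a with
  | nil =>
    cases a with
    | nil => exact ⟨0, 0, by simp [pkN_nil, dotN_nil], by simp⟩
    | cons x s =>
      refine ⟨0, pkN C s * y, ?_, by simp⟩
      have e : rvN C [y] 0 = y := by rw [rvN_cons]; simp [rvN]
      rw [e, pkN_cons, dotN_cons, dotN_nil']
      simp only [List.length_nil, pow_zero, zero_add, pow_one]
      ring
  | cons y' t ih =>
    cases a with
    | nil => exact ⟨0, 0, by simp [pkN_nil, dotN_nil], by simp⟩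
    | cons x s =>
      obtain ⟨low, high, h1, h2⟩ := ih y' s (fun z hz => ha z (by simp [hz]))
        (fun z hz => hb z (by simp at hz ⊢; tauto))
      have hx : x ≤ B := (ha x (by simp)).le
      have h3 := rvN_le hC (y' :: t) (B := B) fun z hz => hb z (by simp at hz ⊢; tauto)
      refine ⟨x * rvN C (y' :: t) 0 + C * low, high + pkN C s * y, ?_, ?_⟩
      · rw [rvN_cons, pkN_cons, dotN_cons]
        have h4 : (x + C * pkN C s) * (y * C ^ (y' :: t).length + rvN C (y' :: t) 0)
            = x * y * C ^ (y' :: t).length + x * rvN C (y' :: t) 0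
              + C * pkN C s * y * C ^ (y' :: t).length + C * (pkN C s * rvN C (y' :: t) 0) := by ring
        rw [h4, h1, List.length_cons]
        ring
      · rw [List.length_cons] at h3 ⊢
        calc (x * rvN C (y' :: t) 0 + C * low) * C
            = x * (C * rvN C (y' :: t) 0) + C * (low * C) := by ring
          _ ≤ B * (2 * B * C ^ (t.length + 1)) + C * (t.length * (2 * (B * B)) * C ^ t.length) :=
            Nat.add_le_add (Nat.mul_le_mul hx h3) (Nat.mul_le_mul_left _ h2)
          _ = (t.length + 1) * (2 * (B * B)) * C ^ (t.length + 1) := by ring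

lemma dotN_le {B : ℕ} (a b : List ℕ) (ha : ∀ x ∈ a, x < B) (hb : ∀ x ∈ b, x < B) :
    dotN 0 a b ≤ b.length * (B * B) := by
  induction b generalizing a with
  | nil => simp [dotN_nil']
  | cons y t ih =>
    cases a with
    | nil => simp [dotN_nil]
    | cons x s =>
      rw [dotN_cons, List.length_cons]
      have h1 := ih s (fun z hz => ha z (by simp [hz])) (fun z hz => hb z (by simp [hz]))
      have h2 : x * y ≤ B * B := Nat.mul_le_mul (ha x (by simp)).le (hb y (by simp)).le
      calc x * y + 0 + dotN 0 s t ≤ B * B + t.length * (B * B) := by omega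
        _ = (t.length + 1) * (B * B) := by ring

/-- **one inner product = one digit of one product** -/
lemma digit_eq {C B : ℕ} (q : ℕ) (a b : List ℕ) (hb : b.length = q + 1)
    (hC : 2 * (q + 1) * (B * B) < C) (hB : 0 < B) (ha : ∀ x ∈ a, x < B) (hb' : ∀ x ∈ b, x < B) :
    pkN C a * rvN C b 0 / C ^ q % C = dotN 0 a b := by
  cases b with
  | nil => simp at hb
  | cons y t =>
    have hB2 : 1 ≤ B * B := Nat.mul_pos hB hB
    have hC2 : 2 ≤ C := by nlinarith
    have ht : t.length = q := by simpa using hb
    obtain ⟨low, high, h1, h2⟩ := prod_split hC2 y t a ha hb'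
    rw [ht] at h1 h2
    have h3 : dotN 0 a (y :: t) < C := by
      have := dotN_le a (y :: t) ha hb'
      rw [List.length_cons, ht] at this
      nlinarith
    have hCq : 0 < C ^ q := Nat.pow_pos (by omega)
    have h4 : low < C ^ q := by
      by_contra hcon
      have h5 : C ^ q * C ≤ low * C := Nat.mul_le_mul_right _ (not_lt.1 hcon)
      have h6 : q * (2 * (B * B)) * C ^ q < C * C ^ q := by
        refine Nat.mul_lt_mul_of_pos_right ?_ hCq
        nlinarith
      have h7 : C ^ q * C = C * C ^ q := by ring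
      omega
    rw [h1]
    have h5 : low + C ^ q * dotN 0 a (y :: t) + C ^ (q + 1) * high
        = low + C ^ q * (dotN 0 a (y :: t) + C * high) := by ring
    rw [h5, Nat.add_mul_div_left _ _ hCq, Nat.div_eq_of_lt h4, zero_add, Nat.add_mul_mod_self_left,
      Nat.mod_eq_of_lt h3]

/-! ### Sums -/

lemma dotN_shift (m : ℕ) (a b : List ℕ) (h : b.length ≤ a.length) :
    dotN m a b = dotN 0 a b + m * b.length := by
  induction b generalizing a with
  | nil => simp [dotN_nil']
  | cons y t ih =>
    cases a with
    | nil => simp at h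
    | cons x s =>
      rw [dotN_cons, dotN_cons, ih s (by simpa using h), List.length_cons]
      ring

lemma smN_eq (a : List ℕ) : smN a = ∑ k ∈ Finset.range a.length, a.getD k 0 := by
  induction a with
  | nil => rfl
  | cons x s ih =>
    have e : smN (x :: s) = x + smN s := rfl
    rw [e, ih, List.length_cons, Finset.sum_range_succ']
    simp only [List.getD_cons_succ, List.getD_cons_zero]
    ring

lemma sumN_eq (a b : List ℕ) (h : b.length ≤ a.length) :
    sumN a b = ∑ k ∈ Finset.range b.length, a.getD k 0 + smN b := by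
  induction b generalizing a with
  | nil => cases a <;> rfl
  | cons y t ih =>
    cases a with
    | nil => simp at h
    | cons x s =>
      have e : sumN (x :: s) (y :: t) = x + y + sumN s t := rfl
      have e2 : smN (y :: t) = y + smN t := rfl
      rw [e, e2, ih s (by simpa using h), List.length_cons, Finset.sum_range_succ']
      simp only [List.getD_cons_succ, List.getD_cons_zero]
      ring

/-! ### The recursion -/

lemma entF_spec {C sc M ε d A gz S : ℕ} {r : RD} (h : entF C sc M ε d A r gz S = true) :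
    sc * gz + (M * S + r.ms) ≤ d + r.ky + A * r.R / r.cq % C + ε ∧
      d + r.ky + A * r.R / r.cq % C ≤ sc * gz + (M * S + r.ms) + ε := by
  have e : entF C sc M ε d A r gz S = Bool.rec (motive := fun _ => Bool) false
    (Nat.ble (d + r.ky + A * r.R / r.cq % C) (sc * gz + (M * S + r.ms) + ε))
    (Nat.ble (sc * gz + (M * S + r.ms)) (d + r.ky + A * r.R / r.cq % C + ε)) := rfl
  rw [e] at h
  cases h1 : Nat.ble (sc * gz + (M * S + r.ms)) (d + r.ky + A * r.R / r.cq % C + ε) with
  | false => rw [h1] at h; exact absurd h (by simp)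
  | true =>
    rw [h1] at h
    exact ⟨Nat.le_of_ble_eq_true h1, Nat.le_of_ble_eq_true h⟩

lemma rowF_spec {C sc M ε D BG BL p A : ℕ} (LD : List RD) (gx ax S q : ℕ)
    (h : rowF C sc M ε D BG BL p A LD gx ax S q = true) (j : ℕ) (hj : q + j ≤ p) :
    ∃ r, LD[j]? = some r ∧ entF C sc M ε (if q + j = p then D else 0) A r (gx / BG ^ j % BG)
      (S + ∑ i ∈ Finset.range (j + 1), ax / BL ^ i % BL) = true := by
  induction LD generalizing gx ax S q j with
  | nil =>
    have e : rowF C sc M ε D BG BL p A [] gx ax S q = false := rfl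
    rw [e] at h
    exact absurd h (by simp)
  | cons r LD ih =>
    have e : rowF C sc M ε D BG BL p A (r :: LD) gx ax S q = Bool.rec (motive := fun _ => Bool)
      (Bool.rec (motive := fun _ => Bool) false
        (rowF C sc M ε D BG BL p A LD (gx / BG) (ax / BL) (S + ax % BL) (q + 1))
        (entF C sc M ε 0 A r (gx % BG) (S + ax % BL)))
      (entF C sc M ε D A r (gx % BG) (S + ax % BL)) (Nat.beq q p) := rfl
    rw [e] at h
    cases h1 : Nat.beq q p with
    | true =>
      rw [h1] at h
      have hq := Nat.eq_of_beq_eq_true h1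
      have hj0 : j = 0 := by omega
      subst hj0
      refine ⟨r, rfl, ?_⟩
      rw [if_pos (by omega)]
      simpa using h
    | false =>
      rw [h1] at h
      have hq : q ≠ p := by
        intro hqp
        rw [hqp, Nat.beq_refl] at h1
        exact absurd h1 (by simp)
      cases h2 : entF C sc M ε 0 A r (gx % BG) (S + ax % BL) with
      | false =>
        rw [h2] at h
        exact absurd h (by simp)
      | true =>
        rw [h2] at h
        cases j with
        | zero =>
          refine ⟨r, rfl, ?_⟩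
          rw [if_neg (by omega)]
          simpa using h2
        | succ j =>
          obtain ⟨r', h3, h4⟩ := ih (gx / BG) (ax / BL) (S + ax % BL) (q + 1) h j (by omega)
          refine ⟨r', by simpa using h3, ?_⟩
          have e1 : gx / BG / BG ^ j % BG = gx / BG ^ (j + 1) % BG := by
            rw [Nat.div_div_eq_div_mul, pow_succ, mul_comm BG]
          have e2 : S + ax % BL + ∑ i ∈ Finset.range (j + 1), ax / BL / BL ^ i % BL
              = S + ∑ i ∈ Finset.range (j + 1 + 1), ax / BL ^ i % BL := by
            rw [Finset.sum_range_succ' _ (j + 1), pow_zero, Nat.div_one]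
            have : ∀ i, ax / BL / BL ^ i % BL = ax / BL ^ (i + 1) % BL := fun i => by
              rw [Nat.div_div_eq_div_mul, pow_succ, mul_comm BL]
            simp_rw [this]
            ring
          rw [e1, e2] at h4
          have e3 : q + (j + 1) = q + 1 + j := by omega
          rw [e3]
          exact h4

lemma rdL_spec {C BL M c0 : ℕ} (W : List ℕ) (q Cq j : ℕ) (hj : j < W.length) :
    (rdL C BL M c0 W q Cq)[j]? = some (RD.mk (Cq * C ^ j)
      (rvN C (unp BL (q + j + 1) (W.getD j 0)) 0) (M * smN (unp BL (q + j + 1) (W.getD j 0)))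
      (M * M * (q + j + 1) + c0)) := by
  induction W generalizing q Cq j with
  | nil => exact absurd hj (by simp)
  | cons w W ih =>
    have e : rdL C BL M c0 (w :: W) q Cq = RD.mk Cq (rvN C (unp BL (q + 1) w) 0)
      (M * smN (unp BL (q + 1) w)) (M * M * (q + 1) + c0) :: rdL C BL M c0 W (q + 1) (Cq * C) := rfl
    rw [e]
    cases j with
    | zero => simp
    | succ j =>
      rw [List.getElem?_cons_succ, ih (q + 1) (Cq * C) j (by simpa using hj),
        List.getD_cons_succ]
      have e1 : q + 1 + j = q + (j + 1) := by omega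
      rw [e1, pow_succ]
      congr 2
      ring

lemma rowsF_spec {C sc M ε D BG BL : ℕ} {LD : List RD} (G W : List ℕ) (p : ℕ)
    (h : rowsF C sc M ε D BG BL LD G W p = true) (i : ℕ) (hi : i < G.length) :
    i < W.length ∧ rowF C sc M ε D BG BL (p + i) (pkN C (unp BL (p + i + 1) (W.getD i 0))) LD
      (G.getD i 0) (W.getD i 0) 0 0 = true := by
  induction G generalizing W p i with
  | nil => exact absurd hi (by simp)
  | cons g G ih =>
    cases W with
    | nil =>
      have e : rowsF C sc M ε D BG BL LD (g :: G) [] p = false := rfl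
      rw [e] at h
      exact absurd h (by simp)
    | cons w W =>
      have e : rowsF C sc M ε D BG BL LD (g :: G) (w :: W) p =
        Bool.rec (motive := fun _ => Bool) false (rowsF C sc M ε D BG BL LD G W (p + 1))
          (rowF C sc M ε D BG BL p (pkN C (unp BL (p + 1) w)) LD g w 0 0) := rfl
      rw [e] at h
      cases h1 : rowF C sc M ε D BG BL p (pkN C (unp BL (p + 1) w)) LD g w 0 0 with
      | false =>
        rw [h1] at h
        exact absurd h (by simp)
      | true =>
        rw [h1] at h
        cases i with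
        | zero => exact ⟨by simp, by simpa using h1⟩
        | succ i =>
          obtain ⟨h2, h3⟩ := ih W (p + 1) h i (by simpa using hi)
          refine ⟨by simpa using h2, ?_⟩
          rw [List.getD_cons_succ, List.getD_cons_succ]
          have e1 : p + (i + 1) = p + 1 + i := by omega
          rw [e1]
          exact h3

/-! ### The result -/

/-- what the check gives for the matrix -/
lemma psdF_spec {C sc M ε BL BG : ℕ} {W G : List ℕ} (h : psdF C sc M ε BL BG W G = true) :
    1 ≤ sc ∧ ∃ (N : ℕ) (l : ℕ → ℕ → ℤ), ∀ p < G.length, ∀ q ≤ p,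
      |(sc : ℤ) * ((rowsZ BG G 0).getD p []).getD q 0
          - (if p = q then ((G.length + 1 : ℕ) : ℤ) * ε else 0)
        - ∑ k ∈ Finset.range N, l p k * l q k| ≤ ε := by
  have e : psdF C sc M ε BL BG W G = Bool.rec (motive := fun _ => Bool) false
    (Bool.rec (motive := fun _ => Bool) false
      (Bool.rec (motive := fun _ => Bool) false
        (rowsF C sc M ε ((G.length + 1) * ε) BG BL
          (rdL C BL M (sc * (BG / 2)) W 0 1) G W 0)
        (Nat.ble (2 * (W.length + 1) * (BL * BL) + 1) C))
      (Nat.ble 1 BL)) (Nat.ble 1 sc) := rfl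
  rw [e] at h
  cases h1 : Nat.ble 1 sc with
  | false => rw [h1] at h; exact absurd h (by simp)
  | true =>
  rw [h1] at h
  cases h2 : Nat.ble 1 BL with
  | false => rw [h2] at h; exact absurd h (by simp)
  | true =>
  rw [h2] at h
  cases h3 : Nat.ble (2 * (W.length + 1) * (BL * BL) + 1) C with
  | false => rw [h3] at h; exact absurd h (by simp)
  | true =>
  rw [h3] at h
  have hsc := Nat.le_of_ble_eq_true h1
  have hBL : 0 < BL := Nat.le_of_ble_eq_true h2
  have hC : 2 * (W.length + 1) * (BL * BL) < C := Nat.le_of_ble_eq_true h3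
  refine ⟨hsc, W.length + 1, fun p k => lvM M (unp BL (p + 1) (W.getD p 0)) k, ?_⟩
  intro p hp q hq
  obtain ⟨hpW, h4⟩ := rowsF_spec G W 0 h p hp
  rw [zero_add] at h4
  have hqW : q < W.length := by omega
  obtain ⟨r, h5, h6⟩ := rowF_spec _ _ _ _ _ h4 q (by omega)
  rw [rdL_spec W 0 1 q hqW] at h5
  have h7 : r = RD.mk (1 * C ^ q) (rvN C (unp BL (0 + q + 1) (W.getD q 0)) 0)
      (M * smN (unp BL (0 + q + 1) (W.getD q 0))) (M * M * (0 + q + 1) + sc * (BG / 2)) :=
    (Option.some.inj h5).symm
  subst h7
  simp only [one_mul, zero_add] at h6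
  obtain ⟨h8, h9⟩ := entF_spec h6
  simp only at h8 h9
  set a := unp BL (p + 1) (W.getD p 0) with ha
  set b := unp BL (q + 1) (W.getD q 0) with hb
  have hal : a.length = p + 1 := unp_length _ _ _
  have hbl : b.length = q + 1 := unp_length _ _ _
  have hBB : 0 < BL * BL := Nat.mul_pos hBL hBL
  have hdig : pkN C a * rvN C b 0 / C ^ q % C = dotN 0 a b := by
    refine digit_eq (B := BL) q a b hbl ?_ hBL (unp_lt hBL _ _) (unp_lt hBL _ _)
    refine lt_of_le_of_lt ?_ hC
    exact Nat.mul_le_mul_right _ (by omega)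
  rw [hdig] at h8 h9
  have hS : ∑ i ∈ Finset.range (q + 1), W.getD p 0 / BL ^ i % BL
      = ∑ k ∈ Finset.range b.length, a.getD k 0 := by
    rw [hbl]
    refine Finset.sum_congr rfl fun i hi => ?_
    rw [Finset.mem_range] at hi
    rw [ha, unp_getD _ _ _ _ (by omega)]
  have hsum := sumN_eq a b (by omega)
  rw [← hS] at hsum
  have hdot := dotN_shift (M * M) a b (by omega)
  have hdotZ := dot_eq M a b (W.length + 1) (by omega)
  have hg : ((rowsZ BG G 0).getD p []).getD q 0
      = ((G.getD p 0 / BG ^ q % BG : ℕ) : ℤ) - ((BG / 2 : ℕ) : ℤ) := by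
    rw [rowsZ_getD _ _ _ _ hp, zero_add, unpZ_getD _ _ _ _ (by omega)]
  rw [hg]
  rw [hbl] at hdot
  set S := ∑ i ∈ Finset.range (q + 1), W.getD p 0 / BL ^ i % BL with hSdef
  set gz := G.getD p 0 / BG ^ q % BG with hgz
  have hd : ((if q = p then (G.length + 1) * ε else 0 : ℕ) : ℤ)
      = if p = q then ((G.length + 1 : ℕ) : ℤ) * ε else 0 := by
    by_cases hpq : p = q
    · rw [if_pos hpq, if_pos hpq.symm]; push_cast; ring
    · rw [if_neg hpq, if_neg (Ne.symm hpq)]; rfl
  rw [← hd]
  set d := (if q = p then (G.length + 1) * ε else 0) with hddef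
  have h8' : (sc : ℤ) * gz + (M * S + M * smN b)
      ≤ d + (M * M * (q + 1) + sc * ((BG / 2 : ℕ) : ℤ)) + (dotN 0 a b : ℕ) + ε := by
    exact_mod_cast h8
  have h9' : (d : ℤ) + (M * M * (q + 1) + sc * ((BG / 2 : ℕ) : ℤ)) + (dotN 0 a b : ℕ)
      ≤ (sc : ℤ) * gz + (M * S + M * smN b) + ε := by
    exact_mod_cast h9
  have h10 : (dotN (M * M) a b : ℤ) = dotN 0 a b + M * M * (q + 1) := by
    rw [hdot]; push_cast; ring
  have h11 : (sumN a b : ℤ) = S + smN b := by
    rw [hsum]; push_cast; ring
  rw [h10, h11] at hdotZ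
  rw [abs_le]
  constructor
  · linarith
  · linarith

section

variable {E : Type*} [NormedAddCommGroup E] [InnerProductSpace ℝ E]

open scoped InnerProductSpace

/-- **The theorem**: a checked matrix is positive semidefinite, for vectors. -/
theorem psd_of_psdF {C sc M ε BL BG : ℕ} {W G : List ℕ} (h : psdF C sc M ε BL BG W G = true)
    (z : ℕ → E) :
    0 ≤ ∑ p ∈ Finset.range (rowsZ BG G 0).length, ∑ q ∈ Finset.range (rowsZ BG G 0).length,
      (ent (rowsZ BG G 0) p q : ℝ) * ⟪z p, z q⟫_ℝ := by
  obtain ⟨h1, N, l, h2⟩ := psdF_spec h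
  have hlen : (rowsZ BG G 0).length = G.length := rowsZ_length _ _ _
  rw [hlen]
  refine psd_core G.length N sc ε (by exact_mod_cast h1)
    (fun p q => (ent (rowsZ BG G 0) p q : ℝ)) (fun p k => (l p k : ℝ)) ?_ (Nat.cast_nonneg _) z
  intro p hp q hq
  have h3 : |(sc : ℤ) * ent (rowsZ BG G 0) p q
      - (if p = q then ((G.length + 1 : ℕ) : ℤ) * ε else 0)
      - ∑ k ∈ Finset.range N, l p k * l q k| ≤ ε := by
    rcases le_total q p with hqp | hqp
    · rw [ent, if_pos hqp]
      exact h2 p hp q hqp
    · rw [ent_comm, ent, if_pos hqp]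
      have e1 : (if p = q then ((G.length + 1 : ℕ) : ℤ) * ε else 0) =
          if q = p then ((G.length + 1 : ℕ) : ℤ) * ε else 0 := by
        by_cases hpq : p = q
        · rw [if_pos hpq, if_pos hpq.symm]
        · rw [if_neg hpq, if_neg (Ne.symm hpq)]
      have e2 : ∑ k ∈ Finset.range N, l p k * l q k = ∑ k ∈ Finset.range N, l q k * l p k :=
        Finset.sum_congr rfl fun k _ => mul_comm _ _
      rw [e1, e2]
      exact h2 q hq p hqp
  have h4 : ((|(sc : ℤ) * ent (rowsZ BG G 0) p q
      - (if p = q then ((G.length + 1 : ℕ) : ℤ) * ε else 0)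
      - ∑ k ∈ Finset.range N, l p k * l q k| : ℤ) : ℝ) ≤ ((ε : ℤ) : ℝ) := by exact_mod_cast h3
  push_cast at h4
  convert h4 using 4

/-- real numbers -/
theorem psd_of_psdF_real {C sc M ε BL BG : ℕ} {W G : List ℕ}
    (h : psdF C sc M ε BL BG W G = true) (z : ℕ → ℝ) :
    0 ≤ ∑ p ∈ Finset.range (rowsZ BG G 0).length, ∑ q ∈ Finset.range (rowsZ BG G 0).length,
      (ent (rowsZ BG G 0) p q : ℝ) * (z p * z q) := by
  have := psd_of_psdF h z
  refine this.trans (le_of_eq ?_)
  refine Finset.sum_congr rfl fun p _ => Finset.sum_congr rfl fun q _ => ?_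
  rw [real_inner_eq_re_inner ℝ]
  simp [mul_comm]

/-- the shape used in `POS/Sos.lean` (`QPos G`), as in `qpos_of_chk` -/
theorem qpos_of_psdF {C sc M ε BL BG : ℕ} {W G : List ℕ}
    (h : psdF C sc M ε BL BG W G = true) (x : ℕ → ℝ) :
    0 ≤ ∑ i ∈ Finset.range (rowsZ BG G 0).length, ∑ j ∈ Finset.range (rowsZ BG G 0).length,
      ((((rowsZ BG G 0).getD (max i j) []).getD (min i j) 0 : ℤ) : ℝ) * (x i * x j) := by
  have := psd_of_psdF_real h x
  refine this.trans (le_of_eq ?_)
  refine Finset.sum_congr rfl fun i _ => Finset.sum_congr rfl fun j _ => ?_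
  have e : ent (rowsZ BG G 0) i j = ((rowsZ BG G 0).getD (max i j) []).getD (min i j) 0 := by
    unfold ent
    rcases le_total j i with hij | hij
    · rw [if_pos hij, max_eq_left hij, min_eq_right hij]
    · rcases eq_or_lt_of_le hij with h1 | h1
      · subst h1; simp
      · rw [if_neg (by omega), max_eq_right hij, min_eq_left hij]
  rw [e]

end

end

end Vale.Agent.P224.POS
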