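import Vale.Agent.P224.POS.Psd

/-!
Certificate data: Gram matrices 4,5,6,7 and their positive semidefiniteness.
-/

namespace Vale.Agent.P224.POS

open Vale.Agent.P224.POS

noncomputable section

/-- Gram matrix of block 4 ((u1-E)*sca00), rows of the lower triangle -/
def G4 : List (List Int) := rowsZ 8589934592 [
  7821032296,
  47791022770414605528,
  338583331632512665647958969372,
  4038926415458516125284222517328825551020,
  37814230808808396764178750355890076972354769946136] 0

/-- witness of block 4 -/
def W4 : List (List Nat) := rowsN 131072 [
  124836,
  9038493194,
  1321741018519010,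
  154431762837305143530,
  21876506279091633023648576] 0

set_option maxRecDepth 100000 in
theorem psd4 : psdChk 65536 1 1597057 W4 G4 = true := by decide +kernel

/-- Gram matrix of block 5 ((u1-E)*sca01), rows of the lower triangle -/
def G5 : List (List Int) := rowsZ 134217728 [
  128983864] 0

/-- witness of block 5 -/
def W5 : List (List Nat) := rowsN 16384 [
  13167] 0

set_option maxRecDepth 100000 in
theorem psd5 : psdChk 8192 1 18562499 W5 G5 = true := by decide +kernel

/-- Gram matrix of block 6 ((u1-E)*sca10), rows of the lower triangle -/
def G6 : List (List Int) := rowsZ 33554432 [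
  32752216] 0

/-- witness of block 6 -/
def W6 : List (List Nat) := rowsN 8192 [
  6624] 0

set_option maxRecDepth 100000 in
theorem psd6 : psdChk 4096 1 4792499 W6 G6 = true := by decide +kernel

/-- Gram matrix of block 7 ((u1-E)*sca11), rows of the lower triangle -/
def G7 : List (List Int) := rowsZ 268435456 [
  253197728,
  70105336008181696,
  15318380116054359909383604] 0

/-- witness of block 7 -/
def W7 : List (List Nat) := rowsN 32768 [
  26844,
  654481426,
  20667964072464] 0

set_option maxRecDepth 100000 in
theorem psd7 : psdChk 16384 1 2393290 W7 G7 = true := by decide +kernel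

end

end Vale.Agent.P224.POS
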