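import Vale.Agent.P224.UE.LawS

/-!
The rows of the certificate in dimension four: (integer coefficient, row term); the common
denominator of the coefficients is `cD`.
-/

namespace Vale.Agent.P224.POS

open Vale.Agent.P224.UE

/-- the common denominator -/
def cD : ℤ := 23592960000

/-- the coefficients of the value function `W9` (times `cD`) -/
def cB : List ℤ := [0, 0, -77675692500, 154263667500, -126646605000, -46617570000, 51876945000, 12575542500, 0]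

/-- the rows (times `cD`) -/
def cT : List (ℤ × RTerm) :=
  [
    (10451137500, ⟨0, 2, 0, 0, 0, 0, 1, 0⟩),
    (62187187500, ⟨0, 1, 0, 0, 0, 0, 1, 0⟩),
    (-6155662500, ⟨0, 0, 0, 0, 0, 0, 1, 0⟩),
    (-613372500, ⟨0, 0, 1, 0, 0, 0, 1, 0⟩),
    (-88002000000, ⟨0, 2, 0, 1, 0, 1, 0, 0⟩),
    (-224290777500, ⟨0, 1, 0, 1, 0, 1, 0, 0⟩),
    (17098730000, ⟨0, 0, 0, 1, 0, 1, 0, 0⟩),
    (5081085000, ⟨0, 0, 1, 1, 0, 1, 0, 0⟩),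
    (-984937500, ⟨0, 2, 0, 1, 1, 0, 0, 0⟩),
    (-90342112500, ⟨0, 1, 0, 1, 1, 0, 0, 0⟩),
    (3927922500, ⟨0, 0, 0, 1, 1, 0, 0, 0⟩),
    (-3927915000, ⟨0, 0, 1, 1, 1, 0, 0, 0⟩),
    (3858030000, ⟨1, 1, 0, 1, 0, 0, 1, 0⟩),
    (-7223692500, ⟨1, 0, 0, 1, 0, 0, 1, 0⟩),
    (-3731850000, ⟨1, 0, 1, 1, 0, 0, 1, 0⟩),
    (63075127500, ⟨1, 1, 0, 0, 0, 1, 0, 0⟩),
    (-190296328125, ⟨1, 0, 0, 0, 0, 1, 0, 0⟩),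
    (9932017500, ⟨1, 2, 0, 2, 0, 1, 0, 0⟩),
    (-24945885000, ⟨1, 1, 0, 2, 0, 1, 0, 0⟩),
    (11070652500, ⟨1, 0, 0, 2, 0, 1, 0, 0⟩),
    (112852822500, ⟨1, 1, 0, 0, 1, 0, 0, 0⟩),
    (-110494192500, ⟨1, 0, 0, 0, 1, 0, 0, 0⟩),
    (-19394370000, ⟨1, 0, 1, 0, 1, 0, 0, 0⟩),
    (-8909055000, ⟨1, 2, 0, 2, 1, 0, 0, 0⟩),
    (13089150000, ⟨1, 1, 0, 2, 1, 0, 0, 0⟩),
    (-6007995000, ⟨1, 0, 0, 2, 1, 0, 0, 0⟩),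
    (-10451137500, ⟨3, 2, 0, 0, 0, 0, 1, 0⟩),
    (41284912500, ⟨3, 1, 0, 0, 0, 0, 1, 0⟩),
    (-5763285000, ⟨3, 0, 0, 0, 0, 0, 1, 0⟩),
    (-746370000, ⟨3, 0, 1, 0, 0, 0, 1, 0⟩),
    (13381042500, ⟨3, 2, 0, 1, 0, 1, 0, 0⟩),
    (19794622500, ⟨3, 1, 0, 1, 0, 1, 0, 0⟩),
    (-1264050000, ⟨3, 0, 0, 1, 0, 1, 0, 0⟩),
    (73559970000, ⟨3, 2, 0, 1, 1, 0, 0, 0⟩),
    (-8968140000, ⟨3, 1, 0, 1, 1, 0, 0, 0⟩),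
    (-3200145000, ⟨3, 0, 0, 1, 1, 0, 0, 0⟩),
    (15740977500, ⟨5, 1, 0, 1, 0, 0, 0, 0⟩),
    (-11947612500, ⟨5, 0, 0, 1, 0, 0, 0, 0⟩),
    (-6631785000, ⟨5, 0, 1, 1, 0, 0, 0, 0⟩),
    (-8091405000, ⟨0, 2, 0, 0, 0, 0, 0, 1⟩),
    (-9791595000, ⟨0, 1, 0, 0, 0, 0, 0, 1⟩),
    (5454922500, ⟨0, 0, 0, 0, 0, 0, 0, 1⟩),
    (46687500, ⟨0, 0, 1, 0, 0, 0, 0, 1⟩),
    (-2092095000, ⟨0, 2, 0, 0, 0, 0, 2, 0⟩),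
    (3943350000, ⟨0, 1, 0, 0, 0, 0, 2, 0⟩),
    (-6579652500, ⟨0, 0, 0, 0, 0, 0, 2, 0⟩),
    (-356535000, ⟨0, 0, 1, 0, 0, 0, 2, 0⟩),
    (1552905000, ⟨0, 2, 0, 1, 0, 1, 1, 0⟩),
    (73749397500, ⟨0, 1, 0, 1, 0, 1, 1, 0⟩),
    (-4248112500, ⟨0, 0, 0, 1, 0, 1, 1, 0⟩),
    (-90371137500, ⟨0, 2, 0, 0, 0, 2, 0, 0⟩),
    (-249273990000, ⟨0, 1, 0, 0, 0, 2, 0, 0⟩),
    (2436007500, ⟨0, 0, 0, 0, 0, 2, 0, 0⟩),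
    (-2436007500, ⟨0, 0, 1, 0, 0, 2, 0, 0⟩),
    (-35601412500, ⟨0, 2, 0, 1, 1, 0, 1, 0⟩),
    (22967167500, ⟨0, 1, 0, 1, 1, 0, 1, 0⟩),
    (10166220000, ⟨0, 0, 0, 1, 1, 0, 1, 0⟩),
    (-111574935000, ⟨0, 2, 0, 0, 1, 1, 0, 0⟩),
    (-372972127500, ⟨0, 1, 0, 0, 1, 1, 0, 0⟩),
    (2375145000, ⟨0, 0, 0, 0, 1, 1, 0, 0⟩),
    (-2375145000, ⟨0, 0, 1, 0, 1, 1, 0, 0⟩),
    (71594640000, ⟨0, 2, 0, 0, 2, 0, 0, 0⟩),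
    (-4512532500, ⟨1, 1, 0, 1, 0, 0, 0, 1⟩),
    (-9337500, ⟨1, 0, 0, 1, 0, 0, 0, 1⟩),
    (2212672500, ⟨1, 1, 0, 1, 0, 0, 2, 0⟩),
    (-4923945000, ⟨1, 0, 0, 1, 0, 0, 2, 0⟩),
    (-91506780000, ⟨1, 1, 0, 0, 0, 1, 1, 0⟩),
    (17288100000, ⟨1, 0, 0, 0, 0, 1, 1, 0⟩),
    (1947645000, ⟨1, 2, 0, 2, 0, 1, 1, 0⟩),
    (-925402500, ⟨1, 1, 0, 2, 0, 1, 1, 0⟩),
    (-99065070000, ⟨1, 2, 0, 1, 0, 2, 0, 0⟩),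
    (17894767500, ⟨1, 1, 0, 1, 0, 2, 0, 0⟩),
    (-27181485000, ⟨1, 0, 0, 1, 0, 2, 0, 0⟩),
    (-56640757500, ⟨1, 1, 0, 0, 1, 0, 1, 0⟩),
    (-48040852500, ⟨1, 0, 0, 0, 1, 0, 1, 0⟩),
    (58153860000, ⟨1, 0, 1, 0, 1, 0, 1, 0⟩),
    (9049252500, ⟨1, 2, 0, 2, 1, 0, 1, 0⟩),
    (-5919097500, ⟨1, 1, 0, 2, 1, 0, 1, 0⟩),
    (37887210000, ⟨1, 2, 0, 1, 1, 1, 0, 0⟩),
    (1602382500, ⟨1, 1, 0, 1, 1, 1, 0, 0⟩),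
    (-16937437500, ⟨1, 0, 0, 1, 1, 1, 0, 0⟩),
    (61177860000, ⟨1, 2, 0, 1, 2, 0, 0, 0⟩),
    (-22128345000, ⟨1, 1, 0, 1, 2, 0, 0, 0⟩),
    (-5702760000, ⟨1, 0, 0, 1, 2, 0, 0, 0⟩),
    (62468100000, ⟨2, 1, 0, 1, 0, 0, 1, 0⟩),
    (65155725000, ⟨2, 0, 0, 1, 0, 0, 1, 0⟩),
    (-65155725000, ⟨2, 0, 1, 1, 0, 0, 1, 0⟩),
    (330177240000, ⟨2, 1, 0, 0, 0, 1, 0, 0⟩),
    (-424553872500, ⟨2, 0, 0, 0, 0, 1, 0, 0⟩),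
    (-22590292500, ⟨2, 0, 1, 0, 0, 1, 0, 0⟩),
    (6579157500, ⟨2, 1, 0, 0, 1, 0, 0, 0⟩),
    (-130019445000, ⟨2, 0, 0, 0, 1, 0, 0, 0⟩),
    (17973000000, ⟨2, 0, 1, 0, 1, 0, 0, 0⟩),
    (7289055000, ⟨3, 2, 0, 0, 0, 0, 0, 1⟩),
    (4473427500, ⟨3, 1, 0, 0, 0, 0, 0, 1⟩),
    (-7189672500, ⟨3, 2, 0, 0, 0, 0, 2, 0⟩),
    (358537500, ⟨3, 1, 0, 0, 0, 0, 2, 0⟩),
    (-1572345000, ⟨3, 0, 0, 0, 0, 0, 2, 0⟩),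
    (-5147505000, ⟨3, 2, 0, 1, 0, 1, 1, 0⟩),
    (9524092500, ⟨3, 1, 0, 1, 0, 1, 1, 0⟩),
    (66877200000, ⟨3, 2, 0, 0, 0, 2, 0, 0⟩),
    (16694010000, ⟨3, 1, 0, 0, 0, 2, 0, 0⟩),
    (77476140000, ⟨3, 0, 0, 0, 0, 2, 0, 0⟩),
    (-46116000000, ⟨3, 0, 1, 0, 0, 2, 0, 0⟩),
    (-4733730000, ⟨3, 2, 0, 1, 1, 0, 1, 0⟩),
    (-2888347500, ⟨3, 1, 0, 1, 1, 0, 1, 0⟩),
    (41215815000, ⟨3, 2, 0, 0, 1, 1, 0, 0⟩),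
    (46474785000, ⟨3, 1, 0, 0, 1, 1, 0, 0⟩),
    (-7977982500, ⟨3, 0, 0, 0, 1, 1, 0, 0⟩),
    (21245265000, ⟨3, 2, 0, 0, 2, 0, 0, 0⟩),
    (-32940000000, ⟨3, 0, 0, 0, 2, 0, 0, 0⟩),
    (32940000000, ⟨3, 0, 1, 0, 2, 0, 0, 0⟩),
    (-2536672500, ⟨5, 1, 0, 1, 0, 0, 1, 0⟩),
    (-6217987500, ⟨5, 0, 0, 1, 0, 0, 1, 0⟩),
    (-67763722500, ⟨5, 1, 0, 0, 0, 1, 0, 0⟩),
    (26548200000, ⟨5, 0, 0, 0, 0, 1, 0, 0⟩),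
    (-4093132500, ⟨5, 1, 0, 0, 1, 0, 0, 0⟩),
    (-30324780000, ⟨5, 0, 0, 0, 1, 0, 0, 0⟩),
    (224100000, ⟨5, 0, 1, 0, 1, 0, 0, 0⟩)]

lemma cT_ok : ∀ q ∈ cT, q.2.ok = true := by decide

/-- the rows with real coefficients -/
noncomputable def cL : List (ℝ × RTerm) := cT.map fun q => ((q.1 : ℝ) / (cD : ℝ), q.2)

lemma cL_ok : ∀ q ∈ cL, q.2.ok = true := by
  intro q hq
  obtain ⟨q', hq', rfl⟩ := List.mem_map.1 hq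
  exact cT_ok q' hq'

/-- the critical rows (times `cD`) -/
def cC : List (ℤ × RTerm) := cT.filter fun q => !q.2.sub

lemma rval_filter (l : List (ℤ × RTerm)) (u r : ℝ) :
    (l.map fun q => (q.1 : ℝ) * q.2.V u r).sum
      = ((l.filter fun q => !q.2.sub).map fun q => (q.1 : ℝ) * q.2.V u r).sum := by
  induction l with
  | nil => rfl
  | cons q l ih =>
    by_cases h : q.2.sub = true
    · have h2 : q.2.V u r = 0 := by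
        unfold RTerm.V
        rw [if_pos h]
      rw [List.map_cons, List.sum_cons, ih, List.filter_cons_of_neg (by simpa using h), h2]
      ring
    · rw [List.map_cons, List.sum_cons, ih, List.filter_cons_of_pos (by simpa using h),
        List.map_cons, List.sum_cons]

lemma cC_eq : cC = [
    (10451137500, ⟨0, 2, 0, 0, 0, 0, 1, 0⟩),
    (-10451137500, ⟨3, 2, 0, 0, 0, 0, 1, 0⟩),
    (-8091405000, ⟨0, 2, 0, 0, 0, 0, 0, 1⟩),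
    (-2092095000, ⟨0, 2, 0, 0, 0, 0, 2, 0⟩),
    (-90371137500, ⟨0, 2, 0, 0, 0, 2, 0, 0⟩),
    (-111574935000, ⟨0, 2, 0, 0, 1, 1, 0, 0⟩),
    (71594640000, ⟨0, 2, 0, 0, 2, 0, 0, 0⟩),
    (7289055000, ⟨3, 2, 0, 0, 0, 0, 0, 1⟩),
    (-7189672500, ⟨3, 2, 0, 0, 0, 0, 2, 0⟩),
    (66877200000, ⟨3, 2, 0, 0, 0, 2, 0, 0⟩),
    (41215815000, ⟨3, 2, 0, 0, 1, 1, 0, 0⟩),
    (21245265000, ⟨3, 2, 0, 0, 2, 0, 0, 0⟩)] := by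
  decide +kernel

/-- the value of the critical rows -/
lemma rval_cL (u r : ℝ) : rval cL u r = -(2062939 / 1048576) * u + (4951 / 2048) * r := by
  have h1 : rval cL u r = ((cT.map fun q => (q.1 : ℝ) * q.2.V u r).sum) / (cD : ℝ) := by
    unfold rval cL
    generalize cT = l
    induction l with
    | nil => simp
    | cons q l ih =>
      simp only [List.map_cons, List.sum_cons] at ih ⊢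
      rw [ih]
      ring
  rw [h1, rval_filter]
  change (cC.map fun q => (q.1 : ℝ) * q.2.V u r).sum / (cD : ℝ) = _
  rw [cC_eq]
  simp [RTerm.V, RTerm.sub, RTerm.kn, RTerm.kx, mom, cD]
  ring

end Vale.Agent.P224.POS
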