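import Vale.Agent.P224.Numerics

/-!
The Clifford ratios in dimensions fourteen and sixteen.
-/

namespace Vale.Agent.P224

/-- the Clifford ratio in dimension 14 -/
lemma evenRatio_seven_eq : evenRatio 7 = 15015 * Real.pi / 32768 := by
  rw [show (7 : ℕ) = 5 + 2 by norm_num, evenRatio_rec, evenRatio_five]
  norm_num
  ring

/-- the Clifford ratio in dimension 16 -/
lemma evenRatio_eight_eq : evenRatio 8 = 1287 / 896 := by
  have h6 : evenRatio 6 = 231 / 160 := by
    rw [show (6 : ℕ) = 4 + 2 by norm_num, evenRatio_rec, evenRatio_four]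
    norm_num
  rw [show (8 : ℕ) = 6 + 2 by norm_num, evenRatio_rec, h6]
  norm_num

end Vale.Agent.P224
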