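import Vale.Agent.P224.UE.FunE

/-!
Reduction of pointwise inequalities for pair data with a fixed vector to inequalities for
quadratic forms whose coefficients depend on four real numbers only.
-/

namespace Vale.Agent.P224.POS

open Vale.Agent.P224.UE
open scoped RealInnerProductSpace

/-- the Gram form of four vectors `x, N, y, w` (`x, N` and `y, w` orthonormal) -/
def gG (s t p c a1 a2 a3 a4 : ℝ) : ℝ :=
  a1 ^ 2 + a2 ^ 2 + a3 ^ 2 + a4 ^ 2 + 2 * (a1 * a3 * s + a1 * a4 * t + a2 * a3 * p + a2 * a4 * c)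

/-- the Gram form in the chart at the diagonal: `s = 1 - r^2`, `t = r τ`, `p = r π`, the four
vectors are `x, N, (y - x) / r, w` -/
def gD (r τ π c a1 a2 a3 a4 : ℝ) : ℝ :=
  a1 ^ 2 + a2 ^ 2 + 2 * a3 ^ 2 + a4 ^ 2
    + 2 * (-(r * a1 * a3) + r * τ * a1 * a4 + π * a2 * a3 + c * a2 * a4 - τ * a3 * a4)

/-- everything that is used about the pair data -/
def Feas (s t p c x1 n1 x2 n2 E : ℝ) : Prop :=
  ∀ a1 a2 a3 a4 : ℝ, 2 * (a1 * x1 + a2 * n1 + a3 * x2 + a4 * n2) - gG s t p c a1 a2 a3 a4 ≤ E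

section

variable {E : Type*} [NormedAddCommGroup E] [InnerProductSpace ℝ E]

lemma four_le (b1 b2 b3 b4 e : E) (a1 a2 a3 a4 : ℝ) :
    2 * (a1 * ⟪b1, e⟫ + a2 * ⟪b2, e⟫ + a3 * ⟪b3, e⟫ + a4 * ⟪b4, e⟫)
      - (a1 ^ 2 * ⟪b1, b1⟫ + a2 ^ 2 * ⟪b2, b2⟫ + a3 ^ 2 * ⟪b3, b3⟫ + a4 ^ 2 * ⟪b4, b4⟫
        + 2 * (a1 * a2 * ⟪b1, b2⟫ + a1 * a3 * ⟪b1, b3⟫ + a1 * a4 * ⟪b1, b4⟫
          + a2 * a3 * ⟪b2, b3⟫ + a2 * a4 * ⟪b2, b4⟫ + a3 * a4 * ⟪b3, b4⟫)) ≤ ⟪e, e⟫ := by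
  have h : 0 ≤ ⟪e - (a1 • b1 + a2 • b2 + a3 • b3 + a4 • b4),
      e - (a1 • b1 + a2 • b2 + a3 • b3 + a4 • b4)⟫ := real_inner_self_nonneg
  simp only [inner_sub_left, inner_sub_right, inner_add_left, inner_add_right,
    real_inner_smul_left, real_inner_smul_right] at h
  have c1 : ⟪e, b1⟫ = ⟪b1, e⟫ := real_inner_comm _ _
  have c2 : ⟪e, b2⟫ = ⟪b2, e⟫ := real_inner_comm _ _
  have c3 : ⟪e, b3⟫ = ⟪b3, e⟫ := real_inner_comm _ _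
  have c4 : ⟪e, b4⟫ = ⟪b4, e⟫ := real_inner_comm _ _
  have d1 : ⟪b2, b1⟫ = ⟪b1, b2⟫ := real_inner_comm _ _
  have d2 : ⟪b3, b1⟫ = ⟪b1, b3⟫ := real_inner_comm _ _
  have d3 : ⟪b4, b1⟫ = ⟪b1, b4⟫ := real_inner_comm _ _
  have d4 : ⟪b3, b2⟫ = ⟪b2, b3⟫ := real_inner_comm _ _
  have d5 : ⟪b4, b2⟫ = ⟪b2, b4⟫ := real_inner_comm _ _
  have d6 : ⟪b4, b3⟫ = ⟪b3, b4⟫ := real_inner_comm _ _
  rw [c1, c2, c3, c4, d1, d2, d3, d4, d5, d6] at h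
  linarith

/-- pair data are feasible -/
theorem feas_dv {x N y w : E} (e : E) (hx : ‖x‖ = 1) (hN : ‖N‖ = 1) (hy : ‖y‖ = 1) (hw : ‖w‖ = 1)
    (hxN : ⟪x, N⟫ = 0) (hyw : ⟪y, w⟫ = 0) :
    Feas (dv x N y w e 0) (dv x N y w e 1) (dv x N y w e 2) (dv x N y w e 3) (dv x N y w e 6)
      (dv x N y w e 4) (dv x N y w e 7) (dv x N y w e 5) (dv x N y w e 8) := by
  intro a1 a2 a3 a4
  have h := four_le x N y w e a1 a2 a3 a4
  have e1 : ⟪x, x⟫ = 1 := by rw [real_inner_self_eq_norm_sq, hx]; norm_num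
  have e2 : ⟪N, N⟫ = 1 := by rw [real_inner_self_eq_norm_sq, hN]; norm_num
  have e3 : ⟪y, y⟫ = 1 := by rw [real_inner_self_eq_norm_sq, hy]; norm_num
  have e4 : ⟪w, w⟫ = 1 := by rw [real_inner_self_eq_norm_sq, hw]; norm_num
  rw [e1, e2, e3, e4, hxN, hyw] at h
  change 2 * (a1 * ⟪x, e⟫ + a2 * ⟪N, e⟫ + a3 * ⟪y, e⟫ + a4 * ⟪w, e⟫)
    - gG ⟪x, y⟫ ⟪x, w⟫ ⟪N, y⟫ ⟪N, w⟫ a1 a2 a3 a4 ≤ ⟪e, e⟫
  unfold gG
  linarith

end

section

variable {s t p c x1 n1 x2 n2 E : ℝ}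

/-- the Gram form is nonnegative -/
lemma Feas.gram_nonneg (h : Feas s t p c x1 n1 x2 n2 E) (a1 a2 a3 a4 : ℝ) :
    0 ≤ gG s t p c a1 a2 a3 a4 := by
  by_contra hneg
  rw [not_le] at hneg
  have key : ∀ l : ℝ, l * (2 * (a1 * x1 + a2 * n1 + a3 * x2 + a4 * n2))
      - l ^ 2 * gG s t p c a1 a2 a3 a4 ≤ E := by
    intro l
    have := h (l * a1) (l * a2) (l * a3) (l * a4)
    unfold gG at this ⊢
    nlinarith
  set g := gG s t p c a1 a2 a3 a4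
  set b := 2 * (a1 * x1 + a2 * n1 + a3 * x2 + a4 * n2)
  have hE : 0 ≤ E := by simpa using key 0
  -- take `l` large
  obtain ⟨l, hl⟩ : ∃ l : ℝ, E < l * b - l ^ 2 * g := by
    refine ⟨(|b| + 1 + E) / (-g) + 1, ?_⟩
    have hg : 0 < -g := by linarith
    set l := (|b| + 1 + E) / (-g) + 1 with hl
    have h1 : (l - 1) * (-g) = |b| + 1 + E := by
      rw [hl, add_sub_cancel_right, div_mul_cancel₀ _ hg.ne']
    have h2 : 1 ≤ l := by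
      have : 0 ≤ (|b| + 1 + E) / (-g) := by positivity
      linarith
    have h3 : -|b| ≤ b := neg_abs_le b
    have h4 : l * (-g) ≥ |b| + 1 + E := by nlinarith
    have h5 : l * (l * (-g)) ≥ l * (|b| + 1 + E) := mul_le_mul_of_nonneg_left h4 (by linarith)
    nlinarith [abs_nonneg b]
  exact absurd (key l) (not_le.2 hl)

/-- exclusion of infeasible points -/
lemma Feas.excl (h : Feas s t p c x1 n1 x2 n2 E) (u1 u2 v1 v2 : ℝ) :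
    2 * (u1 * v1 * s + u1 * v2 * t + u2 * v1 * p + u2 * v2 * c)
      ≤ u1 ^ 2 + u2 ^ 2 + v1 ^ 2 + v2 ^ 2 := by
  have := h.gram_nonneg u1 u2 (-v1) (-v2)
  unfold gG at this
  nlinarith

lemma Feas.row1 (h : Feas s t p c x1 n1 x2 n2 E) : s ^ 2 + t ^ 2 ≤ 1 := by
  have := h.excl 1 0 s t
  nlinarith

lemma Feas.row2 (h : Feas s t p c x1 n1 x2 n2 E) : p ^ 2 + c ^ 2 ≤ 1 := by
  have := h.excl 0 1 p c
  nlinarith

lemma Feas.col1 (h : Feas s t p c x1 n1 x2 n2 E) : s ^ 2 + p ^ 2 ≤ 1 := by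
  have := h.excl s p 1 0
  nlinarith

lemma Feas.col2 (h : Feas s t p c x1 n1 x2 n2 E) : t ^ 2 + c ^ 2 ≤ 1 := by
  have := h.excl t c 0 1
  nlinarith

lemma Feas.E_nonneg (h : Feas s t p c x1 n1 x2 n2 E) : 0 ≤ E := by
  simpa [gG] using h 0 0 0 0

/-- feasibility in the chart at the diagonal -/
theorem Feas.diag {r τ π ζ : ℝ} (hr : r ≠ 0)
    (h : Feas (1 - r ^ 2) (r * τ) (r * π) c x1 n1 (x1 + r * ζ) n2 E) (a1 a2 a3 a4 : ℝ) :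
    2 * (a1 * x1 + a2 * n1 + a3 * ζ + a4 * n2) - gD r τ π c a1 a2 a3 a4 ≤ E := by
  have := h (a1 - a3 / r) a2 (a3 / r) a4
  unfold gG at this
  unfold gD
  have e : ∀ A B : ℝ, A = B → B ≤ E → A ≤ E := fun A B h1 h2 => h1 ▸ h2
  refine e _ _ ?_ this
  field_simp
  ring

/-- the chart at the diagonal: every feasible datum with `s < 1` comes from it -/
theorem Feas.chart (h : Feas s t p c x1 n1 x2 n2 E) (hs : s < 1) :
    ∃ r τ π ζ : ℝ, 0 < r ∧ s = 1 - r ^ 2 ∧ t = r * τ ∧ p = r * π ∧ x2 = x1 + r * ζ ∧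
      r ^ 2 ≤ 2 ∧ τ ^ 2 + r ^ 2 ≤ 2 ∧ π ^ 2 + r ^ 2 ≤ 2 ∧ c ^ 2 ≤ 1 ∧
      ∀ a1 a2 a3 a4 : ℝ, 2 * (a1 * x1 + a2 * n1 + a3 * ζ + a4 * n2) - gD r τ π c a1 a2 a3 a4 ≤ E := by
  set r := Real.sqrt (1 - s) with hr
  have h1 : 0 < 1 - s := by linarith
  have hr0 : 0 < r := Real.sqrt_pos.2 h1
  have hr2 : r ^ 2 = 1 - s := Real.sq_sqrt h1.le
  have hs2 : s = 1 - r ^ 2 := by rw [hr2]; ring
  have ht : t = r * (t / r) := by field_simp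
  have hp : p = r * (p / r) := by field_simp
  have hx : x2 = x1 + r * ((x2 - x1) / r) := by field_simp; ring
  have hrow := h.row1
  have hcol := h.col1
  have hc := h.row2
  refine ⟨r, t / r, p / r, (x2 - x1) / r, hr0, hs2, ht, hp, hx, ?_, ?_, ?_, ?_, ?_⟩
  · rw [hr2]; nlinarith [h.row1, sq_nonneg t]
  · have : (t / r) ^ 2 = t ^ 2 / (1 - s) := by rw [div_pow, hr2]
    rw [this, hr2]
    have h2 : t ^ 2 / (1 - s) ≤ 1 + s := by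
      rw [div_le_iff₀ h1]; nlinarith
    linarith
  · have : (p / r) ^ 2 = p ^ 2 / (1 - s) := by rw [div_pow, hr2]
    rw [this, hr2]
    have h2 : p ^ 2 / (1 - s) ≤ 1 + s := by
      rw [div_le_iff₀ h1]; nlinarith
    linarith
  · nlinarith [sq_nonneg p]
  · have h' : Feas (1 - r ^ 2) (r * (t / r)) (r * (p / r)) c x1 n1 (x1 + r * ((x2 - x1) / r)) n2
        E := by
      rw [← hs2, ← ht, ← hp, ← hx]; exact h
    exact fun a1 a2 a3 a4 => h'.diag hr0.ne' a1 a2 a3 a4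

end

end Vale.Agent.P224.POS
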