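import Vale.Agent.P224.POS.Sub
import Vale.Agent.P224.POS.DTerms
import Vale.Agent.P224.POS.El63
import Vale.Agent.P224.POS.DG0
import Vale.Agent.P224.POS.DG1
import Vale.Agent.P224.POS.DG2
import Vale.Agent.P224.POS.DG3
import Vale.Agent.P224.POS.DG4

/-!
The identity of the certificate in dimension four and the positivity of its left side.
-/

namespace Vale.Agent.P224.POS

open Vale.Agent.P224.UE
open scoped RealInnerProductSpace

noncomputable section

/-- the left side (twice `10000 D (1 - s) ^ 3` times the pointwise expression) -/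
def P63 : PE :=
  lhsP 2359296 0 0 (-77675692500) 154263667500 (-126646605000) (-46617570000) 51876945000
    12575542500 0 cT

/-- the vector blocks -/
def BV63 : List Blk := [⟨els0, G0⟩, ⟨els1, G1⟩, ⟨els2, G2⟩, ⟨els3, G3⟩]

/-- the scalar blocks -/
def BS63 : List Blk := [⟨els4, G4⟩, ⟨els5, G5⟩, ⟨els6, G6⟩, ⟨els7, G7⟩]

/-- the integers replacing `w, T, b, g` (not powers of two: the kernel hashes a numeral by its last
64 bits) -/
def Ms63 : List Nat := [Nat.add (Nat.pow 2 59) 123456789012345677,
  Nat.add (Nat.pow 2 462) 987654321098765431, Nat.add (Nat.pow 2 2460) 555666777888999001,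
  Nat.add (Nat.pow 2 15100) 314159265358979323]

set_option maxRecDepth 100000 in
/-- **The identity**, checked by the kernel. -/
theorem id63 : chk Ms63 (PE.sub (PE.sb sbF P63) (PE.mul (PE.c 2) (rhsPE BV63 BS63))) = true := by
  decide +kernel

set_option maxRecDepth 100000 in
lemma tri0 : tri G0 0 = true := by decide +kernel
set_option maxRecDepth 100000 in
lemma tri1 : tri G1 0 = true := by decide +kernel
set_option maxRecDepth 100000 in
lemma tri2 : tri G2 0 = true := by decide +kernel
set_option maxRecDepth 100000 in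
lemma tri3 : tri G3 0 = true := by decide +kernel
lemma tri4 : tri G4 0 = true := by decide +kernel
lemma tri5 : tri G5 0 = true := by decide +kernel
lemma tri6 : tri G6 0 = true := by decide +kernel
lemma tri7 : tri G7 0 = true := by decide +kernel

lemma hV63 : ∀ B ∈ BV63, tri B.G 0 = true ∧ QPos B.G := by
  intro B hB
  unfold BV63 at hB
  rcases List.mem_cons.1 hB with rfl | hB
  · exact ⟨tri0, fun x => qpos_of_chk psd0 x⟩
  rcases List.mem_cons.1 hB with rfl | hB
  · exact ⟨tri1, fun x => qpos_of_chk psd1 x⟩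
  rcases List.mem_cons.1 hB with rfl | hB
  · exact ⟨tri2, fun x => qpos_of_chk psd2 x⟩
  rcases List.mem_cons.1 hB with rfl | hB
  · exact ⟨tri3, fun x => qpos_of_chk psd3 x⟩
  · exact absurd hB List.not_mem_nil

lemma hS63 : ∀ B ∈ BS63, tri B.G 0 = true ∧ QPos B.G := by
  intro B hB
  unfold BS63 at hB
  rcases List.mem_cons.1 hB with rfl | hB
  · exact ⟨tri4, fun x => qpos_of_chk psd4 x⟩
  rcases List.mem_cons.1 hB with rfl | hB
  · exact ⟨tri5, fun x => qpos_of_chk psd5 x⟩
  rcases List.mem_cons.1 hB with rfl | hB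
  · exact ⟨tri6, fun x => qpos_of_chk psd6 x⟩
  rcases List.mem_cons.1 hB with rfl | hB
  · exact ⟨tri7, fun x => qpos_of_chk psd7 x⟩
  · exact absurd hB List.not_mem_nil

/-- **Positivity** of the left side on pair data with a vector of length at most `5 / 6`. -/
theorem pos63 {E : Type*} [NormedAddCommGroup E] [InnerProductSpace ℝ E] {e x N y w : E}
    (he : ‖e‖ ^ 2 ≤ 25 / 36) (hx : ‖x‖ = 1) (hN : ‖N‖ = 1) (hy : ‖y‖ = 1) (hw : ‖w‖ = 1)
    (hxN : ⟪x, N⟫ = 0) (hyw : ⟪y, w⟫ = 0) : 0 ≤ PE.ev (cd (dv x N y w e)) P63 :=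
  nonneg_of_chk 2 (by norm_num) id63 hV63 hS63 he hx hN hy hw hxN hyw

end

end Vale.Agent.P224.POS
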