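import Vale.Agent.P224.POS.PE

/-!
An expression vanishes identically if it vanishes when some variables are replaced, one after the
other, by integers larger than the sum of the absolute values of the coefficients.
-/

namespace Vale.Agent.P224.POS

noncomputable section

open Polynomial

abbrev AZ := MvPolynomial ℕ ℤ
abbrev AN := MvPolynomial ℕ ℕ

/-- domination of coefficients -/
def Dom (q : AZ[X]) (Q : AN[X]) : Prop :=
  ∀ i m, ((q.coeff i).coeff m).natAbs ≤ (Q.coeff i).coeff m

/-- domination of coefficients -/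
def Dom0 (q : AZ) (Q : AN) : Prop := ∀ m, (q.coeff m).natAbs ≤ Q.coeff m

lemma Dom0.add {q r : AZ} {Q R : AN} (h : Dom0 q Q) (h' : Dom0 r R) : Dom0 (q + r) (Q + R) := by
  intro m
  rw [MvPolynomial.coeff_add, MvPolynomial.coeff_add]
  exact (Int.natAbs_add_le _ _).trans (Nat.add_le_add (h m) (h' m))

lemma Dom0.sub {q r : AZ} {Q R : AN} (h : Dom0 q Q) (h' : Dom0 r R) : Dom0 (q - r) (Q + R) := by
  intro m
  rw [MvPolynomial.coeff_sub, MvPolynomial.coeff_add]
  exact (Int.natAbs_sub_le _ _).trans (Nat.add_le_add (h m) (h' m))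

lemma natAbs_sum_le {ι : Type*} (s : Finset ι) (f : ι → ℤ) :
    (∑ i ∈ s, f i).natAbs ≤ ∑ i ∈ s, (f i).natAbs := by
  classical
  induction s using Finset.induction_on with
  | empty => simp
  | insert a s ha ih =>
    rw [Finset.sum_insert ha, Finset.sum_insert ha]
    exact (Int.natAbs_add_le _ _).trans (Nat.add_le_add le_rfl ih)

lemma Dom0.mul {q r : AZ} {Q R : AN} (h : Dom0 q Q) (h' : Dom0 r R) : Dom0 (q * r) (Q * R) := by
  classical
  intro m
  rw [MvPolynomial.coeff_mul, MvPolynomial.coeff_mul]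
  refine (natAbs_sum_le _ _).trans (Finset.sum_le_sum fun x _ => ?_)
  rw [Int.natAbs_mul]
  exact Nat.mul_le_mul (h _) (h' _)

lemma Dom0.sum {ι : Type*} (s : Finset ι) {f : ι → AZ} {F : ι → AN}
    (h : ∀ i ∈ s, Dom0 (f i) (F i)) : Dom0 (∑ i ∈ s, f i) (∑ i ∈ s, F i) := by
  classical
  induction s using Finset.induction_on with
  | empty => intro m; simp
  | insert a s ha ih =>
    rw [Finset.sum_insert ha, Finset.sum_insert ha]
    exact (h a (Finset.mem_insert_self a s)).add
      (ih fun i hi => h i (Finset.mem_insert_of_mem hi))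

lemma Dom.add {q r : AZ[X]} {Q R : AN[X]} (h : Dom q Q) (h' : Dom r R) : Dom (q + r) (Q + R) := by
  intro i
  rw [coeff_add, coeff_add]
  exact Dom0.add (h i) (h' i)

lemma Dom.sub {q r : AZ[X]} {Q R : AN[X]} (h : Dom q Q) (h' : Dom r R) : Dom (q - r) (Q + R) := by
  intro i
  rw [coeff_sub, coeff_add]
  exact Dom0.sub (h i) (h' i)

lemma Dom.mul {q r : AZ[X]} {Q R : AN[X]} (h : Dom q Q) (h' : Dom r R) : Dom (q * r) (Q * R) := by
  intro i
  rw [coeff_mul, coeff_mul]
  exact Dom0.sum _ fun x _ => Dom0.mul (h x.1) (h' x.2)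

lemma dom0_nat (n : ℤ) : Dom0 (n : AZ) (n.natAbs : AN) := by
  classical
  intro m
  have e1 : (n : AZ) = MvPolynomial.C n := by simp
  have e2 : (n.natAbs : AN) = MvPolynomial.C n.natAbs := by simp
  rw [e1, e2, MvPolynomial.coeff_C, MvPolynomial.coeff_C]
  split_ifs <;> simp

lemma dom0_zero (Q : AN) : Dom0 0 Q := by
  intro m
  simp

lemma dom0_X (i : ℕ) : Dom0 (MvPolynomial.X i) (MvPolynomial.X i) := by
  classical
  intro m
  rw [MvPolynomial.coeff_X, MvPolynomial.coeff_X]
  split_ifs <;> simp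

lemma dom_C {q : AZ} {Q : AN} (h : Dom0 q Q) : Dom (C q) (C Q) := by
  intro i
  rw [coeff_C, coeff_C]
  split_ifs
  · exact h
  · exact fun m => by simp

lemma dom_X : Dom (X : AZ[X]) X := by
  intro i
  rw [coeff_X, coeff_X]
  split_ifs
  · have := dom0_nat 1
    simp only [Int.cast_one, Int.natAbs_one, Nat.cast_one] at this
    exact this
  · exact fun m => by simp

lemma dom_int (n : ℤ) : Dom (n : AZ[X]) (n.natAbs : AN[X]) := by
  have e1 : (n : AZ[X]) = C (n : AZ) := by simp
  have e2 : (n.natAbs : AN[X]) = C (n.natAbs : AN) := by simp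
  rw [e1, e2]
  exact dom_C (dom0_nat n)

lemma Dom.pow {q : AZ[X]} {Q : AN[X]} (h : Dom q Q) (n : ℕ) : Dom (q ^ n) (Q ^ n) := by
  induction n with
  | zero =>
    have := dom_int 1
    simpa using this
  | succ n ih =>
    rw [pow_succ, pow_succ]
    exact ih.mul h

lemma dom_ev {f : ℕ → AZ[X]} {F : ℕ → AN[X]} (h : ∀ i, Dom (f i) (F i)) (e : PE) :
    Dom (PE.ev f e) (PE.ab F e) := by
  induction e with
  | c n => exact dom_int n
  | v i => exact h i
  | add a b ha hb => exact ha.add hb
  | sub a b ha hb => exact ha.sub hb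
  | mul a b ha hb => exact ha.mul hb
  | pow a n ha => exact ha.pow n

/-- the sum of all coefficients -/
def tot : AN[X] →+* ℕ :=
  (Polynomial.evalRingHom (1 : ℕ)).comp (Polynomial.mapRingHom (MvPolynomial.eval (fun _ => 1)))

lemma coeff_le_tot0 (Q : AN) (m : ℕ →₀ ℕ) : Q.coeff m ≤ MvPolynomial.eval (fun _ => 1) Q := by
  rw [MvPolynomial.eval_eq]
  by_cases hm : m ∈ Q.support
  · refine le_trans (le_of_eq ?_) (Finset.single_le_sum (f := fun d => Q.coeff d
      * ∏ i ∈ d.support, (1 : ℕ) ^ d i) (fun _ _ => Nat.zero_le _) hm)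
    simp
  · rw [MvPolynomial.notMem_support_iff.1 hm]
    exact Nat.zero_le _

lemma coeff_le_eval_one (Q : ℕ[X]) (i : ℕ) : Q.coeff i ≤ Q.eval 1 := by
  rw [Polynomial.eval_eq_sum, Polynomial.sum_def]
  by_cases hm : i ∈ Q.support
  · refine le_trans (le_of_eq ?_) (Finset.single_le_sum (f := fun j => Q.coeff j * 1 ^ j)
      (fun _ _ => Nat.zero_le _) hm)
    simp
  · rw [Polynomial.notMem_support_iff.1 hm]
    exact Nat.zero_le _

lemma coeff_le_tot (Q : AN[X]) (i : ℕ) (m : ℕ →₀ ℕ) : (Q.coeff i).coeff m ≤ tot Q := by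
  refine (coeff_le_tot0 _ m).trans ?_
  have := coeff_le_eval_one (Q.map (MvPolynomial.eval (fun _ => 1))) i
  rwa [Polynomial.coeff_map] at this

lemma int_small {M : ℕ} {a b : ℤ} (h : (M : ℤ) * b + a = 0) (ha : a.natAbs < M) :
    a = 0 ∧ b = 0 := by
  have hM : 0 < (M : ℤ) := by
    have : 0 < M := lt_of_le_of_lt (Nat.zero_le _) ha
    exact_mod_cast this
  have hb : b = 0 := by
    by_contra hb
    have h1 : a.natAbs = M * b.natAbs := by
      have : a = -((M : ℤ) * b) := by linarith
      rw [this, Int.natAbs_neg, Int.natAbs_mul, Int.natAbs_natCast]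
    have h2 : 1 ≤ b.natAbs := Int.natAbs_pos.2 hb
    have h3 : M * 1 ≤ M * b.natAbs := Nat.mul_le_mul_left _ h2
    omega
  subst hb
  refine ⟨by simpa using h, rfl⟩

/-- a polynomial with small coefficients vanishes if its value at a large integer does -/
lemma eq_zero_of_eval (M : ℕ) : ∀ (n : ℕ) (q : AZ[X]), q.natDegree ≤ n →
    (∀ i m, ((q.coeff i).coeff m).natAbs < M) → q.eval (M : AZ) = 0 → q = 0 := by
  intro n
  induction n with
  | zero =>
    intro q hn hb h0
    rw [Polynomial.eq_C_of_natDegree_le_zero hn] at h0 ⊢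
    rw [Polynomial.eval_C] at h0
    rw [h0, C_0]
  | succ n ih =>
    intro q hn hb h0
    have h1 : q.divX * X + C (q.coeff 0) = q := Polynomial.divX_mul_X_add q
    have h2 : (M : AZ) * q.divX.eval (M : AZ) + q.coeff 0 = 0 := by
      rw [← h1] at h0
      simp only [eval_add, eval_mul, eval_X, eval_C] at h0
      rw [mul_comm]
      exact h0
    have h3 : ∀ m, (q.coeff 0).coeff m = 0 ∧ (q.divX.eval (M : AZ)).coeff m = 0 := by
      intro m
      have h4 := congrArg (MvPolynomial.coeff m) h2
      have e1 : (M : AZ) = MvPolynomial.C (M : ℤ) := by simp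
      rw [MvPolynomial.coeff_add, e1, MvPolynomial.coeff_C_mul, MvPolynomial.coeff_zero,
        ← e1] at h4
      exact int_small h4 (hb 0 m)
    have h5 : q.coeff 0 = 0 := MvPolynomial.ext _ _ fun m => by
      rw [(h3 m).1, MvPolynomial.coeff_zero]
    have h6 : q.divX.eval (M : AZ) = 0 := MvPolynomial.ext _ _ fun m => by
      rw [(h3 m).2, MvPolynomial.coeff_zero]
    have h7 : q.divX = 0 := by
      refine ih _ ?_ ?_ h6
      · rw [Polynomial.natDegree_divX_eq_natDegree_tsub_one]
        omega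
      · intro i m
        rw [Polynomial.coeff_divX]
        exact hb (i + 1) m
    rw [← h1, h7, h5]
    simp

/-- the first `k` variables replaced by numbers -/
def yv (Ms : List ℕ) (N k i : ℕ) : AZ :=
  if i < k then ((Ms.getD i 1 : ℕ) : AZ) else if i < N then MvPolynomial.X i else 0

lemma step_kron (Ms : List ℕ) (N k : ℕ) (hk : k < N) (e : PE)
    (hb : PE.ab (fun i => if i < k then Ms.getD i 1 else 1) e < Ms.getD k 1)
    (h : PE.ev (yv Ms N (k + 1)) e = 0) : PE.ev (yv Ms N k) e = 0 := by
  set φ : ℕ → AZ[X] := fun i => if i < k then ((Ms.getD i 1 : ℕ) : AZ[X]) else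
    if i = k then X else if i < N then C (MvPolynomial.X i) else 0 with hφ
  set Φ : ℕ → AN[X] := fun i => if i < k then ((Ms.getD i 1 : ℕ) : AN[X]) else
    if i = k then X else if i < N then C (MvPolynomial.X i) else 1 with hΦ
  have hd : ∀ i, Dom (φ i) (Φ i) := by
    intro i
    simp only [hφ, hΦ]
    split_ifs
    · have := dom_int (Ms.getD i 1 : ℕ)
      simpa using this
    · exact dom_X
    · exact dom_C (dom0_X i)
    · intro i m
      simp
  have htot : tot (PE.ab Φ e) = PE.ab (fun i => if i < k then Ms.getD i 1 else 1) e := by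
    rw [PE.ab_map]
    congr 1
    funext i
    simp only [hΦ]
    split_ifs <;> simp [tot]
  have hq : PE.ev φ e = 0 := by
    refine eq_zero_of_eval (Ms.getD k 1) _ _ le_rfl ?_ ?_
    · intro i m
      exact lt_of_le_of_lt ((dom_ev hd e i m).trans (coeff_le_tot _ i m)) (htot ▸ hb)
    · have e1 : (PE.ev φ e).eval ((Ms.getD k 1 : ℕ) : AZ) = PE.ev (yv Ms N (k + 1)) e := by
        have := PE.ev_map φ (Polynomial.evalRingHom ((Ms.getD k 1 : ℕ) : AZ)) e
        rw [Polynomial.coe_evalRingHom] at this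
        rw [this]
        congr 1
        funext i
        simp only [hφ, yv]
        by_cases h1 : i < k
        · rw [if_pos h1, if_pos (by omega : i < k + 1)]
          simp
        · rw [if_neg h1]
          by_cases h2 : i = k
          · subst h2
            rw [if_pos rfl, if_pos (by omega : i < i + 1)]
            simp
          · rw [if_neg h2, if_neg (by omega : ¬ i < k + 1)]
            split_ifs <;> simp
      rw [e1, h]
  have e2 : (PE.ev φ e).eval (MvPolynomial.X k : AZ) = PE.ev (yv Ms N k) e := by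
    have := PE.ev_map φ (Polynomial.evalRingHom (MvPolynomial.X k : AZ)) e
    rw [Polynomial.coe_evalRingHom] at this
    rw [this]
    congr 1
    funext i
    simp only [hφ, yv]
    by_cases h1 : i < k
    · rw [if_pos h1, if_pos h1]
      simp
    · rw [if_neg h1, if_neg h1]
      by_cases h2 : i = k
      · subst h2
        rw [if_pos rfl, if_pos hk]
        simp
      · rw [if_neg h2]
        split_ifs <;> simp
  rw [← e2, hq, eval_zero]

/-- the bounds that are checked -/
def Bds (Ms : List ℕ) (e : PE) (n : ℕ) : Prop :=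
  ∀ k < n, PE.ab (fun i => if i < k then Ms.getD i 1 else 1) e < Ms.getD k 1

theorem kron (Ms : List ℕ) (N : ℕ) (e : PE) : ∀ n ≤ N, Bds Ms e n →
    PE.ev (yv Ms N n) e = 0 → PE.ev (yv Ms N 0) e = 0 := by
  intro n
  induction n with
  | zero => intro _ _ h; exact h
  | succ n ih =>
    intro hn hb h
    exact ih (by omega) (fun k hk => hb k (by omega))
      (step_kron Ms N n (by omega) e (hb n (by omega)) h)

/-- the universal expression determines all values -/
theorem ev_of_univ {N : ℕ} {Ms : List ℕ} {e : PE} (h : PE.ev (yv Ms N 0) e = 0) {R : Type*}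
    [CommRing R] (f : ℕ → R) (hf : ∀ i, N ≤ i → f i = 0) : PE.ev f e = 0 := by
  have h1 := PE.ev_map (yv Ms N 0) (MvPolynomial.eval₂Hom (Int.castRingHom R) f) e
  rw [h, map_zero] at h1
  rw [h1]
  congr 1
  funext i
  simp only [yv]
  by_cases hi : i < N
  · simp [hi]
  · simp [hi, hf i (not_lt.1 hi)]

end

end Vale.Agent.P224.POS
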