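import Mathlib.Analysis.SpecialFunctions.Log.Deriv
import Mathlib.Analysis.Complex.ExponentialBounds
import Mathlib.Tactic

/-!
The numerical part of the law for the certificate in dimension four: the inequality between the
volume `A`, the volume `S` of the unit sphere, `u = ‖e‖ ^ 2` and the second moment `r` forces
`3 / 2 * S ≤ A`, given `6 / 5 * S ≤ A` and `A ^ 2 * u ≤ S ^ 2`.
-/

namespace Vale.Agent.P224.POS

/-- a one-variable quartic is negative on `[6/5, 3/2]` -/
lemma quartic_neg {T : ℝ} (h1 : 6 / 5 ≤ T) (h2 : T ≤ 3 / 2) :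
    T ^ 4 - 3 / 2 * T ^ 3 - 10092 / 10000 * T ^ 2 + 13505 / 10000 * T + 22293 / 100000 < 0 := by
  nlinarith [mul_nonneg (sub_nonneg.2 h1) (sub_nonneg.2 h2),
    mul_nonneg (mul_nonneg (sub_nonneg.2 h1) (sub_nonneg.2 h2)) (sub_nonneg.2 h1),
    mul_nonneg (mul_nonneg (sub_nonneg.2 h1) (sub_nonneg.2 h2)) (sq_nonneg T)]

/-- the normalized inequality -/
lemma law_core {T u : ℝ} (h1 : 6 / 5 ≤ T) (h2 : T < 3 / 2) (hu : 0 ≤ u) (hT : T ^ 2 * u ≤ 1) :
    T * (1 - 10092 / 10000 * u + 22293 / 100000 * u ^ 2) + 13505 / 10000 * u < 3 / 2 := by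
  have hP := quartic_neg h1 h2.le
  have hT0 : 0 < T := by linarith
  have key : T * (T * (1 - 10092 / 10000 * u + 22293 / 100000 * u ^ 2) + 13505 / 10000 * u - 3 / 2)
      = T * (1 - T ^ 2 * u) * (T - 3 / 2)
        + u * (T ^ 4 - 3 / 2 * T ^ 3 - 10092 / 10000 * T ^ 2 + 13505 / 10000 * T + 22293 / 100000)
        - 22293 / 100000 * u * (1 - T ^ 2 * u) := by ring
  have h3 : T * (1 - T ^ 2 * u) * (T - 3 / 2) ≤ 0 :=
    mul_nonpos_of_nonneg_of_nonpos (mul_nonneg hT0.le (by linarith)) (by linarith)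
  have h5 : 0 ≤ 22293 / 100000 * u * (1 - T ^ 2 * u) := mul_nonneg (by positivity) (by linarith)
  have h6 : T * (T * (1 - 10092 / 10000 * u + 22293 / 100000 * u ^ 2) + 13505 / 10000 * u - 3 / 2)
      < 0 := by
    rcases hu.eq_or_lt with h0 | h0
    · subst h0
      nlinarith
    · have h4 := mul_neg_of_pos_of_neg h0 hP
      rw [key]
      linarith
  have h7 := neg_of_mul_neg_right h6 hT0.le
  linarith

/-- **The numerical law** for the certificate: with the values `b2, .., b7` of the static terms and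
the flux values `φ1, φ2`. -/
theorem law_num {S A u r : ℝ} (hS : 0 < S) (h65 : 6 / 5 * S ≤ A) (hu : 0 ≤ u)
    (hr1 : u ^ 2 ≤ r) (hr2 : r ≤ u) (hT : A ^ 2 * u ≤ S ^ 2)
    (hlaw : 3 / 2 * S ≤ A * (1 + (3 * Real.log 2 - 3 / 2) * u
        + (1701955 / 524288 * u - 5069825 / 1048576 * r + 116875 / 524288 * u ^ 2))
      + 3 * S * (-(2062939 / 1048576) * u + 4951 / 2048 * r)) :
    3 / 2 * S ≤ A := by
  by_contra hcon
  rw [not_le] at hcon
  have hlog : Real.log 2 < 0.6931471808 := Real.log_two_lt_d9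
  have hr0 : 0 ≤ r := le_trans (sq_nonneg u) hr1
  obtain ⟨T, hTdef⟩ : ∃ T, T = A / S := ⟨_, rfl⟩
  have hA : A = T * S := by rw [hTdef]; field_simp
  subst hA
  have hT1 : 6 / 5 ≤ T := le_of_mul_le_mul_right h65 hS
  have hT2 : T < 3 / 2 := lt_of_mul_lt_mul_right hcon hS.le
  have hT0 : 0 < T := by linarith
  have hTu : T ^ 2 * u ≤ 1 := by
    have h : S ^ 2 * (T ^ 2 * u) ≤ S ^ 2 * 1 := by nlinarith
    exact le_of_mul_le_mul_left h (by positivity)
  have hl : 3 / 2 ≤ T * (1 + (3 * Real.log 2 - 3 / 2) * u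
        + (1701955 / 524288 * u - 5069825 / 1048576 * r + 116875 / 524288 * u ^ 2))
      + 3 * (-(2062939 / 1048576) * u + 4951 / 2048 * r) := by
    have h : S * (3 / 2) ≤ S * (T * (1 + (3 * Real.log 2 - 3 / 2) * u
        + (1701955 / 524288 * u - 5069825 / 1048576 * r + 116875 / 524288 * u ^ 2))
      + 3 * (-(2062939 / 1048576) * u + 4951 / 2048 * r)) := by nlinarith
    exact le_of_mul_le_mul_left h hS
  have hTu0 : 0 ≤ T * u := mul_nonneg hT0.le hu
  have hg : T * u * (3 * Real.log 2 - 3 / 2) ≤ T * u * (57945 / 100000) :=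
    mul_le_mul_of_nonneg_left (by linarith) hTu0
  -- the coefficient of `r` is nonnegative up to a tiny error
  have hk : 0 ≤ -(5069825 / 1048576) * T + 3 * (4951 / 2048) + 1 / 100000 := by linarith
  have hrr : (-(5069825 / 1048576) * T + 3 * (4951 / 2048) + 1 / 100000) * r
      ≤ (-(5069825 / 1048576) * T + 3 * (4951 / 2048) + 1 / 100000) * u :=
    mul_le_mul_of_nonneg_left hr2 hk
  have hu2 : 0 ≤ T * u ^ 2 := by positivity
  have hcore := law_core hT1 hT2 hu hTu
  nlinarith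

/-- The negativity of the law, normalized: the hypothesis `hneg` of `main4_of_cert`. -/
theorem law_neg {T u r : ℝ} (h1 : 6 / 5 ≤ T) (h2 : T < 3 / 2) (hu : 0 ≤ u)
    (hT : T ^ 2 * u ≤ 1) (hr1 : u ^ 2 ≤ r) (hr2 : r ≤ u) :
    T * (1 + (3 * Real.log 2 - 3 / 2) * u
        + (1701955 / 524288 * u - 5069825 / 1048576 * r + 116875 / 524288 * u ^ 2))
      + 3 * (-(2062939 / 1048576) * u + 4951 / 2048 * r) < 3 / 2 := by
  by_contra hcon
  rw [not_lt] at hcon
  have h := law_num (S := 1) (A := T) (u := u) (r := r) one_pos (by linarith) hu hr1 hr2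
    (by linarith) (by linarith)
  linarith

/-- The same with the static values of the certificate and the value `R` of the flux terms. -/
theorem law_neg_S {T u r R : ℝ} (h1 : 6 / 5 ≤ T) (h2 : T < 3 / 2) (hu : 0 ≤ u)
    (hT : T ^ 2 * u ≤ 1) (hr1 : u ^ 2 ≤ r) (hr2 : r ≤ u)
    (hR : R = -(2062939 / 1048576) * u + 4951 / 2048 * r) :
    T * (1 + (3 * Real.log 2 - 3 / 2) * u
        + (0 + (0 + (-(3452253 / 1048576)) + 6856163 / 1048576) * u
          + (-(2814369 / 524288) + 558913 / 1048576) * r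
          + (-(517973 / 262144) + 1152821 / 524288) * u ^ 2 + 0 * ((u - r) / 5)))
      + 3 * R < 3 / 2 := by
  refine lt_of_eq_of_lt ?_ (law_neg h1 h2 hu hT hr1 hr2)
  rw [hR]
  ring

/-- The numerical law in the shape of `EmbD.law_S`, for the static values of the certificate
(`b0 = b1 = b8 = 0`) and the value `R` of the flux terms. -/
theorem law_num_S {S A u r R : ℝ} (hS : 0 < S) (h65 : 6 / 5 * S ≤ A) (hu : 0 ≤ u)
    (hr1 : u ^ 2 ≤ r) (hr2 : r ≤ u) (hT : A ^ 2 * u ≤ S ^ 2)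
    (hR : R = -(2062939 / 1048576) * u + 4951 / 2048 * r)
    (hlaw : 3 / 2 * S ≤ A * (1 + (3 * Real.log 2 - 3 / 2) * u
        + (0 + (0 + (-(3452253 / 1048576)) + 6856163 / 1048576) * u
          + (-(2814369 / 524288) + 558913 / 1048576) * r
          + (-(517973 / 262144) + 1152821 / 524288) * u ^ 2 + 0 * ((u - r) / 5)))
      + 3 * S * R) :
    3 / 2 * S ≤ A := by
  refine law_num hS h65 hu hr1 hr2 hT ?_
  rw [hR] at hlaw
  refine hlaw.trans (le_of_eq ?_)
  ring

/-- the bound for the mean normal -/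
lemma sq_norm_le {S A u : ℝ} (hS : 0 < S) (h65 : 6 / 5 * S ≤ A) (hu : 0 ≤ u)
    (hT : A ^ 2 * u ≤ S ^ 2) : u ≤ 25 / 36 := by
  have h1 : (6 / 5 * S) ^ 2 ≤ A ^ 2 := pow_le_pow_left₀ (by positivity) h65 2
  have h2 : S ^ 2 * (36 / 25 * u) ≤ S ^ 2 * 1 := by nlinarith
  have h3 := le_of_mul_le_mul_left h2 (by positivity)
  linarith

end Vale.Agent.P224.POS
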