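import Vale.Agent.P224.POS.LawNumM
import Mathlib.Analysis.Real.Pi.Bounds

/-!
The numerical laws in dimensions six and eight.
-/

namespace Vale.Agent.P224.POS

/-- The numerical law in dimension six. -/
theorem law_neg6 {γ T u r R k : ℝ} (hγ : γ ≤ 5477 / 10000) (h1 : 6 / 5 ≤ T)
    (h2 : T < 15 * Real.pi / 32) (hu : 0 ≤ u) (hT : T ^ 2 * u ≤ 1) (hr1 : u ^ 2 ≤ r)
    (hr2 : r ≤ u) (hR : R = -(10714115 / 29360128) * u + 15700481 / 29360128 * r) :
    T * (1 + γ * u + (0 + (0 + -(13381777 / 4194304) + 18347655 / 4194304) * u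
      + (-(6891979 / 2097152) + 295103 / 524288) * r
      + (-(2823649 / 4194304) + 121459 / 131072) * u ^ 2
      + 0 * ((u - r) / k))) + 15 / 2 * R < 15 * Real.pi / 32 := by
  have p1 := Real.pi_gt_d6
  have p2 := Real.pi_lt_d6
  refine law_negM_S (Cl := 1472621 / 1000000) (Cu := 1472623 / 1000000) (γu := 5477 / 10000)
    (φ1 := 15 / 2 * (-(10714115 / 29360128))) (φ2 := 15 / 2 * (15700481 / 29360128))
    (by linarith) (by linarith) hγ (by norm_num) (by norm_num) (by norm_num) ?_ ?_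
    h1 h2 hu hT hr1 hr2 (by rw [hR]; ring)
  · intro T hT1 hT2
    exact quintic_neg (by norm_num) (by norm_num) (by norm_num) (by norm_num) (by norm_num)
      (by norm_num) (by norm_num) (le_of_eq rfl) (le_of_eq rfl) (le_of_eq rfl) (le_of_eq rfl)
      (le_of_eq rfl) (le_of_eq rfl) hT1 hT2
  · intro T hT1 hT2
    exact quintic_neg (by norm_num) (by norm_num) (by norm_num) (by norm_num) (by norm_num)
      (by norm_num) (by norm_num) (le_of_eq rfl) (le_of_eq rfl) (le_of_eq rfl) (le_of_eq rfl)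
      (le_of_eq rfl) (le_of_eq rfl) hT1 hT2

/-- The numerical law in dimension eight. -/
theorem law_neg8 {γ T u r R k : ℝ} (hγ : γ ≤ 5301 / 10000) (h1 : 6 / 5 ≤ T)
    (h2 : T < 35 / 24) (hu : 0 ≤ u) (hT : T ^ 2 * u ≤ 1) (hr1 : u ^ 2 ≤ r)
    (hr2 : r ≤ u) (hR : R = -(12159869 / 301989888) * u + 1116451 / 9437184 * r) :
    T * (1 + γ * u + (0 + (0 + -(25302353 / 8388608) + 6081781 / 2097152) * u
      + (-(8976821 / 4194304) + 188901 / 262144) * r
      + (529017 / 4194304 + 0) * u ^ 2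
      + 0 * ((u - r) / k))) + 35 / 2 * R < 35 / 24 := by
  refine law_negM_S (Cl := 35 / 24) (Cu := 35 / 24) (γu := 5301 / 10000)
    (φ1 := 35 / 2 * (-(12159869 / 301989888))) (φ2 := 35 / 2 * (1116451 / 9437184))
    le_rfl le_rfl hγ (by norm_num) (by norm_num) (by norm_num) ?_ ?_
    h1 h2 hu hT hr1 hr2 (by rw [hR]; ring)
  · intro T hT1 hT2
    exact quintic_neg (by norm_num) (by norm_num) (by norm_num) (by norm_num) (by norm_num)
      (by norm_num) (by norm_num) (le_of_eq rfl) (le_of_eq rfl) (le_of_eq rfl) (le_of_eq rfl)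
      (le_of_eq rfl) (le_of_eq rfl) hT1 hT2
  · intro T hT1 hT2
    exact quintic_neg (by norm_num) (by norm_num) (by norm_num) (by norm_num) (by norm_num)
      (by norm_num) (by norm_num) (le_of_eq rfl) (le_of_eq rfl) (le_of_eq rfl) (le_of_eq rfl)
      (le_of_eq rfl) (le_of_eq rfl) hT1 hT2

end Vale.Agent.P224.POS
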