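import Mathlib.Tactic
import Mathlib.Analysis.SpecialFunctions.Pow.Real

/-!
The numerical part of the law in even dimension: negativity of the value of a certificate on the
region `6 / 5 ≤ T < C`, `T ^ 2 * u ≤ 1`, `u ^ 2 ≤ r ≤ u` from finitely many one-variable
inequalities, and a Bernstein criterion for these.
-/

namespace Vale.Agent.P224.POS

/-- a quintic with negative Bernstein coefficients on `[a, b]` is negative there -/
lemma quintic_neg {c0 c1 c2 c3 c4 c5 a b β0 β1 β2 β3 β4 β5 : ℝ} (hab : a < b)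
    (h0 : β0 < 0) (h1 : β1 < 0) (h2 : β2 < 0) (h3 : β3 < 0) (h4 : β4 < 0) (h5 : β5 < 0)
    (e0 : c0 + c1 * a + c2 * a ^ 2 + c3 * a ^ 3 + c4 * a ^ 4 + c5 * a ^ 5 ≤ β0)
    (e1 : c0 + c1 * ((4 * a + b) / 5) + c2 * ((6 * a ^ 2 + 4 * a * b) / 10)
      + c3 * ((4 * a ^ 3 + 6 * a ^ 2 * b) / 10) + c4 * ((a ^ 4 + 4 * a ^ 3 * b) / 5)
      + c5 * (a ^ 4 * b) ≤ β1)
    (e2 : c0 + c1 * ((3 * a + 2 * b) / 5) + c2 * ((3 * a ^ 2 + 6 * a * b + b ^ 2) / 10)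
      + c3 * ((a ^ 3 + 6 * a ^ 2 * b + 3 * a * b ^ 2) / 10)
      + c4 * ((2 * a ^ 3 * b + 3 * a ^ 2 * b ^ 2) / 5) + c5 * (a ^ 3 * b ^ 2) ≤ β2)
    (e3 : c0 + c1 * ((2 * a + 3 * b) / 5) + c2 * ((a ^ 2 + 6 * a * b + 3 * b ^ 2) / 10)
      + c3 * ((3 * a ^ 2 * b + 6 * a * b ^ 2 + b ^ 3) / 10)
      + c4 * ((3 * a ^ 2 * b ^ 2 + 2 * a * b ^ 3) / 5) + c5 * (a ^ 2 * b ^ 3) ≤ β3)
    (e4 : c0 + c1 * ((a + 4 * b) / 5) + c2 * ((4 * a * b + 6 * b ^ 2) / 10)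
      + c3 * ((6 * a * b ^ 2 + 4 * b ^ 3) / 10) + c4 * ((4 * a * b ^ 3 + b ^ 4) / 5)
      + c5 * (a * b ^ 4) ≤ β4)
    (e5 : c0 + c1 * b + c2 * b ^ 2 + c3 * b ^ 3 + c4 * b ^ 4 + c5 * b ^ 5 ≤ β5)
    {T : ℝ} (hT1 : a ≤ T) (hT2 : T ≤ b) :
    c0 + c1 * T + c2 * T ^ 2 + c3 * T ^ 3 + c4 * T ^ 4 + c5 * T ^ 5 < 0 := by
  obtain ⟨x, hx0, hx1, rfl⟩ : ∃ x : ℝ, 0 ≤ x ∧ x ≤ 1 ∧ T = a + (b - a) * x := by
    have hba : 0 < b - a := sub_pos.2 hab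
    refine ⟨(T - a) / (b - a), div_nonneg (by linarith) hba.le, ?_, ?_⟩
    · rw [div_le_one hba]
      linarith
    · field_simp
      ring
  have hy : 0 ≤ 1 - x := by linarith
  have w0 : 0 ≤ (1 - x) ^ 5 := by positivity
  have w1 : 0 ≤ 5 * x * (1 - x) ^ 4 := by positivity
  have w2 : 0 ≤ 10 * x ^ 2 * (1 - x) ^ 3 := by positivity
  have w3 : 0 ≤ 10 * x ^ 3 * (1 - x) ^ 2 := by positivity
  have w4 : 0 ≤ 5 * x ^ 4 * (1 - x) := by positivity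
  have w5 : 0 ≤ x ^ 5 := by positivity
  have k0 := mul_le_mul_of_nonneg_left e0 w0
  have k1 := mul_le_mul_of_nonneg_left e1 w1
  have k2 := mul_le_mul_of_nonneg_left e2 w2
  have k3 := mul_le_mul_of_nonneg_left e3 w3
  have k4 := mul_le_mul_of_nonneg_left e4 w4
  have k5 := mul_le_mul_of_nonneg_left e5 w5
  have hsum : (1 - x) ^ 5 + 5 * x * (1 - x) ^ 4 + 10 * x ^ 2 * (1 - x) ^ 3
      + 10 * x ^ 3 * (1 - x) ^ 2 + 5 * x ^ 4 * (1 - x) + x ^ 5 = 1 := by ring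
  obtain ⟨δ, hδ, d0, d1, d2, d3, d4, d5⟩ : ∃ δ : ℝ, 0 < δ ∧ β0 ≤ -δ ∧ β1 ≤ -δ ∧ β2 ≤ -δ
      ∧ β3 ≤ -δ ∧ β4 ≤ -δ ∧ β5 ≤ -δ := by
    refine ⟨min (min (min (-β0) (-β1)) (min (-β2) (-β3))) (min (-β4) (-β5)), ?_, ?_, ?_, ?_, ?_,
      ?_, ?_⟩
    · simp only [lt_min_iff, neg_pos]
      tauto
    · have : min (min (min (-β0) (-β1)) (min (-β2) (-β3))) (min (-β4) (-β5)) ≤ -β0 :=
        (min_le_left _ _).trans ((min_le_left _ _).trans (min_le_left _ _))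
      linarith
    · have : min (min (min (-β0) (-β1)) (min (-β2) (-β3))) (min (-β4) (-β5)) ≤ -β1 :=
        (min_le_left _ _).trans ((min_le_left _ _).trans (min_le_right _ _))
      linarith
    · have : min (min (min (-β0) (-β1)) (min (-β2) (-β3))) (min (-β4) (-β5)) ≤ -β2 :=
        (min_le_left _ _).trans ((min_le_right _ _).trans (min_le_left _ _))
      linarith
    · have : min (min (min (-β0) (-β1)) (min (-β2) (-β3))) (min (-β4) (-β5)) ≤ -β3 :=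
        (min_le_left _ _).trans ((min_le_right _ _).trans (min_le_right _ _))
      linarith
    · have : min (min (min (-β0) (-β1)) (min (-β2) (-β3))) (min (-β4) (-β5)) ≤ -β4 :=
        (min_le_right _ _).trans (min_le_left _ _)
      linarith
    · have : min (min (min (-β0) (-β1)) (min (-β2) (-β3))) (min (-β4) (-β5)) ≤ -β5 :=
        (min_le_right _ _).trans (min_le_right _ _)
      linarith
  have m0 := mul_le_mul_of_nonneg_left d0 w0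
  have m1 := mul_le_mul_of_nonneg_left d1 w1
  have m2 := mul_le_mul_of_nonneg_left d2 w2
  have m3 := mul_le_mul_of_nonneg_left d3 w3
  have m4 := mul_le_mul_of_nonneg_left d4 w4
  have m5 := mul_le_mul_of_nonneg_left d5 w5
  have hle : c0 + c1 * (a + (b - a) * x) + c2 * (a + (b - a) * x) ^ 2
      + c3 * (a + (b - a) * x) ^ 3 + c4 * (a + (b - a) * x) ^ 4 + c5 * (a + (b - a) * x) ^ 5
      ≤ -δ * ((1 - x) ^ 5 + 5 * x * (1 - x) ^ 4 + 10 * x ^ 2 * (1 - x) ^ 3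
      + 10 * x ^ 3 * (1 - x) ^ 2 + 5 * x ^ 4 * (1 - x) + x ^ 5) := by
    linarith only [k0, k1, k2, k3, k4, k5, m0, m1, m2, m3, m4, m5]
  rw [hsum] at hle
  linarith

/-- the two-variable inequality from a one-variable one -/
lemma law_coreM {C Cl A D B E T u : ℝ} (hCl : Cl ≤ C) (h1 : 6 / 5 ≤ T) (h2 : T < C) (hu : 0 ≤ u)
    (hT : T ^ 2 * u ≤ 1) (hB : 0 ≤ B * T + E)
    (hR : E + B * T + D * T ^ 2 + A * T ^ 3 + (-Cl) * T ^ 4 + 1 * T ^ 5 < 0) :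
    T * (1 + A * u + B * u ^ 2) + D * u + E * u ^ 2 < C := by
  have hT0 : 0 < T := by linarith
  set w := T ^ 2 * u with hw
  have hw0 : 0 ≤ w := by positivity
  have hww : w ^ 2 ≤ w := by nlinarith
  have e1 : T ^ 4 * (T * (1 + A * u + B * u ^ 2) + D * u + E * u ^ 2 - C)
      = T ^ 4 * (T - C) * (1 - w) + w * (E + B * T + D * T ^ 2 + A * T ^ 3 + (-C) * T ^ 4
        + 1 * T ^ 5) - (B * T + E) * (w - w ^ 2) := by
    rw [hw]
    ring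
  have h3 : 0 ≤ (B * T + E) * (w - w ^ 2) := mul_nonneg hB (by linarith)
  have h4 : T ^ 4 * (T - C) < 0 := mul_neg_of_pos_of_neg (by positivity) (by linarith)
  have h5 : E + B * T + D * T ^ 2 + A * T ^ 3 + (-C) * T ^ 4 + 1 * T ^ 5 < 0 := by
    have : 0 ≤ (C - Cl) * T ^ 4 := mul_nonneg (by linarith) (by positivity)
    linarith
  have h6 : T ^ 4 * (T - C) * (1 - w) + w * (E + B * T + D * T ^ 2 + A * T ^ 3 + (-C) * T ^ 4
      + 1 * T ^ 5) < 0 := by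
    rcases hw0.eq_or_lt with h0 | h0
    · rw [← h0]
      linarith
    · have k1 := mul_neg_of_pos_of_neg h0 h5
      have k2 : T ^ 4 * (T - C) * (1 - w) ≤ 0 :=
        mul_nonpos_of_nonpos_of_nonneg h4.le (by linarith)
      linarith
  have h7 : T ^ 4 * (T * (1 + A * u + B * u ^ 2) + D * u + E * u ^ 2 - C) < 0 := by
    rw [e1]
    linarith
  have h8 := neg_of_mul_neg_right h7 (by positivity : (0 : ℝ) ≤ T ^ 4)
  linarith

/-- **The numerical law in even dimension.** `B1, B2, B3` are the static values, `φ1, φ2` the flux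
values; `C` lies in `[Cl, Cu]` and `γ ≤ γu`. -/
theorem law_negM {C Cl Cu γ γu B1 B2 B3 φ1 φ2 : ℝ} (hCl : Cl ≤ C) (hCu : C ≤ Cu) (hγ : γ ≤ γu)
    (hB3 : 0 ≤ B3) (hB4 : 0 ≤ (B2 + B3) * (6 / 5) + φ2) (hB5 : 0 ≤ (B2 + B3) * Cu + φ2)
    (hR1 : ∀ T : ℝ, 6 / 5 ≤ T → T ≤ Cu → 0 + B3 * T + (φ1 + φ2) * T ^ 2
      + (γu + B1 + B2) * T ^ 3 + (-Cl) * T ^ 4 + 1 * T ^ 5 < 0)
    (hR2 : ∀ T : ℝ, 6 / 5 ≤ T → T ≤ Cu → φ2 + (B2 + B3) * T + φ1 * T ^ 2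
      + (γu + B1) * T ^ 3 + (-Cl) * T ^ 4 + 1 * T ^ 5 < 0)
    {T u r : ℝ} (h1 : 6 / 5 ≤ T) (h2 : T < C) (hu : 0 ≤ u)
    (hT : T ^ 2 * u ≤ 1) (hr1 : u ^ 2 ≤ r) (hr2 : r ≤ u) :
    T * (1 + γ * u + (B1 * u + B2 * r + B3 * u ^ 2)) + (φ1 * u + φ2 * r) < C := by
  have hT0 : 0 < T := by linarith
  have hTC : T ≤ Cu := by linarith
  have hg : T * u * γ ≤ T * u * γu := mul_le_mul_of_nonneg_left hγ (by positivity)
  rcases le_total 0 (B2 * T + φ2) with hk | hk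
  · have h3 := mul_le_mul_of_nonneg_left hr2 hk
    have h4 := law_coreM (A := γu + B1 + B2) (D := φ1 + φ2) (B := B3) (E := 0) hCl h1 h2 hu hT
      (by positivity) (hR1 T h1 hTC)
    nlinarith
  · have h3 := mul_le_mul_of_nonpos_left hr1 hk
    have hB : 0 ≤ (B2 + B3) * T + φ2 := by
      rcases le_total 0 (B2 + B3) with h | h
      · have := mul_le_mul_of_nonneg_left h1 h
        linarith
      · have := mul_le_mul_of_nonpos_left hTC h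
        linarith
    have h4 := law_coreM (A := γu + B1) (D := φ1) (B := B2 + B3) (E := φ2) hCl h1 h2 hu hT
      hB (hR2 T h1 hTC)
    nlinarith

/-- The same in the shape of the hypothesis `hneg` of `main_m_of_cert`, with vanishing
`b0, b1, b8`; `g` is the flux constant and `R` the value of the row terms. -/
theorem law_negM_S {C Cl Cu γ γu b2 b3 b4 b5 b6 b7 φ1 φ2 : ℝ} (hCl : Cl ≤ C) (hCu : C ≤ Cu)
    (hγ : γ ≤ γu) (hB3 : 0 ≤ b5 + b6) (hB4 : 0 ≤ (b4 + b7 + (b5 + b6)) * (6 / 5) + φ2)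
    (hB5 : 0 ≤ (b4 + b7 + (b5 + b6)) * Cu + φ2)
    (hR1 : ∀ T : ℝ, 6 / 5 ≤ T → T ≤ Cu → 0 + (b5 + b6) * T + (φ1 + φ2) * T ^ 2
      + (γu + (b2 + b3) + (b4 + b7)) * T ^ 3 + (-Cl) * T ^ 4 + 1 * T ^ 5 < 0)
    (hR2 : ∀ T : ℝ, 6 / 5 ≤ T → T ≤ Cu → φ2 + (b4 + b7 + (b5 + b6)) * T + φ1 * T ^ 2
      + (γu + (b2 + b3)) * T ^ 3 + (-Cl) * T ^ 4 + 1 * T ^ 5 < 0)
    {T u r g R k : ℝ} (h1 : 6 / 5 ≤ T) (h2 : T < C) (hu : 0 ≤ u)
    (hT : T ^ 2 * u ≤ 1) (hr1 : u ^ 2 ≤ r) (hr2 : r ≤ u) (hR : g * R = φ1 * u + φ2 * r) :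
    T * (1 + γ * u + (0 + (0 + b2 + b3) * u + (b4 + b7) * r + (b5 + b6) * u ^ 2
      + 0 * ((u - r) / k))) + g * R < C := by
  have h := law_negM hCl hCu hγ hB3 hB4 hB5 hR1 hR2 h1 h2 hu hT hr1 hr2
  rw [hR]
  refine lt_of_eq_of_lt ?_ h
  ring

/-- a test: the numbers of the certificate in dimension four -/
example {T u r : ℝ} (h1 : 6 / 5 ≤ T) (h2 : T < 3 / 2) (hu : 0 ≤ u) (hT : T ^ 2 * u ≤ 1)
    (hr1 : u ^ 2 ≤ r) (hr2 : r ≤ u) :
    T * (1 + 57945 / 100000 * u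
        + (1701955 / 524288 * u + (-(5069825 / 1048576)) * r + 116875 / 524288 * u ^ 2))
      + (-(3 * 2062939 / 1048576) * u + 3 * 4951 / 2048 * r) < 3 / 2 := by
  refine law_negM (Cl := 3 / 2) (Cu := 3 / 2) (γu := 57945 / 100000) le_rfl le_rfl le_rfl
    (by norm_num) (by norm_num) (by norm_num) ?_ ?_ h1 h2 hu hT hr1 hr2
  · intro T hT1 hT2
    exact quintic_neg (by norm_num) (by norm_num) (by norm_num) (by norm_num) (by norm_num)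
      (by norm_num) (by norm_num) (le_of_eq rfl) (le_of_eq rfl) (le_of_eq rfl) (le_of_eq rfl)
      (le_of_eq rfl) (le_of_eq rfl) hT1 hT2
  · intro T hT1 hT2
    exact quintic_neg (by norm_num) (by norm_num) (by norm_num) (by norm_num) (by norm_num)
      (by norm_num) (by norm_num) (le_of_eq rfl) (le_of_eq rfl) (le_of_eq rfl) (le_of_eq rfl)
      (le_of_eq rfl) (le_of_eq rfl) hT1 hT2

end Vale.Agent.P224.POS
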