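import Vale.Agent.P224.POS.Lhs

/-!
Integrability of the lower bound of the balanced functional.
-/

namespace Vale.Agent.P224.POS

open MeasureTheory Set Filter Function Module Vale.Agent.P224 Vale.Agent.P224.UE
open Vale.Agent.P224.SM2 hiding ker
open scoped Topology RealInnerProductSpace

set_option linter.unusedSectionVars false

/-- the bounded form of the function -/
noncomputable def LB (v : Fin 5 → ℝ) : ℝ :=
  (0.1857 - 0.25 * v 0 + 0.163 * v 0 ^ 2 - 0.037 * v 0 ^ 3) * (v 2 - v 1) ^ 2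
    + (v 4 - v 3) ^ 2 * (0.2472 + 0.2462 * v 0 + 0.2157 * v 0 ^ 2 + 0.0118 * v 0 ^ 3
      + (-0.0021 - 0.015 * v 0 + 0.067 * v 0 ^ 2 - 0.0147 * v 0 ^ 3) * v 2
      + (0.067 + 0.0222 * v 0 - 0.003 * v 0 ^ 2) * (v 0 ^ 2 * (v 4 * v 3)))

lemma Lr_eq {d : R9} (hs : d 0 < 1) :
    Lr d = LB ![1 - d 0, d 0, d 3, (1 - d 0)⁻¹ * d 1, (1 - d 0)⁻¹ * d 2] * (1 - d 0)⁻¹ := by
  have h : (1 - d 0) ≠ 0 := by
    have : 0 < 1 - d 0 := by linarith
    exact this.ne'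
  have e0 : (![1 - d 0, d 0, d 3, (1 - d 0)⁻¹ * d 1, (1 - d 0)⁻¹ * d 2] : Fin 5 → ℝ) 0
    = 1 - d 0 := rfl
  have e1 : (![1 - d 0, d 0, d 3, (1 - d 0)⁻¹ * d 1, (1 - d 0)⁻¹ * d 2] : Fin 5 → ℝ) 1
    = d 0 := rfl
  have e2 : (![1 - d 0, d 0, d 3, (1 - d 0)⁻¹ * d 1, (1 - d 0)⁻¹ * d 2] : Fin 5 → ℝ) 2
    = d 3 := rfl
  have e3 : (![1 - d 0, d 0, d 3, (1 - d 0)⁻¹ * d 1, (1 - d 0)⁻¹ * d 2] : Fin 5 → ℝ) 3
    = (1 - d 0)⁻¹ * d 1 := rfl
  have e4 : (![1 - d 0, d 0, d 3, (1 - d 0)⁻¹ * d 1, (1 - d 0)⁻¹ * d 2] : Fin 5 → ℝ) 4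
    = (1 - d 0)⁻¹ * d 2 := rfl
  unfold LB Lr
  rw [e0, e1, e2, e3, e4]
  generalize 1 - d 0 = w at h ⊢
  field_simp


lemma Lr_bound (B : ℝ) : ∃ K : ℝ, ∀ d : R9, CB B d → |Lr d| ≤ K * sg 2 (d 0) := by
  have hc : Continuous LB := by
    unfold LB
    fun_prop
  set K0 : Set (Fin 5 → ℝ) := Icc (fun _ => -(B + 2)) (fun _ => B + 2) with hK0
  have hK : IsCompact K0 := isCompact_Icc
  obtain ⟨K, hK⟩ := hK.exists_bound_of_continuousOn hc.continuousOn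
  refine ⟨K, fun d hd => ?_⟩
  have hw : 0 < 1 - d 0 := by linarith [hd.s1]
  have hw2 : 1 - d 0 ≤ 2 := by linarith [hd.s0]
  have hB0 : 0 ≤ B := (abs_nonneg _).trans (hd.b 0)
  have h1 : |(1 - d 0)⁻¹ * d 1| ≤ B := by
    rw [abs_mul, abs_inv, abs_of_pos hw, inv_mul_le_iff₀ hw]
    calc |d 1| ≤ B * (1 - d 0) := hd.t
      _ = _ := by ring
  have h2 : |(1 - d 0)⁻¹ * d 2| ≤ B := by
    rw [abs_mul, abs_inv, abs_of_pos hw, inv_mul_le_iff₀ hw]
    calc |d 2| ≤ B * (1 - d 0) := hd.p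
      _ = _ := by ring
  have hmem : (![1 - d 0, d 0, d 3, (1 - d 0)⁻¹ * d 1, (1 - d 0)⁻¹ * d 2] : Fin 5 → ℝ) ∈ K0 := by
    have key : ∀ i, |(![1 - d 0, d 0, d 3, (1 - d 0)⁻¹ * d 1, (1 - d 0)⁻¹ * d 2] : Fin 5 → ℝ) i|
        ≤ B + 2 := by
      intro i
      fin_cases i
      · change |1 - d 0| ≤ B + 2
        rw [abs_of_pos hw]
        linarith
      · change |d 0| ≤ B + 2
        linarith [hd.b 0]
      · change |d 3| ≤ B + 2
        linarith [hd.b 3]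
      · change |(1 - d 0)⁻¹ * d 1| ≤ B + 2
        linarith
      · change |(1 - d 0)⁻¹ * d 2| ≤ B + 2
        linarith
    exact ⟨fun i => (abs_le.1 (key i)).1, fun i => (abs_le.1 (key i)).2⟩
  have h3 := hK _ hmem
  rw [Real.norm_eq_abs] at h3
  have e1 : sg 2 (d 0) = (1 - d 0)⁻¹ := by
    unfold sg
    rw [Real.sq_sqrt hw.le]
  rw [Lr_eq hd.s1, abs_mul, abs_inv, abs_of_pos hw, e1]
  exact mul_le_mul_of_nonneg_right h3 (inv_nonneg.2 hw.le)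

lemma measurable_Lr : Measurable Lr := by
  unfold Lr
  fun_prop

/-- the function is integrable -/
theorem integrable_Lr {X : Type*} [MeasurableSpace X] {E : Type*} [NormedAddCommGroup E]
    [InnerProductSpace ℝ E] [MeasurableSpace E] [BorelSpace E] [SecondCountableTopology E]
    {μ : Measure X} [IsFiniteMeasure μ] {m : ℕ} {p n : X → E} {C : ℝ} (h : TwoG μ m p n)
    (hm : 2 < m) (hc : Contact p n C) (e : E) :
    Integrable (fun q => Lr (dat p n e q)) (μ.prod μ) := by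
  obtain ⟨K, hK⟩ := Lr_bound (bC (max C 1) e)
  have hint : Integrable (fun y => K * sg 2 (dat p n e y 0)) (μ.prod μ) :=
    (h.integrable_sg (by omega) e hm).const_mul _
  refine hint.mono' (measurable_Lr.comp (measurable_dat h.toPts e)).aestronglyMeasurable ?_
  filter_upwards [h.ae_lt (by omega) e] with y hy
  exact hK _ (hc.cb h.toPts e hy)

end Vale.Agent.P224.POS
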