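import Vale.Agent.P224.UE.LawM
import Vale.Agent.P224.TP.Top
import Vale.Agent.P224.Bdl.B5

/-!
The final assembly in even dimension: a certificate gives the sharp volume bound.
-/

namespace Vale.Agent.P224.POS

open MeasureTheory Set Filter Function Module Vale.Agent.P224 Vale.Agent.P224.UE
open Vale.Agent.P224.SM2 hiding ker
open scoped Topology RealInnerProductSpace ENNReal ContDiff Manifold

set_option linter.unusedSectionVars false

/-- the Clifford value in even dimension -/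
lemma leastClifford_even {h : ℕ} (hh : 1 ≤ h) :
    leastClifford (2 * h) ≤ evenRatio h * sphereVol (2 * h) :=
  even_bound hh le_rfl

section

variable {V W M : Type*} [NormedAddCommGroup V] [InnerProductSpace ℝ V] [FiniteDimensional ℝ V]
  [NormedAddCommGroup W] [InnerProductSpace ℝ W] [FiniteDimensional ℝ W]
  [TopologicalSpace M] [ChartedSpace V M]
  [MeasurableSpace V] [BorelSpace V] [MeasurableSpace M] [BorelSpace M]
  [IsManifold 𝓘(ℝ, V) ∞ M] [CompactSpace M] [T2Space M] [ConnectedSpace M]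
  [MeasurableSpace W] [BorelSpace W]

/-- The sharp bound from a certificate, in dimension `2 * h`. -/
theorem main_m_of_cert {h : ℕ} (hh : 2 ≤ h) (hV : finrank ℝ V = 2 * h)
    (hW : finrank ℝ W = finrank ℝ V + 2)
    {F : M → W} (hF : SphImm V F) (hmin : ∀ x n, IsUnitNormal V F x n → meanCurv V F x n = 0)
    (hng : ¬ ∃ a : W, a ≠ 0 ∧ ∀ x, ⟪F x, a⟫ = 0)
    {C : ℝ} (hC2 : C ≤ 2) (hC : leastClifford (2 * h) ≤ C * sphereVol (2 * h))
    {L : R9 → ℝ} {γ b0 b1 b2 b3 b4 b5 b6 b7 b8 : ℝ} {l : List (ℝ × RTerm)}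
    (hl : ∀ cT ∈ l, cT.2.okM (2 * h) = true)
    (hL : ∀ N : M → W, ContMDiff 𝓘(ℝ, V) 𝓘(ℝ, W) ∞ N → (∀ x, IsUnitNormal V F x (N x)) →
      Injective F → ∀ e : W, Integrable (fun q => L (dat F N e q)) ((volM V F).prod (volM V F)) ∧
        ∫ q, L (dat F N e q) ∂((volM V F).prod (volM V F))
          + C * sphereVol (2 * h) * (volM V F).real univ
          ≤ (volM V F).real univ ^ 2 + γ * ‖∫ x, N x ∂(volM V F)‖ ^ 2)
    (hpos : ∀ e x N y w : W, ‖e‖ ^ 2 ≤ 25 / 36 → ‖x‖ = 1 → ‖N‖ = 1 → ‖y‖ = 1 → ‖w‖ = 1 →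
      ⟪x, N⟫ = 0 → ⟪y, w⟫ = 0 → ⟪x, y⟫ < 1 → 0 ≤ L (dv x N y w e)
        + W9 b0 b1 b2 b3 b4 b5 b6 b7 b8 (dv x N y w e) + rsumM (2 * h) l (dv x N y w e))
    (hneg : ∀ Θ u r : ℝ, 6 / 5 ≤ Θ → Θ < C → 0 ≤ u → Θ ^ 2 * u ≤ 1 → u ^ 2 ≤ r → r ≤ u →
      Θ * (1 + γ * u + (b0 + (b1 + b2 + b3) * u + (b4 + b7) * r + (b5 + b6) * u ^ 2
        + b8 * ((u - r) / (2 * h + 1)))) + (gam h h)⁻¹ * rvalM (2 * h) l u r < C) :
    ENNReal.ofReal (leastClifford (finrank ℝ V)) ≤ volM V F univ := by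
  have hm : 0 < finrank ℝ V := by omega
  have hfin : IsFiniteMeasure (volM V F) := isFiniteMeasure_volM hF
  set A := (volM V F).real univ with hA
  set S := sphereVol (finrank ℝ V) with hS
  have hS0 : 0 < S := sphereVol_pos' _
  have hle : leastClifford (finrank ℝ V) ≤ C * S := by
    rw [hS, hV]
    exact hC
  have hconv : ∀ c : ℝ, c ≤ A → ENNReal.ofReal c ≤ volM V F univ := fun c hc =>
    ENNReal.ofReal_le_of_le_toReal hc
  refine hconv _ ?_
  by_cases hinj : Injective F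
  swap
  · have h2 := TwoSide.two_le (by omega) hW hF hmin hinj
    have h3 : C * S ≤ 2 * S := by gcongr
    linarith
  by_contra hlt
  rw [not_le] at hlt
  have h65 : 6 / 5 * S ≤ A := by
    have h1 := (PM.main_frac (by omega) hW hF hmin hng).1
    have h2 := ENNReal.toReal_mono (measure_ne_top _ _) h1
    rwa [ENNReal.toReal_ofReal (by positivity)] at h2
  have hA0 : 0 < A := by linarith
  obtain ⟨N, hNs, hN, htop⟩ := TP.exists_normal_le hW hm hF hinj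
  obtain ⟨B, hE⟩ := embD_of_inj hm hW hF hmin hNs hN hinj
  rw [hV] at hE
  set e : W := A⁻¹ • ∫ x, N x ∂(volM V F) with he
  have he' : A • e = ∫ x, N x ∂(volM V F) := by
    rw [he, smul_smul, mul_inv_cancel₀ hA0.ne', one_smul]
  have hn : ‖∫ x, N x ∂(volM V F)‖ = A * ‖e‖ := by
    rw [← he', norm_smul, Real.norm_eq_abs, abs_of_pos hA0]
  rw [hn] at htop
  set Θ := A / S with hΘ
  have hAS : A = Θ * S := by rw [hΘ]; field_simp
  have h1 : 6 / 5 ≤ Θ := by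
    rw [hΘ, le_div_iff₀ hS0]
    exact h65
  have h2 : Θ < C := by
    rw [hΘ, div_lt_iff₀ hS0]
    linarith
  have h3 : Θ * ‖e‖ ≤ 1 := by
    have : S * (Θ * ‖e‖) ≤ S * 1 := by
      calc S * (Θ * ‖e‖) = A * ‖e‖ := by rw [hAS]; ring
        _ ≤ S := htop
        _ = S * 1 := (mul_one S).symm
    exact le_of_mul_le_mul_left this hS0
  have h4 : Θ ^ 2 * ‖e‖ ^ 2 ≤ 1 := by
    have h0 : 0 ≤ Θ * ‖e‖ := mul_nonneg (by linarith) (norm_nonneg _)
    calc Θ ^ 2 * ‖e‖ ^ 2 = (Θ * ‖e‖) ^ 2 := by ring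
      _ ≤ 1 := pow_le_one₀ h0 h3
  have h5 : ‖e‖ ^ 2 ≤ 25 / 36 := by
    have h6 : (6 / 5 : ℝ) ^ 2 ≤ Θ ^ 2 := pow_le_pow_left₀ (by norm_num) h1 2
    have h7 := mul_le_mul_of_nonneg_right h6 (sq_nonneg ‖e‖)
    linarith
  obtain ⟨hLi, hLl⟩ := hL N hNs hN hinj e
  have hne : Nonempty M := inferInstance
  obtain ⟨r, hr1, hr2, hr3⟩ := hE.law_M (by omega) (Cc := C) (γ := γ) he' hA0 hLi hLl hl
    (fun x N y w hx hN hy hw hxN hyw hs => hpos e x N y w h5 hx hN hy hw hxN hyw hs)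
  have hS4 : sphereVol (2 * h) = S := by rw [hS, hV]
  rw [hS4, ← hA] at hr3
  have h8 := hneg Θ (‖e‖ ^ 2) r h1 h2 (sq_nonneg _) h4 hr1 hr2
  have h9 := mul_lt_mul_of_pos_left h8 hS0
  have h10 : ∀ c : ℝ, A * c = S * (Θ * c) := fun c => by rw [hAS]; ring
  rw [h10] at hr3
  linarith

end

end Vale.Agent.P224.POS
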