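import Vale.Agent.P224.POS.Z5
import Vale.Agent.P224.SH.HD4b
import Vale.Agent.P224.SMH.End4
import Vale.Agent.P224.SMH.E4

/-!
The sharp volume bound in dimension four.
-/

namespace Vale.Agent.P224.POS

open MeasureTheory Set Filter Function Module Vale.Agent.P224 Vale.Agent.P224.UE
open Vale.Agent.P224.SMH Vale.Agent.P224.SH
open Vale.Agent.P224.SM2 hiding ker
open scoped Topology RealInnerProductSpace ENNReal ContDiff Manifold

set_option linter.unusedSectionVars false

/-- the value at one on the pair data -/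
lemma Hd_HD4_dat {X W : Type*} [NormedAddCommGroup W] [InnerProductSpace ℝ W] {p n : X → W}
    {v : W} {q : X × X} (hq : ⟪p q.1, p q.2⟫ < 1) :
    Hd HD4 1 (SM2.pr p n q) = Lr (dat p n v q) := by
  have h : dat p n v q 0 < 1 := hq
  rw [← Hd_HD4 h]
  rfl

section

variable {V W M : Type*} [NormedAddCommGroup V] [InnerProductSpace ℝ V] [FiniteDimensional ℝ V]
  [NormedAddCommGroup W] [InnerProductSpace ℝ W] [FiniteDimensional ℝ W]
  [TopologicalSpace M] [ChartedSpace V M]
  [MeasurableSpace V] [BorelSpace V] [MeasurableSpace M] [BorelSpace M]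
  [IsManifold 𝓘(ℝ, V) ∞ M] [CompactSpace M] [T2Space M]
  [MeasurableSpace W] [BorelSpace W]

/-- the static inequality in dimension four, from the pointwise inequality -/
theorem static4_of_le
    (hle : ∀ T ∈ Ioo (0 : ℝ) 1, ∀ k, Adm k → Hd' HD4 T k ≤ FK 4 T (y4 T) (e4 T) (r4 T) k)
    (hV : finrank ℝ V = 4) (hW : finrank ℝ W = finrank ℝ V + 2) {F : M → W}
    (hF : SphImm V F) (hmin : ∀ x n, IsUnitNormal V F x n → meanCurv V F x n = 0)
    {N : M → W} (hNs : ContMDiff 𝓘(ℝ, V) 𝓘(ℝ, W) ∞ N) (hN : ∀ x, IsUnitNormal V F x (N x))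
    (hinj : Injective F) (v : W) :
    Integrable (fun q => Lr (dat F N v q)) ((volM V F).prod (volM V F)) ∧
      ∫ q, Lr (dat F N v q) ∂((volM V F).prod (volM V F))
        + 3 / 2 * sphereVol 4 * (volM V F).real univ
      ≤ (volM V F).real univ ^ 2
        + (3 * Real.log 2 - 3 / 2) * ‖∫ x, N x ∂(volM V F)‖ ^ 2 := by
  have hfin : IsFiniteMeasure (volM V F) := isFiniteMeasure_volM hF
  have h4 : ((finrank ℝ V : ℕ) : ℝ) = 4 := by rw [hV]; norm_num
  have h := static_HD (y := y4) (Z := Z4) (e := e4) (r := r4) (lam := 3 / 4) (d := HD4)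
    (kA := 1) (kB := 3) (by omega) hW hF hmin hNs hN hinj (by norm_num)
    (by rw [hV]; exact cert4) (by rw [hV]; exact certLim4)
    (by rw [h4]; exact y4_zero) (by rw [h4]; exact Z4_zero) e4_zero HD4_zOk HD4_dvOk
    (by omega) (by omega) (by rw [hV]; exact hle)
  have hae := (twoG_of_min hW hF hmin hNs hN).ae_lt (by omega) v
  have heq : (fun q => Hd HD4 1 (SM2.pr F N q))
      =ᵐ[(volM V F).prod (volM V F)] fun q => Lr (dat F N v q) := by
    filter_upwards [hae] with q hq
    exact Hd_HD4_dat hq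
  refine ⟨h.1.congr heq, ?_⟩
  have h2 := h.2
  rw [integral_congr_ae heq, h4, r4_zero, hV] at h2
  linarith

/-- The sharp bound from the pointwise inequality. -/
theorem main4_of_le [ConnectedSpace M]
    (hle : ∀ T ∈ Ioo (0 : ℝ) 1, ∀ k, Adm k → Hd' HD4 T k ≤ FK 4 T (y4 T) (e4 T) (r4 T) k)
    (hV : finrank ℝ V = 4) (hW : finrank ℝ W = finrank ℝ V + 2)
    {F : M → W} (hF : SphImm V F) (hmin : ∀ x n, IsUnitNormal V F x n → meanCurv V F x n = 0)
    (hng : ¬ ∃ a : W, a ≠ 0 ∧ ∀ x, ⟪F x, a⟫ = 0) :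
    ENNReal.ofReal (leastClifford (finrank ℝ V)) ≤ volM V F univ :=
  main4_of_static hV hW hF hmin hng fun _ hNs hN hinj v =>
    static4_of_le hle hV hW hF hmin hNs hN hinj v

end

end Vale.Agent.P224.POS
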