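import Vale.Agent.P224.POS.Main4
import Vale.Agent.P224.SH.Stat4

/-!
The sharp volume bound in dimension four.
-/

namespace Vale.Agent.P224.POS

open MeasureTheory Set Filter Function Module Vale.Agent.P224 Vale.Agent.P224.UE
open scoped Topology RealInnerProductSpace ENNReal ContDiff Manifold

variable {V W M : Type*} [NormedAddCommGroup V] [InnerProductSpace ℝ V] [FiniteDimensional ℝ V]
  [NormedAddCommGroup W] [InnerProductSpace ℝ W] [FiniteDimensional ℝ W]
  [TopologicalSpace M] [ChartedSpace V M]
  [MeasurableSpace V] [BorelSpace V] [MeasurableSpace M] [BorelSpace M]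
  [IsManifold 𝓘(ℝ, V) ∞ M] [CompactSpace M] [T2Space M] [ConnectedSpace M]
  [MeasurableSpace W] [BorelSpace W]

/-- **The sharp bound in dimension four.** A closed connected minimal hypersurface of `S^5`,
immersed and not contained in a great sphere, has at least the volume of the least Clifford
hypersurface. -/
theorem main4 (hV : finrank ℝ V = 4) (hW : finrank ℝ W = finrank ℝ V + 2)
    {F : M → W} (hF : SphImm V F) (hmin : ∀ x n, IsUnitNormal V F x n → meanCurv V F x n = 0)
    (hng : ¬ ∃ a : W, a ≠ 0 ∧ ∀ x, ⟪F x, a⟫ = 0) :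
    ENNReal.ofReal (leastClifford (finrank ℝ V)) ≤ volM V F univ :=
  main4_of_le SH.stat4.le hV hW hF hmin hng

end Vale.Agent.P224.POS
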