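import Vale.Agent.P224.POS.Main4b
import Vale.Agent.P224.POS.M6.Main
import Vale.Agent.P224.POS.M6.Eok
import Vale.Agent.P224.POS.M8.Main
import Vale.Agent.P224.POS.M8.Eok
import Vale.Agent.P224.POS.M10.Main
import Vale.Agent.P224.POS.M10.Eok
import Vale.Agent.P224.POS.M12.Main
import Vale.Agent.P224.POS.M12.Eok

/-!
The sharp volume bound in dimensions four, six, eight, ten and twelve.
-/

namespace Vale.Agent.P224.POS

open MeasureTheory Set Filter Function Module Vale.Agent.P224 Vale.Agent.P224.UE
open scoped Topology RealInnerProductSpace ENNReal ContDiff Manifold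

variable {V W M : Type*} [NormedAddCommGroup V] [InnerProductSpace ℝ V] [FiniteDimensional ℝ V]
  [NormedAddCommGroup W] [InnerProductSpace ℝ W] [FiniteDimensional ℝ W]
  [TopologicalSpace M] [ChartedSpace V M]
  [MeasurableSpace V] [BorelSpace V] [MeasurableSpace M] [BorelSpace M]
  [IsManifold 𝓘(ℝ, V) ∞ M] [CompactSpace M] [T2Space M] [ConnectedSpace M]
  [MeasurableSpace W] [BorelSpace W]

/-- **The sharp bound in the even dimensions from four to twelve.** A closed connected minimal
hypersurface of the sphere, immersed and not contained in a great sphere, has at least the volume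
of the least Clifford hypersurface. -/
theorem mainE (h2 : Even (finrank ℝ V)) (h4 : 4 ≤ finrank ℝ V) (h12 : finrank ℝ V ≤ 12)
    (hW : finrank ℝ W = finrank ℝ V + 2)
    {F : M → W} (hF : SphImm V F) (hmin : ∀ x n, IsUnitNormal V F x n → meanCurv V F x n = 0)
    (hng : ¬ ∃ a : W, a ≠ 0 ∧ ∀ x, ⟪F x, a⟫ = 0) :
    ENNReal.ofReal (leastClifford (finrank ℝ V)) ≤ volM V F univ := by
  obtain ⟨k, hk⟩ := h2
  have hk2 : 2 ≤ k := by omega
  have hk6 : k ≤ 6 := by omega
  interval_cases k
  · exact main4 hk hW hF hmin hng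
  · exact M6.main_of_eok M6.eok hk hW hF hmin hng
  · exact M8.main_of_eok M8.eok hk hW hF hmin hng
  · exact M10.main_of_eok M10.eok hk hW hF hmin hng
  · exact M12.main_of_eok M12.eok hk hW hF hmin hng

end Vale.Agent.P224.POS
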