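import Mathlib

/-!
Polynomial expressions over the integers and an evaluation that the kernel carries out fast: some
variables are replaced by large integers, in the others the value is a sparse polynomial (monomials
are coded by products of primes).
-/

namespace Vale.Agent.P224.POS

noncomputable section

/-- polynomial expressions -/
inductive PE where
  | c (n : Int) : PE
  | v (i : Nat) : PE
  | add (a b : PE) : PE
  | sub (a b : PE) : PE
  | mul (a b : PE) : PE
  | pow (a : PE) (n : Nat) : PE

namespace PE

instance : Inhabited PE := ⟨c 0⟩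
instance : Add PE := ⟨add⟩
instance : Sub PE := ⟨sub⟩
instance : Mul PE := ⟨mul⟩
instance : Pow PE ℕ := ⟨pow⟩
instance (n : ℕ) : OfNat PE n := ⟨c (Int.ofNat n)⟩

/-- the value of an expression in a commutative ring -/
def ev {R : Type*} [CommRing R] (f : ℕ → R) (e : PE) : R :=
  PE.rec (motive := fun _ => R) (fun n => (n : R)) f (fun _ _ x y => x + y) (fun _ _ x y => x - y)
    (fun _ _ x y => x * y) (fun _ n x => x ^ n) e

section

variable {R : Type*} [CommRing R] (f : ℕ → R)

@[simp] lemma ev_c (n : Int) : ev f (c n) = (n : R) := rfl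
@[simp] lemma ev_v (i : ℕ) : ev f (v i) = f i := rfl
@[simp] lemma ev_add (a b : PE) : ev f (a.add b) = ev f a + ev f b := rfl
@[simp] lemma ev_sub (a b : PE) : ev f (a.sub b) = ev f a - ev f b := rfl
@[simp] lemma ev_mul (a b : PE) : ev f (a.mul b) = ev f a * ev f b := rfl
@[simp] lemma ev_pow (a : PE) (n : ℕ) : ev f (a.pow n) = ev f a ^ n := rfl
@[simp] lemma ev_add' (a b : PE) : ev f (a + b) = ev f a + ev f b := rfl
@[simp] lemma ev_sub' (a b : PE) : ev f (a - b) = ev f a - ev f b := rfl
@[simp] lemma ev_mul' (a b : PE) : ev f (a * b) = ev f a * ev f b := rfl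
@[simp] lemma ev_pow' (a : PE) (n : ℕ) : ev f (a ^ n) = ev f a ^ n := rfl
@[simp] lemma ev_ofNat (n : ℕ) : ev f (OfNat.ofNat n : PE) = (n : R) := by
  change ((Int.ofNat n : ℤ) : R) = _
  simp

lemma ev_map {S : Type*} [CommRing S] (h : R →+* S) (e : PE) : h (ev f e) = ev (fun i => h (f i)) e := by
  induction e with
  | c n => simp
  | v i => simp
  | add a b ha hb => simp [ha, hb]
  | sub a b ha hb => simp [ha, hb]
  | mul a b ha hb => simp [ha, hb]
  | pow a n ha => simp [ha]

end

/-- the value with absolute values and plus signs -/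
def ab {S : Type*} [CommSemiring S] (g : ℕ → S) (e : PE) : S :=
  PE.rec (motive := fun _ => S) (fun n => (n.natAbs : S)) g (fun _ _ x y => x + y)
    (fun _ _ x y => x + y) (fun _ _ x y => x * y) (fun _ n x => x ^ n) e

/-- the same for natural numbers, for the kernel -/
def abN (g : Nat → Nat) (e : PE) : Nat :=
  PE.rec (motive := fun _ => Nat) (fun n => n.natAbs) g (fun _ _ x y => Nat.add x y)
    (fun _ _ x y => Nat.add x y) (fun _ _ x y => Nat.mul x y) (fun _ n x => Nat.pow x n) e

section

variable {S : Type*} [CommSemiring S] (g : ℕ → S)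

@[simp] lemma ab_c (n : Int) : ab g (c n) = (n.natAbs : S) := rfl
@[simp] lemma ab_v (i : ℕ) : ab g (v i) = g i := rfl
@[simp] lemma ab_add (a b : PE) : ab g (a.add b) = ab g a + ab g b := rfl
@[simp] lemma ab_sub (a b : PE) : ab g (a.sub b) = ab g a + ab g b := rfl
@[simp] lemma ab_mul (a b : PE) : ab g (a.mul b) = ab g a * ab g b := rfl
@[simp] lemma ab_pow (a : PE) (n : ℕ) : ab g (a.pow n) = ab g a ^ n := rfl

lemma abN_eq (g : ℕ → ℕ) (e : PE) : abN g e = ab g e := by
  induction e with
  | c n => simp [abN]
  | v i => simp [abN]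
  | add a b ha hb => rw [ab_add, ← ha, ← hb]; rfl
  | sub a b ha hb => rw [ab_sub, ← ha, ← hb]; rfl
  | mul a b ha hb => rw [ab_mul, ← ha, ← hb]; rfl
  | pow a n ha => rw [ab_pow, ← ha]; rfl

lemma ab_map {T : Type*} [CommSemiring T] (h : S →+* T) (e : PE) :
    h (ab g e) = ab (fun i => h (g i)) e := by
  induction e with
  | c n => simp
  | v i => simp
  | add a b ha hb => simp [ha, hb]
  | sub a b ha hb => simp [ha, hb]
  | mul a b ha hb => simp [ha, hb]
  | pow a n ha => simp [ha]

end

end PE

/-- sparse polynomials: lists of (code of a monomial, coefficient) -/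
inductive HP where
  | nil : HP
  | cons (k : Nat) (a : Int) (t : HP) : HP

namespace HP

/-- is the integer zero -/
def isZ (a : Int) : Bool := Int.rec (motive := fun _ => Bool) (fun n => Nat.beq n 0) (fun _ => false) a

/-- prepend unless the coefficient is zero -/
def consNZ (k : Nat) (a : Int) (t : HP) : HP :=
  Int.rec (motive := fun _ => HP)
    (fun n => Nat.rec (motive := fun _ => HP) t (fun m _ => cons k (Int.ofNat (Nat.succ m)) t) n)
    (fun n => Nat.rec (motive := fun _ => HP) (cons k (Int.negSucc 0) t)
      (fun m _ => cons k (Int.negSucc (Nat.succ m)) t) n) a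

/-- sum -/
def add (p : HP) : HP → HP :=
  HP.rec (motive := fun _ => HP → HP) (fun q => q)
    (fun k a t ih q => HP.rec (motive := fun _ => HP) (cons k a t)
      (fun l b u ih2 =>
        Bool.rec (motive := fun _ => HP)
          (Bool.rec (motive := fun _ => HP)
            (cons l b ih2)
            (cons k a (ih (cons l b u))) (Nat.ble k l))
          (consNZ k (Int.add a b) (ih u)) (Nat.beq k l)) q) p

/-- product with a monomial -/
def smul (k : Nat) (a : Int) (q : HP) : HP :=
  HP.rec (motive := fun _ => HP) nil (fun l b _ ih => cons (Nat.mul k l) (Int.mul a b) ih) q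

/-- product -/
def mul (p q : HP) : HP :=
  HP.rec (motive := fun _ => HP) nil (fun k a _ ih => add (smul k a q) ih) p

/-- power -/
def pow (p : HP) (n : Nat) : HP :=
  Nat.rec (motive := fun _ => HP) (cons 1 1 nil) (fun _ ih => mul p ih) n

/-- difference -/
def sub (p q : HP) : HP := add p (smul 1 (-1) q)

/-- all coefficients vanish -/
def zero (p : HP) : Bool :=
  HP.rec (motive := fun _ => Bool) true
    (fun _ a _ ih => Bool.rec (motive := fun _ => Bool) false ih (isZ a)) p

section

variable {R : Type*} [CommRing R] (mo : ℕ → R)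

/-- the value -/
def val (p : HP) : R := HP.rec (motive := fun _ => R) 0 (fun k a _ ih => (a : R) * mo k + ih) p

@[simp] lemma val_nil : val mo nil = 0 := rfl
@[simp] lemma val_cons (k : Nat) (a : Int) (t : HP) :
    val mo (cons k a t) = (a : R) * mo k + val mo t := rfl

lemma isZ_eq {a : Int} (h : isZ a = true) : a = 0 := by
  cases a with
  | ofNat n =>
    have : n = 0 := Nat.eq_of_beq_eq_true h
    simp [this]
  | negSucc n => exact absurd h (by simp [isZ])

lemma val_consNZ (k : Nat) (a : Int) (t : HP) :
    val mo (consNZ k a t) = (a : R) * mo k + val mo t := by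
  cases a with
  | ofNat n =>
    cases n with
    | zero => simp [consNZ]
    | succ m => rfl
  | negSucc n =>
    cases n with
    | zero => rfl
    | succ m => rfl

lemma add_nil_left (q : HP) : add nil q = q := rfl
lemma add_nil_right (k : Nat) (a : Int) (t : HP) : add (cons k a t) nil = cons k a t := rfl

lemma add_cons (k : Nat) (a : Int) (t : HP) (l : Nat) (b : Int) (u : HP) :
    add (cons k a t) (cons l b u) =
      Bool.rec (motive := fun _ => HP)
          (Bool.rec (motive := fun _ => HP)
            (cons l b (add (cons k a t) u))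
            (cons k a (add t (cons l b u))) (Nat.ble k l))
          (consNZ k (Int.add a b) (add t u)) (Nat.beq k l) := rfl

lemma val_add (p q : HP) : val mo (add p q) = val mo p + val mo q := by
  induction p generalizing q with
  | nil => simp [add_nil_left]
  | cons k a t ih =>
    induction q with
    | nil => simp [add_nil_right]
    | cons l b u ih2 =>
      rw [add_cons]
      cases h1 : Nat.beq k l with
      | true =>
        have hkl : k = l := Nat.eq_of_beq_eq_true h1
        simp only [val_consNZ, ih, hkl, val_cons]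
        have : ((Int.add a b : ℤ) : R) = (a : R) + b := by
          rw [← Int.cast_add]; rfl
        rw [this]
        ring
      | false =>
        cases h2 : Nat.ble k l with
        | true =>
          simp only [val_cons, ih]
          ring
        | false =>
          simp only [val_cons, ih2]
          ring

lemma val_smul (hmo : ∀ k l, mo (k * l) = mo k * mo l) (k : Nat) (a : Int) (q : HP) :
    val mo (smul k a q) = (a : R) * mo k * val mo q := by
  induction q with
  | nil => simp [smul]
  | cons l b t ih =>
    have e : smul k a (cons l b t) = cons (Nat.mul k l) (Int.mul a b) (smul k a t) := rfl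
    have h1 : mo (Nat.mul k l) = mo k * mo l := hmo k l
    have h2 : ((Int.mul a b : ℤ) : R) = (a : R) * b := by rw [← Int.cast_mul]; rfl
    rw [e, val_cons, val_cons, ih, h1, h2]
    ring

lemma val_mul (hmo : ∀ k l, mo (k * l) = mo k * mo l) (p q : HP) :
    val mo (mul p q) = val mo p * val mo q := by
  induction p with
  | nil => simp [mul]
  | cons k a t ih =>
    have e : mul (cons k a t) q = add (smul k a q) (mul t q) := rfl
    rw [e, val_add, val_smul mo hmo, ih, val_cons]
    ring

lemma val_pow (hmo : ∀ k l, mo (k * l) = mo k * mo l) (h1 : mo 1 = 1) (p : HP) (n : ℕ) :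
    val mo (pow p n) = val mo p ^ n := by
  induction n with
  | zero => simp [pow, h1]
  | succ n ih =>
    have e : pow p (n + 1) = mul p (pow p n) := rfl
    rw [e, val_mul mo hmo, ih, pow_succ, mul_comm]

lemma val_sub (hmo : ∀ k l, mo (k * l) = mo k * mo l) (h1 : mo 1 = 1) (p q : HP) :
    val mo (sub p q) = val mo p - val mo q := by
  unfold sub
  rw [val_add, val_smul mo hmo, h1]
  push_cast
  ring

lemma val_zero {p : HP} (h : zero p = true) : val mo p = 0 := by
  induction p with
  | nil => rfl
  | cons k a t ih =>
    have e : zero (cons k a t)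
      = Bool.rec (motive := fun _ => Bool) false (zero t) (isZ a) := rfl
    rw [e] at h
    cases h1 : isZ a with
    | true =>
      rw [h1] at h
      rw [val_cons, ih h, isZ_eq h1]
      simp
    | false =>
      rw [h1] at h
      exact absurd h (by simp)

end

end HP

/-- the sparse value of an expression -/
def PE.hp (g : Nat → HP) (e : PE) : HP :=
  PE.rec (motive := fun _ => HP) (fun n => HP.consNZ 1 n HP.nil) g (fun _ _ x y => HP.add x y)
    (fun _ _ x y => HP.sub x y) (fun _ _ x y => HP.mul x y) (fun _ n x => HP.pow x n) e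

lemma PE.val_hp {R : Type*} [CommRing R] (mo : ℕ → R) (hmo : ∀ k l, mo (k * l) = mo k * mo l)
    (h1 : mo 1 = 1) (g : Nat → HP) (e : PE) :
    HP.val mo (PE.hp g e) = PE.ev (fun i => HP.val mo (g i)) e := by
  induction e with
  | c n =>
    change HP.val mo (HP.consNZ 1 n HP.nil) = _
    simp [HP.val_consNZ, h1]
  | v i => rfl
  | add a b ha hb =>
    rw [PE.ev_add, ← ha, ← hb, ← HP.val_add]
    rfl
  | sub a b ha hb =>
    rw [PE.ev_sub, ← ha, ← hb, ← HP.val_sub mo hmo h1]
    rfl
  | mul a b ha hb =>
    rw [PE.ev_mul, ← ha, ← hb, ← HP.val_mul mo hmo]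
    rfl
  | pow a n ha =>
    rw [PE.ev_pow, ← ha, ← HP.val_pow mo hmo h1]
    rfl

end

end Vale.Agent.P224.POS
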