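import Vale.Agent.P224.POS.Check

/-!
Polynomial expressions all of whose coefficients are nonnegative (verified by expansion in the
kernel) are nonnegative for nonnegative values of the variables.
-/

namespace Vale.Agent.P224.POS

noncomputable section

/-- is the integer nonnegative -/
def isNN (a : Int) : Bool := Int.rec (motive := fun _ => Bool) (fun _ => true) (fun _ => false) a

/-- all coefficients are nonnegative -/
def HP.nn (p : HP) : Bool :=
  HP.rec (motive := fun _ => Bool) true
    (fun _ a _ ih => Bool.rec (motive := fun _ => Bool) false ih (isNN a)) p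

lemma isNN_le {a : Int} (h : isNN a = true) : 0 ≤ a := by
  cases a with
  | ofNat n => exact Int.natCast_nonneg n
  | negSucc n => exact absurd h (by simp [isNN])

lemma HP.val_nonneg (mo : ℕ → ℝ) (hmo : ∀ k, 0 ≤ mo k) {p : HP} (h : p.nn = true) :
    0 ≤ HP.val mo p := by
  induction p with
  | nil => exact le_rfl
  | cons k a t ih =>
    have e : HP.nn (HP.cons k a t)
      = Bool.rec (motive := fun _ => Bool) false (HP.nn t) (isNN a) := rfl
    rw [e] at h
    cases h1 : isNN a with
    | true =>
      rw [h1] at h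
      rw [HP.val_cons]
      have h2 : (0 : ℝ) ≤ a := by exact_mod_cast isNN_le h1
      exact add_nonneg (mul_nonneg h2 (hmo k)) (ih h)
    | false =>
      rw [h1] at h
      exact absurd h (by simp)

/-- the expansion in at most ten variables has nonnegative coefficients -/
def posChk (e : PE) : Bool := HP.nn (PE.hp (env []) e)

lemma env_val_nil {R : Type*} [CommRing R] (f : ℕ → R) (hf : ∀ i, 10 ≤ i → f i = 0) (i : ℕ) :
    HP.val (mo f) (env [] i) = f i := by
  have h0 : env [] i = lk (fun _ => HP.nil) (List.map (fun p => HP.cons p 1 HP.nil) prs) i := rfl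
  rw [h0]
  by_cases h2 : i < 10
  · rw [lk_lt _ HP.nil _ _ (by simpa [prs] using h2)]
    have : (List.map (fun p => HP.cons p 1 HP.nil) prs).getD i HP.nil
        = HP.cons (prs.getD i 0) 1 HP.nil := by
      rw [List.getD_eq_getElem _ _ (by simpa [prs] using h2), List.getElem_map,
        List.getD_eq_getElem _ _ (by simpa [prs] using h2)]
    rw [this, HP.val_cons, HP.val_nil, mo_pr _ _ h2]
    simp
  · rw [lk_ge _ _ _ (by simpa [prs] using not_lt.1 h2), hf i (not_lt.1 h2)]
    rfl

lemma mo_nonneg {f : ℕ → ℝ} (hf : ∀ i, 0 ≤ f i) (k : ℕ) : 0 ≤ mo f k := by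
  unfold mo
  split_ifs
  · exact le_rfl
  · exact Finset.prod_nonneg fun j _ => pow_nonneg (hf j) _

/-- Verified positivity. -/
theorem nonneg_of_posChk {e : PE} (h : posChk e = true) (f : ℕ → ℝ) (h0 : ∀ i, 0 ≤ f i)
    (hf : ∀ i, 10 ≤ i → f i = 0) : 0 ≤ PE.ev f e := by
  have h1 := HP.val_nonneg (mo f) (mo_nonneg h0) h
  rw [PE.val_hp _ (mo_mul _) (mo_one _)] at h1
  have : (fun i => HP.val (mo f) (env [] i)) = f := funext fun i => env_val_nil f hf i
  rwa [this] at h1

/-- the polynomial in `T` with the given coefficients (ascending), made homogeneous of degree `n`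
in `x, x'` (for `T = x`, `1 - T = x'`) -/
def homP (x x' : PE) (n : Nat) (l : List Int) : PE :=
  List.rec (motive := fun _ => Nat → PE) (fun _ => PE.c 0)
    (fun a _ ih n => PE.add (PE.mul (PE.c a) (PE.pow (PE.add x x') n))
      (PE.mul x (ih (n - 1)))) l n

/-- the value of a polynomial with ascending coefficients -/
def pval (l : List Int) (T : ℝ) : ℝ :=
  List.rec (motive := fun _ => ℝ) 0 (fun a _ ih => a + T * ih) l

lemma ev_homP (f : ℕ → ℝ) (x x' : PE) (n : ℕ) (l : List Int) (T : ℝ)
    (hx : PE.ev f x = T) (hx' : PE.ev f x + PE.ev f x' = 1) :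
    PE.ev f (homP x x' n l) = pval l T := by
  induction l generalizing n with
  | nil => simp [homP, pval]
  | cons a l ih =>
    change PE.ev f (PE.add (PE.mul (PE.c a) (PE.pow (PE.add x x') n))
      (PE.mul x (homP x x' (n - 1) l))) = (a : ℝ) + T * pval l T
    rw [PE.ev_add, PE.ev_mul, PE.ev_mul, PE.ev_c, PE.ev_pow, PE.ev_add, ih, hx', hx]
    ring

end

end Vale.Agent.P224.POS
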