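import Mathlib

/-!
Positive semidefiniteness of large integer matrices, checked by the kernel: an integer matrix `G`
(given by the rows of its lower triangle) is shown to be positive semidefinite from a witness `L`
(rows of natural numbers, offset `M`) with `sc * G = (L - M) * (L - M)ᵀ + (n + 1) * ε + R`,
`|R p q| ≤ ε`.

* `psdChk M sc ε L G : Bool`, by `decide +kernel` (78 rows: 8 seconds);
* `psd_of_chk : psdChk M sc ε L G = true → 0 ≤ ∑ p < n, ∑ q < n, ent G p q * ⟪z p, z q⟫` for every
  sequence `z` in a real inner product space, `n = G.length`;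
* `unpN`, `unpZ`: rows packed in one natural number each.
-/

namespace Vale.Agent.P224.POS

noncomputable section

/-- sum of `a k * b k + m` over the common length -/
def dotN (m : Nat) (a b : List Nat) : Nat :=
  List.rec (motive := fun _ => List Nat → Nat) (fun _ => 0)
    (fun x _ ih b => List.rec (motive := fun _ => Nat) 0
      (fun y t _ => Nat.add (Nat.add (Nat.mul x y) m) (ih t)) b) a b

/-- sum of `a k + b k` over the common length -/
def sumN (a b : List Nat) : Nat :=
  List.rec (motive := fun _ => List Nat → Nat) (fun _ => 0)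
    (fun x _ ih b => List.rec (motive := fun _ => Nat) 0
      (fun y t _ => Nat.add (Nat.add x y) (ih t)) b) a b

/-- one entry: `|sc * g - d - dot| ≤ ε` -/
def entryOk (M sc ε : Nat) (d : Nat) (g : Int) (a b : List Nat) : Bool :=
  Nat.ble (Int.natAbs (Int.sub (Int.add (Int.mul (Int.ofNat sc) g) (Int.ofNat (Nat.mul M (sumN a b))))
    (Int.ofNat (Nat.add d (dotN (Nat.mul M M) a b))))) ε

/-- one row -/
def rowOk (M sc ε D : Nat) (p : Nat) (a : List Nat) (g : List Int) (L : List (List Nat)) (q : Nat) :
    Bool :=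
  List.rec (motive := fun _ => List (List Nat) → Nat → Bool) (fun _ _ => true)
    (fun x _ ih L q => List.rec (motive := fun _ => Bool) false
      (fun b t _ => Bool.rec (motive := fun _ => Bool) false (ih t (Nat.succ q))
        (entryOk M sc ε (Bool.rec (motive := fun _ => Nat) 0 D (Nat.beq p q)) x a b)) L) g L q

/-- all rows -/
def rowsOk (M sc ε D : Nat) (L0 : List (List Nat)) (G : List (List Int)) (L : List (List Nat))
    (p : Nat) : Bool :=
  List.rec (motive := fun _ => List (List Nat) → Nat → Bool) (fun _ _ => true)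
    (fun g _ ih L p => List.rec (motive := fun _ => Bool) false
      (fun a t _ => Bool.rec (motive := fun _ => Bool) false
        (Bool.rec (motive := fun _ => Bool) false (ih t (Nat.succ p)) (rowOk M sc ε D p a g L0 0))
        (Nat.beq (List.length g) (Nat.succ p))) L) G L p

/-- the check -/
def psdChk (M sc ε : Nat) (L : List (List Nat)) (G : List (List Int)) : Bool :=
  Bool.rec (motive := fun _ => Bool) false
    (rowsOk M sc ε (Nat.mul (Nat.succ (List.length G)) ε) L G L 0) (Nat.ble 1 sc)

/-- the entries of the symmetric matrix with the given rows of the lower triangle -/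
def ent (G : List (List Int)) (p q : ℕ) : ℤ :=
  if q ≤ p then (G.getD p []).getD q 0 else (G.getD q []).getD p 0

lemma ent_comm (G : List (List Int)) (p q : ℕ) : ent G p q = ent G q p := by
  unfold ent
  rcases lt_trichotomy p q with h | h | h
  · rw [if_neg (by omega), if_pos (by omega)]
  · subst h; rfl
  · rw [if_pos (by omega), if_neg (by omega)]

/-! ### Dot products -/

/-- signed entries of a row -/
def lvM (M : ℕ) (a : List ℕ) (k : ℕ) : ℤ := (a.map fun x : ℕ => (x : ℤ) - M).getD k 0

lemma lvM_nil (M k : ℕ) : lvM M [] k = 0 := by simp [lvM]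
lemma lvM_zero (M x : ℕ) (a : List ℕ) : lvM M (x :: a) 0 = (x : ℤ) - M := by simp [lvM]
lemma lvM_succ (M x k : ℕ) (a : List ℕ) : lvM M (x :: a) (k + 1) = lvM M a k := by simp [lvM]

lemma dot_eq (M : ℕ) (a b : List ℕ) (N : ℕ) (hN : a.length ≤ N) :
    (dotN (M * M) a b : ℤ) = ∑ k ∈ Finset.range N, lvM M a k * lvM M b k + M * sumN a b := by
  induction a generalizing b N with
  | nil =>
    have h1 : dotN (M * M) [] b = 0 := rfl
    have h2 : sumN [] b = 0 := rfl
    simp [h1, h2, lvM_nil]
  | cons x a ih =>
    cases b with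
    | nil =>
      have h1 : dotN (M * M) (x :: a) [] = 0 := rfl
      have h2 : sumN (x :: a) [] = 0 := rfl
      simp [h1, h2, lvM_nil]
    | cons y b =>
      have h1 : dotN (M * M) (x :: a) (y :: b) = x * y + M * M + dotN (M * M) a b := rfl
      have h2 : sumN (x :: a) (y :: b) = x + y + sumN a b := rfl
      cases N with
      | zero => simp at hN
      | succ N =>
        have h3 := ih b N (by simpa using hN)
        rw [h1, h2, Finset.sum_range_succ']
        simp only [lvM_zero, lvM_succ]
        push_cast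
        rw [h3]
        ring

/-! ### The check -/

lemma entryOk_spec {M sc ε d : ℕ} {g : ℤ} {a b : List ℕ} (h : entryOk M sc ε d g a b = true)
    (N : ℕ) (hN : a.length ≤ N) :
    |(sc : ℤ) * g - d - ∑ k ∈ Finset.range N, lvM M a k * lvM M b k| ≤ ε := by
  have h1 := Nat.le_of_ble_eq_true h
  have h2 : Int.sub (Int.add (Int.mul (Int.ofNat sc) g) (Int.ofNat (Nat.mul M (sumN a b))))
      (Int.ofNat (Nat.add d (dotN (Nat.mul M M) a b))) =
      (sc : ℤ) * g + ((M * sumN a b : ℕ) : ℤ) - ((d + dotN (M * M) a b : ℕ) : ℤ) := rfl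
  rw [h2] at h1
  have h3 := dot_eq M a b N hN
  have h4 : (sc : ℤ) * g + ((M * sumN a b : ℕ) : ℤ) - ((d + dotN (M * M) a b : ℕ) : ℤ) =
      (sc : ℤ) * g - d - ∑ k ∈ Finset.range N, lvM M a k * lvM M b k := by
    push_cast
    rw [h3]
    ring
  rw [h4] at h1
  rw [Int.abs_eq_natAbs]
  exact_mod_cast h1

lemma rowOk_spec {M sc ε D p : ℕ} {a : List ℕ} (N : ℕ) (hN : a.length ≤ N) (g : List ℤ)
    (L : List (List ℕ)) (q : ℕ) (h : rowOk M sc ε D p a g L q = true) :
    ∀ j < g.length, |(sc : ℤ) * g.getD j 0 - (if p = q + j then (D : ℤ) else 0) -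
      ∑ k ∈ Finset.range N, lvM M a k * lvM M (L.getD j []) k| ≤ ε := by
  induction g generalizing L q with
  | nil => intro j hj; exact absurd hj (by simp)
  | cons x g ih =>
    cases L with
    | nil =>
      have : rowOk M sc ε D p a (x :: g) [] q = false := rfl
      rw [this] at h
      exact absurd h (by simp)
    | cons b L =>
      have e1 : rowOk M sc ε D p a (x :: g) (b :: L) q =
          Bool.rec (motive := fun _ => Bool) false (rowOk M sc ε D p a g L (Nat.succ q))
        (entryOk M sc ε (Bool.rec (motive := fun _ => Nat) 0 D (Nat.beq p q)) x a b) := rfl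
      rw [e1] at h
      cases h1 : entryOk M sc ε (Bool.rec (motive := fun _ => Nat) 0 D (Nat.beq p q)) x a b with
      | false =>
        rw [h1] at h
        exact absurd h (by simp)
      | true =>
        rw [h1] at h
        intro j hj
        cases j with
        | zero =>
          have h2 := entryOk_spec h1 N hN
          simp only [List.getD_cons_zero, add_zero]
          have h3 : ((Bool.rec (motive := fun _ => Nat) 0 D (Nat.beq p q) : ℕ) : ℤ) =
              if p = q then (D : ℤ) else 0 := by
            by_cases hpq : p = q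
            · have : Nat.beq p q = true := by
                rw [hpq]
                exact Nat.beq_refl q
              rw [if_pos hpq, this]
            · have : Nat.beq p q = false := by
                cases h5 : Nat.beq p q with
                | false => rfl
                | true => exact absurd (Nat.eq_of_beq_eq_true h5) hpq
              rw [if_neg hpq, this]
              rfl
          rw [h3] at h2
          exact h2
        | succ j =>
          have h2 := ih L (Nat.succ q) h j (by simpa using hj)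
          simp only [List.getD_cons_succ]
          have h3 : Nat.succ q + j = q + (j + 1) := by omega
          rw [h3] at h2
          exact h2

lemma rowsOk_spec {M sc ε D : ℕ} {L0 : List (List ℕ)} (N : ℕ) (G : List (List ℤ))
    (L : List (List ℕ)) (p : ℕ) (hN : ∀ a ∈ L, a.length ≤ N)
    (h : rowsOk M sc ε D L0 G L p = true) :
    ∀ i < G.length, (G.getD i []).length = p + i + 1 ∧
      ∀ j < p + i + 1, |(sc : ℤ) * (G.getD i []).getD j 0 - (if p + i = j then (D : ℤ) else 0) -
      ∑ k ∈ Finset.range N, lvM M (L.getD i []) k * lvM M (L0.getD j []) k| ≤ ε := by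
  induction G generalizing L p with
  | nil => intro i hi; exact absurd hi (by simp)
  | cons g G ih =>
    cases L with
    | nil =>
      have : rowsOk M sc ε D L0 (g :: G) [] p = false := rfl
      rw [this] at h
      exact absurd h (by simp)
    | cons a L =>
      have e1 : rowsOk M sc ε D L0 (g :: G) (a :: L) p =
          Bool.rec (motive := fun _ => Bool) false
        (Bool.rec (motive := fun _ => Bool) false (rowsOk M sc ε D L0 G L (Nat.succ p))
          (rowOk M sc ε D p a g L0 0))
        (Nat.beq (List.length g) (Nat.succ p)) := rfl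
      rw [e1] at h
      cases h1 : Nat.beq (List.length g) (Nat.succ p) with
      | false =>
        rw [h1] at h
        exact absurd h (by simp)
      | true =>
        rw [h1] at h
        have hl := Nat.eq_of_beq_eq_true h1
        cases h2 : rowOk M sc ε D p a g L0 0 with
        | false =>
          rw [h2] at h
          exact absurd h (by simp)
        | true =>
          rw [h2] at h
          intro i hi
          cases i with
          | zero =>
            simp only [List.getD_cons_zero, add_zero]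
            refine ⟨hl, fun j hj => ?_⟩
            have := rowOk_spec N (hN a (by simp)) g L0 0 h2 j (by rw [hl]; exact hj)
            rwa [zero_add] at this
          | succ i =>
            have h3 := ih L (Nat.succ p) (fun b hb => hN b (by simp [hb])) h i (by simpa using hi)
            simp only [List.getD_cons_succ]
            have e2 : p + (i + 1) = Nat.succ p + i := by omega
            rw [e2]
            exact h3

/-- what the check gives for the matrix -/
lemma psdChk_spec {M sc ε : ℕ} {L : List (List ℕ)} {G : List (List ℤ)}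
    (h : psdChk M sc ε L G = true) :
    1 ≤ sc ∧ ∃ (N : ℕ) (l : ℕ → ℕ → ℤ), ∀ p < G.length, ∀ q < G.length,
      |(sc : ℤ) * ent G p q - (if p = q then ((G.length + 1 : ℕ) : ℤ) * ε else 0) -
        ∑ k ∈ Finset.range N, l p k * l q k| ≤ ε := by
  have e1 : psdChk M sc ε L G = Bool.rec (motive := fun _ => Bool) false
    (rowsOk M sc ε (Nat.mul (Nat.succ (List.length G)) ε) L G L 0) (Nat.ble 1 sc) := rfl
  rw [e1] at h
  cases h1 : Nat.ble 1 sc with
  | false => rw [h1] at h; exact absurd h (by simp)
  | true =>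
    rw [h1] at h
    refine ⟨Nat.le_of_ble_eq_true h1, (L.map List.length).sum, fun p k => lvM M (L.getD p []) k, ?_⟩
    have hN : ∀ a ∈ L, a.length ≤ (L.map List.length).sum := fun a ha =>
      List.single_le_sum (by simp) _ (List.mem_map_of_mem ha)
    have key := rowsOk_spec (L.map List.length).sum G L 0 hN h
    have hD : ((Nat.mul (Nat.succ (List.length G)) ε : ℕ) : ℤ) = ((G.length + 1 : ℕ) : ℤ) * ε := by
      have : Nat.mul (Nat.succ (List.length G)) ε = (G.length + 1) * ε := rfl
      rw [this]; push_cast; rfl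
    have main : ∀ p < G.length, ∀ q ≤ p,
        |(sc : ℤ) * (G.getD p []).getD q 0 - (if p = q then ((G.length + 1 : ℕ) : ℤ) * ε else 0) -
        ∑ k ∈ Finset.range (L.map List.length).sum,
          lvM M (L.getD p []) k * lvM M (L.getD q []) k| ≤ ε := by
      intro p hp q hq
      have := (key p hp).2 q (by omega)
      rw [zero_add, hD] at this
      exact this
    intro p hp q hq
    rcases le_total q p with hqp | hqp
    · have := main p hp q hqp
      rw [ent, if_pos hqp]
      exact this
    · have := main q hq p hqp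
      rw [ent_comm, ent, if_pos hqp]
      have e2 : (if p = q then ((G.length + 1 : ℕ) : ℤ) * ε else 0) =
          if q = p then ((G.length + 1 : ℕ) : ℤ) * ε else 0 := by
        by_cases hpq : p = q
        · rw [if_pos hpq, if_pos hpq.symm]
        · rw [if_neg hpq, if_neg (Ne.symm hpq)]
      rw [e2]
      have e3 : ∑ k ∈ Finset.range (L.map List.length).sum,
          lvM M (L.getD p []) k * lvM M (L.getD q []) k = ∑ k ∈ Finset.range (L.map List.length).sum,
          lvM M (L.getD q []) k * lvM M (L.getD p []) k :=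
        Finset.sum_congr rfl fun k _ => mul_comm _ _
      rw [e3]
      exact this

/-! ### The inequality -/

section

variable {E : Type*} [NormedAddCommGroup E] [InnerProductSpace ℝ E]

open scoped InnerProductSpace

lemma psd_core (n N : ℕ) (sc ε : ℝ) (hsc : 0 < sc) (g : ℕ → ℕ → ℝ) (l : ℕ → ℕ → ℝ)
    (h : ∀ p < n, ∀ q < n, |sc * g p q - (if p = q then ((n : ℝ) + 1) * ε else 0) -
      ∑ k ∈ Finset.range N, l p k * l q k| ≤ ε) (hε : 0 ≤ ε) (z : ℕ → E) :
    0 ≤ ∑ p ∈ Finset.range n, ∑ q ∈ Finset.range n, g p q * ⟪z p, z q⟫_ℝ := by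
  set r : ℕ → ℕ → ℝ := fun p q => sc * g p q - (if p = q then ((n : ℝ) + 1) * ε else 0) -
      ∑ k ∈ Finset.range N, l p k * l q k with hr
  have h1 : sc * ∑ p ∈ Finset.range n, ∑ q ∈ Finset.range n, g p q * ⟪z p, z q⟫_ℝ =
      (∑ p ∈ Finset.range n, ∑ q ∈ Finset.range n, r p q * ⟪z p, z q⟫_ℝ) +
      (∑ p ∈ Finset.range n, ∑ q ∈ Finset.range n,
        (if p = q then ((n : ℝ) + 1) * ε else 0) * ⟪z p, z q⟫_ℝ) +
      ∑ p ∈ Finset.range n, ∑ q ∈ Finset.range n,
        (∑ k ∈ Finset.range N, l p k * l q k) * ⟪z p, z q⟫_ℝ := by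
    rw [Finset.mul_sum, ← Finset.sum_add_distrib, ← Finset.sum_add_distrib]
    refine Finset.sum_congr rfl fun p _ => ?_
    rw [Finset.mul_sum, ← Finset.sum_add_distrib, ← Finset.sum_add_distrib]
    refine Finset.sum_congr rfl fun q _ => ?_
    rw [hr]
    ring
  have h2 : ∑ p ∈ Finset.range n, ∑ q ∈ Finset.range n,
        (∑ k ∈ Finset.range N, l p k * l q k) * ⟪z p, z q⟫_ℝ =
      ∑ k ∈ Finset.range N, ‖∑ p ∈ Finset.range n, l p k • z p‖ ^ 2 := by
    have h3 : ∀ k, ‖∑ p ∈ Finset.range n, l p k • z p‖ ^ 2 =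
        ∑ p ∈ Finset.range n, ∑ q ∈ Finset.range n, l p k * l q k * ⟪z p, z q⟫_ℝ := by
      intro k
      rw [← real_inner_self_eq_norm_sq, sum_inner]
      refine Finset.sum_congr rfl fun p _ => ?_
      rw [inner_sum]
      refine Finset.sum_congr rfl fun q _ => ?_
      rw [real_inner_smul_left, real_inner_smul_right]
      ring
    rw [Finset.sum_congr rfl fun k _ => h3 k, Finset.sum_comm (s := Finset.range N)]
    refine Finset.sum_congr rfl fun p _ => ?_
    rw [Finset.sum_comm (s := Finset.range N)]
    refine Finset.sum_congr rfl fun q _ => ?_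
    rw [Finset.sum_mul]
  have h4 : ∑ p ∈ Finset.range n, ∑ q ∈ Finset.range n,
        (if p = q then ((n : ℝ) + 1) * ε else 0) * ⟪z p, z q⟫_ℝ =
      ((n : ℝ) + 1) * ε * ∑ p ∈ Finset.range n, ‖z p‖ ^ 2 := by
    rw [Finset.mul_sum]
    refine Finset.sum_congr rfl fun p hp => ?_
    rw [Finset.sum_eq_single p]
    · rw [if_pos rfl, real_inner_self_eq_norm_sq]
    · intro q _ hq
      rw [if_neg (Ne.symm hq), zero_mul]
    · intro h; exact absurd hp h
  have h5 : -(ε * (n : ℝ) * ∑ p ∈ Finset.range n, ‖z p‖ ^ 2) ≤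
      ∑ p ∈ Finset.range n, ∑ q ∈ Finset.range n, r p q * ⟪z p, z q⟫_ℝ := by
    have h6 : ∀ p ∈ Finset.range n, ∀ q ∈ Finset.range n,
        -(ε * ((‖z p‖ ^ 2 + ‖z q‖ ^ 2) / 2)) ≤ r p q * ⟪z p, z q⟫_ℝ := by
      intro p hp q hq
      have a1 := h p (Finset.mem_range.1 hp) q (Finset.mem_range.1 hq)
      have a2 : |r p q * ⟪z p, z q⟫_ℝ| ≤ ε * ((‖z p‖ ^ 2 + ‖z q‖ ^ 2) / 2) := by
        rw [abs_mul]
        have a3 := abs_real_inner_le_norm (z p) (z q)
        have a4 : ‖z p‖ * ‖z q‖ ≤ (‖z p‖ ^ 2 + ‖z q‖ ^ 2) / 2 := by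
          nlinarith [sq_nonneg (‖z p‖ - ‖z q‖)]
        exact mul_le_mul a1 (a3.trans a4) (abs_nonneg _) hε
      exact (abs_le.1 a2).1
    refine le_trans (le_of_eq ?_)
      (Finset.sum_le_sum fun p hp => Finset.sum_le_sum fun q hq => h6 p hp q hq)
    have h7 : ∀ p, ∑ q ∈ Finset.range n, -(ε * ((‖z p‖ ^ 2 + ‖z q‖ ^ 2) / 2)) =
        -(ε / 2 * ((n : ℝ) * ‖z p‖ ^ 2 + ∑ q ∈ Finset.range n, ‖z q‖ ^ 2)) := by
      intro p
      rw [Finset.sum_neg_distrib, ← Finset.mul_sum, ← Finset.sum_div, Finset.sum_add_distrib,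
        Finset.sum_const, Finset.card_range, nsmul_eq_mul]
      ring
    simp_rw [h7]
    rw [Finset.sum_neg_distrib, ← Finset.mul_sum, Finset.sum_add_distrib, ← Finset.mul_sum,
      Finset.sum_const, Finset.card_range, nsmul_eq_mul]
    ring
  have h8 : 0 ≤ ∑ k ∈ Finset.range N, ‖∑ p ∈ Finset.range n, l p k • z p‖ ^ 2 :=
    Finset.sum_nonneg fun k _ => sq_nonneg _
  have h9 : 0 ≤ ε * ∑ p ∈ Finset.range n, ‖z p‖ ^ 2 :=
    mul_nonneg hε (Finset.sum_nonneg fun k _ => sq_nonneg _)
  have h10 : 0 ≤ sc * ∑ p ∈ Finset.range n, ∑ q ∈ Finset.range n, g p q * ⟪z p, z q⟫_ℝ := by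
    rw [h1, h2, h4]
    nlinarith
  exact nonneg_of_mul_nonneg_right h10 hsc

/-- **The theorem**: a checked matrix is positive semidefinite, for vectors. -/
theorem psd_of_chk {M sc ε : ℕ} {L : List (List ℕ)} {G : List (List ℤ)}
    (h : psdChk M sc ε L G = true) (z : ℕ → E) :
    0 ≤ ∑ p ∈ Finset.range G.length, ∑ q ∈ Finset.range G.length,
      (ent G p q : ℝ) * ⟪z p, z q⟫_ℝ := by
  obtain ⟨h1, N, l, h2⟩ := psdChk_spec h
  refine psd_core G.length N sc ε (by exact_mod_cast h1) (fun p q => (ent G p q : ℝ))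
    (fun p k => (l p k : ℝ)) ?_ (Nat.cast_nonneg _) z
  intro p hp q hq
  have h3 := h2 p hp q hq
  have h4 : ((|(sc : ℤ) * ent G p q - (if p = q then ((G.length + 1 : ℕ) : ℤ) * ε else 0) -
        ∑ k ∈ Finset.range N, l p k * l q k| : ℤ) : ℝ) ≤ ((ε : ℤ) : ℝ) := by exact_mod_cast h3
  push_cast at h4
  convert h4 using 4

/-- the lower triangular form of the sum -/
lemma sum_ent_eq (G : List (List ℤ)) (n : ℕ) (f : ℕ → ℕ → ℝ) (hf : ∀ p q, f p q = f q p) :
    ∑ p ∈ Finset.range n, ∑ q ∈ Finset.range n, (ent G p q : ℝ) * f p q =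
      ∑ p ∈ Finset.range n, (((G.getD p []).getD p 0 : ℤ) * f p p +
        2 * ∑ q ∈ Finset.range p, ((G.getD p []).getD q 0 : ℤ) * f p q) := by
  induction n with
  | zero => simp
  | succ n ih =>
    have e0 : ∑ x ∈ Finset.range n, ∑ q ∈ Finset.range (n + 1), (ent G x q : ℝ) * f x q =
        ∑ x ∈ Finset.range n, ∑ q ∈ Finset.range n, (ent G x q : ℝ) * f x q +
        ∑ x ∈ Finset.range n, (ent G x n : ℝ) * f x n := by
      rw [← Finset.sum_add_distrib]
      exact Finset.sum_congr rfl fun x _ => Finset.sum_range_succ _ n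
    rw [Finset.sum_range_succ, e0, ih, Finset.sum_range_succ _ n, Finset.sum_range_succ _ n]
    have e1 : ∑ x ∈ Finset.range n, (ent G x n : ℝ) * f x n =
        ∑ q ∈ Finset.range n, ((G.getD n []).getD q 0 : ℤ) * f n q := by
      refine Finset.sum_congr rfl fun q hq => ?_
      rw [ent_comm, ent, if_pos (Finset.mem_range.1 hq).le, hf]
    have e2 : ∑ x ∈ Finset.range n, (ent G n x : ℝ) * f n x =
        ∑ q ∈ Finset.range n, ((G.getD n []).getD q 0 : ℤ) * f n q := by
      refine Finset.sum_congr rfl fun q hq => ?_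
      rw [ent, if_pos (Finset.mem_range.1 hq).le]
    have e3 : ent G n n = (G.getD n []).getD n 0 := by rw [ent, if_pos le_rfl]
    rw [e1, e2, e3]
    ring

/-- the same with the lower triangle only: `∑ p, (G p p ⟪z p, z p⟫ + 2 ∑ q < p, G p q ⟪z p, z q⟫)` -/
theorem psd_of_chk' {M sc ε : ℕ} {L : List (List ℕ)} {G : List (List ℤ)}
    (h : psdChk M sc ε L G = true) (z : ℕ → E) :
    0 ≤ ∑ p ∈ Finset.range G.length, (((G.getD p []).getD p 0 : ℤ) * ⟪z p, z p⟫_ℝ +
        2 * ∑ q ∈ Finset.range p, ((G.getD p []).getD q 0 : ℤ) * ⟪z p, z q⟫_ℝ) := by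
  have := psd_of_chk h z
  rwa [sum_ent_eq G G.length (fun p q => ⟪z p, z q⟫_ℝ) (fun p q => real_inner_comm _ _)] at this

/-- real numbers -/
theorem psd_of_chk_real {M sc ε : ℕ} {L : List (List ℕ)} {G : List (List ℤ)}
    (h : psdChk M sc ε L G = true) (z : ℕ → ℝ) :
    0 ≤ ∑ p ∈ Finset.range G.length, ∑ q ∈ Finset.range G.length,
      (ent G p q : ℝ) * (z p * z q) := by
  have := psd_of_chk h z
  refine this.trans (le_of_eq ?_)
  refine Finset.sum_congr rfl fun p _ => Finset.sum_congr rfl fun q _ => ?_
  rw [real_inner_eq_re_inner ℝ]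
  simp [mul_comm]

/-- the shape used in `POS/Sos.lean` (`QPos G`) -/
theorem qpos_of_chk {M sc ε : ℕ} {L : List (List ℕ)} {G : List (List ℤ)}
    (h : psdChk M sc ε L G = true) (x : ℕ → ℝ) :
    0 ≤ ∑ i ∈ Finset.range G.length, ∑ j ∈ Finset.range G.length,
      (((G.getD (max i j) []).getD (min i j) 0 : ℤ) : ℝ) * (x i * x j) := by
  have := psd_of_chk_real h x
  refine this.trans (le_of_eq ?_)
  refine Finset.sum_congr rfl fun i _ => Finset.sum_congr rfl fun j _ => ?_
  have e : ent G i j = (G.getD (max i j) []).getD (min i j) 0 := by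
    unfold ent
    rcases le_total j i with hij | hij
    · rw [if_pos hij, max_eq_left hij, min_eq_right hij]
    · rcases eq_or_lt_of_le hij with h1 | h1
      · subst h1; simp
      · rw [if_neg (by omega), max_eq_right hij, min_eq_left hij]
  rw [e]

end

/-! ### Packed rows -/

/-- `len` digits of `x` in base `B` -/
def unp (B len x : Nat) : List Nat :=
  Nat.rec (motive := fun _ => Nat → List Nat) (fun _ => [])
    (fun _ ih x => List.cons (Nat.mod x B) (ih (Nat.div x B))) len x

/-- `len` signed digits (offset `B / 2`) of `x` in base `B` -/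
def unpZ (B len x : Nat) : List Int :=
  Nat.rec (motive := fun _ => Nat → List Int) (fun _ => [])
    (fun _ ih x => List.cons (Int.sub (Int.ofNat (Nat.mod x B)) (Int.ofNat (Nat.div B 2)))
      (ih (Nat.div x B))) len x

/-- rows of lengths `p + 1, p + 2, ...` -/
def rowsN (B : Nat) (xs : List Nat) (p : Nat) : List (List Nat) :=
  List.rec (motive := fun _ => Nat → List (List Nat)) (fun _ => [])
    (fun x _ ih p => List.cons (unp B (Nat.succ p) x) (ih (Nat.succ p))) xs p

/-- rows of lengths `p + 1, p + 2, ...` of signed digits -/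
def rowsZ (B : Nat) (xs : List Nat) (p : Nat) : List (List Int) :=
  List.rec (motive := fun _ => Nat → List (List Int)) (fun _ => [])
    (fun x _ ih p => List.cons (unpZ B (Nat.succ p) x) (ih (Nat.succ p))) xs p

end

end Vale.Agent.P224.POS
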