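import Vale.Agent.P224.UE.LawM
import Vale.Agent.P224.POS.Check

/-!
The polynomial expressions of the rows, in any dimension.
-/

namespace Vale.Agent.P224.POS.RM

open Vale.Agent.P224.UE

set_option linter.unusedSimpArgs false

noncomputable section

/-- substitution -/
def sb (σ : ℕ → PE) (e : PE) : PE :=
  PE.rec (motive := fun _ => PE) PE.c σ (fun _ _ x y => PE.add x y) (fun _ _ x y => PE.sub x y)
    (fun _ _ x y => PE.mul x y) (fun _ n x => PE.pow x n) e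

lemma ev_sb {R : Type*} [CommRing R] (f : ℕ → R) (σ : ℕ → PE) (e : PE) :
    PE.ev f (sb σ e) = PE.ev (fun i => PE.ev f (σ i)) e := by
  induction e with
  | c n => rfl
  | v i => rfl
  | add a b ha hb =>
    change PE.ev f (PE.add (sb σ a) (sb σ b)) = _
    rw [PE.ev_add, PE.ev_add, ha, hb]
  | sub a b ha hb =>
    change PE.ev f (PE.sub (sb σ a) (sb σ b)) = _
    rw [PE.ev_sub, PE.ev_sub, ha, hb]
  | mul a b ha hb =>
    change PE.ev f (PE.mul (sb σ a) (sb σ b)) = _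
    rw [PE.ev_mul, PE.ev_mul, ha, hb]
  | pow a n ha =>
    change PE.ev f (PE.pow (sb σ a) n) = _
    rw [PE.ev_pow, PE.ev_pow, ha]

/-- the values of the nine variables -/
def vd (d : R9) (i : ℕ) : ℝ := ([d 0, d 1, d 2, d 3, d 4, d 5, d 6, d 7, d 8] : List ℝ).getD i 0

lemma vd_ge (d : R9) (i : ℕ) (h : 9 ≤ i) : vd d i = 0 := by
  unfold vd
  rw [List.getD_eq_default _ _ (by simpa using h)]

@[simp] lemma vd0 (d : R9) : vd d 0 = d 0 := rfl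
@[simp] lemma vd1 (d : R9) : vd d 1 = d 1 := rfl
@[simp] lemma vd2 (d : R9) : vd d 2 = d 2 := rfl
@[simp] lemma vd3 (d : R9) : vd d 3 = d 3 := rfl
@[simp] lemma vd4 (d : R9) : vd d 4 = d 4 := rfl
@[simp] lemma vd5 (d : R9) : vd d 5 = d 5 := rfl
@[simp] lemma vd6 (d : R9) : vd d 6 = d 6 := rfl
@[simp] lemma vd7 (d : R9) : vd d 7 = d 7 := rfl
@[simp] lemma vd8 (d : R9) : vd d 8 = d 8 := rfl

/-- exchange of the two points -/
def sws (i : Nat) : PE :=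
  lk (fun _ => PE.c 0) [PE.v 0, PE.v 2, PE.v 1, PE.v 3, PE.v 5, PE.v 4, PE.v 7, PE.v 6, PE.v 8] i

lemma ev_sws (d : R9) (i : ℕ) : PE.ev (vd d) (sws i) = vd (sw9 d) i := by
  by_cases hi : i < 9
  · interval_cases i <;> rfl
  · rw [vd_ge _ _ (not_lt.1 hi)]
    unfold sws
    rw [lk_ge _ _ _ (by simpa using not_lt.1 hi)]
    simp

lemma ev_swap (d : R9) (e : PE) : PE.ev (vd d) (sb sws e) = PE.ev (vd (sw9 d)) e := by
  rw [ev_sb]
  congr 1
  funext i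
  exact ev_sws d i

/-- `1 - s` -/
def uP : PE := PE.sub (PE.c 1) (PE.v 0)

/-- the weight of a term -/
def wP (x : Int × RTerm) : PE :=
  PE.mul (PE.mul (PE.c x.1) (PE.pow (PE.v 8) x.2.l))
    (PE.mul (PE.pow (PE.v 5) x.2.k) (PE.pow (PE.v 7) x.2.d))

def KP (Kc : Nat) (x : Int × RTerm) : PE :=
  PE.mul (wP x) (PE.mul (PE.pow (PE.v 6) x.2.j) (PE.mul (PE.pow (PE.v 1) x.2.i)
    (PE.mul (PE.pow (PE.v 0) x.2.a) (PE.pow uP (Kc - x.2.q)))))

def fsP (Kc : Nat) (x : Int × RTerm) : PE :=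
  PE.mul (wP x) (PE.mul (PE.pow (PE.v 6) x.2.j) (PE.mul (PE.pow (PE.v 1) x.2.i)
    (PE.add (PE.mul (PE.mul (PE.c x.2.a) (PE.pow (PE.v 0) (x.2.a - 1))) (PE.pow uP (Kc - x.2.q)))
      (PE.mul (PE.mul (PE.c x.2.q) (PE.pow (PE.v 0) x.2.a)) (PE.pow uP (Kc - x.2.q - 1))))))

def ftP (Kc : Nat) (x : Int × RTerm) : PE :=
  PE.mul (wP x) (PE.mul (PE.pow (PE.v 6) x.2.j)
    (PE.mul (PE.mul (PE.c x.2.i) (PE.pow (PE.v 1) (x.2.i - 1)))
    (PE.mul (PE.pow (PE.v 0) x.2.a) (PE.pow uP (Kc - x.2.q)))))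

def feP (Kc : Nat) (x : Int × RTerm) : PE :=
  PE.mul (wP x) (PE.mul (PE.mul (PE.c x.2.j) (PE.pow (PE.v 6) (x.2.j - 1)))
    (PE.mul (PE.pow (PE.v 1) x.2.i) (PE.mul (PE.pow (PE.v 0) x.2.a) (PE.pow uP (Kc - x.2.q)))))

/-- the sum over the terms of one family -/
def sumP (k : Nat) (f : Int × RTerm → PE) (L : List (Int × RTerm)) : PE :=
  List.rec (motive := fun _ => PE) (PE.c 0) (fun x _ ih =>
    Bool.rec (motive := fun _ => PE) ih (PE.add (f x) ih) (Nat.beq x.2.fam.val k)) L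

def qA : PE := PE.sub (PE.sub (PE.c 1) (PE.pow (PE.v 0) 2)) (PE.pow (PE.v 2) 2)
def qB : PE := PE.sub (PE.mul (PE.c (-1)) (PE.mul (PE.v 0) (PE.v 1))) (PE.mul (PE.v 2) (PE.v 3))
def qC : PE := PE.sub (PE.sub (PE.v 7) (PE.mul (PE.v 0) (PE.v 6))) (PE.mul (PE.v 2) (PE.v 4))
def qD : PE := PE.sub (PE.sub (PE.c 1) (PE.pow (PE.v 1) 2)) (PE.pow (PE.v 3) 2)
def qF : PE := PE.sub (PE.sub (PE.v 5) (PE.mul (PE.v 1) (PE.v 6))) (PE.mul (PE.v 3) (PE.v 4))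
def qG : PE := PE.sub (PE.sub (PE.v 8) (PE.pow (PE.v 6) 2)) (PE.pow (PE.v 4) 2)

/-- three products -/
def l3 (a b c x y z : PE) : PE := PE.add (PE.add (PE.mul x a) (PE.mul y b)) (PE.mul z c)

/-- the rows as expressions -/
def rowEP (k : Fin 6) (m : Nat) (K fs ft fe : PE) : PE :=
  match k with
  | 0 => PE.sub (l3 qA qB qC fs ft fe) (PE.mul (PE.mul (PE.c m) (PE.v 0)) K)
  | 1 => PE.sub (l3 qB qD qF fs ft fe) (PE.mul (PE.mul (PE.c m) (PE.v 1)) K)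
  | 2 => PE.sub (l3 qC qF qG fs ft fe) (PE.mul (PE.mul (PE.c m) (PE.v 6)) K)
  | 3 => PE.sub (PE.sub (PE.mul (PE.v 2) (l3 qB qD qF fs ft fe))
      (PE.mul (PE.v 3) (l3 qA qB qC fs ft fe)))
      (PE.mul (PE.mul (PE.c m) (PE.sub (PE.mul (PE.v 2) (PE.v 1)) (PE.mul (PE.v 3) (PE.v 0)))) K)
  | 4 => PE.sub (PE.sub (PE.mul (PE.v 2) (l3 qC qF qG fs ft fe))
      (PE.mul (PE.v 4) (l3 qA qB qC fs ft fe)))
      (PE.mul (PE.mul (PE.c m) (PE.sub (PE.mul (PE.v 2) (PE.v 6)) (PE.mul (PE.v 4) (PE.v 0)))) K)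
  | 5 => PE.sub (PE.sub (PE.mul (PE.v 3) (l3 qC qF qG fs ft fe))
      (PE.mul (PE.v 4) (l3 qB qD qF fs ft fe)))
      (PE.mul (PE.mul (PE.c m) (PE.sub (PE.mul (PE.v 3) (PE.v 6)) (PE.mul (PE.v 4) (PE.v 1)))) K)

lemma ev_rowEP (k : Fin 6) (m : ℕ) (K fs ft fe : PE) (d : R9) :
    PE.ev (vd d) (rowEP k m K fs ft fe)
      = rowE k m (d 0) (d 1) (d 2) (d 3) (d 4) (d 5) (d 6) (d 7) (d 8) (PE.ev (vd d) K)
        (PE.ev (vd d) fs) (PE.ev (vd d) ft) (PE.ev (vd d) fe) := by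
  unfold rowEP rowE l3 qA qB qC qD qF qG
  fin_cases k <;> simp only [PE.ev_add, PE.ev_sub, PE.ev_mul, PE.ev_pow, PE.ev_c, PE.ev_v, vd0,
    vd1, vd2, vd3, vd4, vd5, vd6, vd7, vd8] <;> push_cast <;> ring

lemma rowE_add (k : Fin 6) (m s t p c n1 n2 x1 x2 E K fs ft fe K' fs' ft' fe' : ℝ) :
    rowE k m s t p c n1 n2 x1 x2 E (K + K') (fs + fs') (ft + ft') (fe + fe')
      = rowE k m s t p c n1 n2 x1 x2 E K fs ft fe
        + rowE k m s t p c n1 n2 x1 x2 E K' fs' ft' fe' := by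
  unfold rowE
  fin_cases k <;> simp only <;> ring

lemma rowE_smul (k : Fin 6) (m s t p c n1 n2 x1 x2 E r K fs ft fe : ℝ) :
    rowE k m s t p c n1 n2 x1 x2 E (r * K) (r * fs) (r * ft) (r * fe)
      = r * rowE k m s t p c n1 n2 x1 x2 E K fs ft fe := by
  unfold rowE
  fin_cases k <;> simp only <;> ring

lemma rowE_zero (k : Fin 6) (m s t p c n1 n2 x1 x2 E : ℝ) :
    rowE k m s t p c n1 n2 x1 x2 E 0 0 0 0 = 0 := by
  unfold rowE
  fin_cases k <;> simp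

/-- the expression of the terms of one family -/
def famP (k : Fin 6) (m Kc : Nat) (L : List (Int × RTerm)) : PE :=
  rowEP k m (sumP k.val (KP Kc) L) (sumP k.val (fsP Kc) L) (sumP k.val (ftP Kc) L)
    (sumP k.val (feP Kc) L)

/-- the plain sum of the terms -/
def gsum (m : ℕ) (L : List (Int × RTerm)) (d : R9) : ℝ :=
  (L.map fun x => (x.1 : ℝ) * x.2.FM m d).sum

/-- the sum over the terms of one family -/
def gsumk (m : ℕ) (k : Fin 6) (L : List (Int × RTerm)) (d : R9) : ℝ :=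
  (L.map fun x => if x.2.fam = k then (x.1 : ℝ) * x.2.FM m d else 0).sum

lemma gsum_eq (m : ℕ) (L : List (Int × RTerm)) (d : R9) :
    gsum m L d = gsumk m 0 L d + gsumk m 1 L d + gsumk m 2 L d + gsumk m 3 L d + gsumk m 4 L d
      + gsumk m 5 L d := by
  induction L with
  | nil => simp [gsum, gsumk]
  | cons x L ih =>
    simp only [gsum, gsumk, List.map_cons, List.sum_cons] at ih ⊢
    rw [ih]
    obtain ⟨n, T⟩ := x
    obtain ⟨fam, q, a, i, j, dd, k, l⟩ := T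
    fin_cases fam <;> simp <;> ring

/-- the values of the weight and of the profile of a term -/
lemma term_ev {Kc : ℕ} {x : Int × RTerm} (hx : x.2.q + 1 ≤ Kc) {d : R9} (hd : d 0 ≠ 1) :
    ∃ r : ℝ, r = (1 - d 0) ^ Kc * ((x.1 : ℝ) * (d 8 ^ x.2.l * (d 5 ^ x.2.k * d 7 ^ x.2.d))) ∧
    PE.ev (vd d) (KP Kc x) = r * (d 6 ^ x.2.j * (d 1 ^ x.2.i * sk 1 x.2.a x.2.q (d 0))) ∧
    PE.ev (vd d) (fsP Kc x) = r * (d 6 ^ x.2.j * (d 1 ^ x.2.i * sk' 1 x.2.a x.2.q (d 0))) ∧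
    PE.ev (vd d) (ftP Kc x)
      = r * (d 6 ^ x.2.j * (x.2.i * d 1 ^ (x.2.i - 1) * sk 1 x.2.a x.2.q (d 0))) ∧
    PE.ev (vd d) (feP Kc x)
      = r * (x.2.j * d 6 ^ (x.2.j - 1) * (d 1 ^ x.2.i * sk 1 x.2.a x.2.q (d 0))) := by
  have hu : (1 : ℝ) - d 0 ≠ 0 := fun h => hd (by linarith)
  have hq : (1 - d 0) ^ Kc * SM2.ker 1 x.2.q (d 0) = (1 - d 0) ^ (Kc - x.2.q) := by
    unfold SM2.ker
    rw [one_mul, ← pow_sub_of_lt _ (by omega : x.2.q < Kc)] <;> try exact hu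
  have hq1 : (1 - d 0) ^ Kc * SM2.ker 1 (x.2.q + 1) (d 0) = (1 - d 0) ^ (Kc - x.2.q - 1) := by
    unfold SM2.ker
    have e1 : Kc = (Kc - x.2.q - 1) + (x.2.q + 1) := by omega
    have e2 : (1 - d 0) ^ Kc = (1 - d 0) ^ (Kc - x.2.q - 1) * (1 - d 0) ^ (x.2.q + 1) := by
      rw [← pow_add, ← e1]
    rw [one_mul, e2, mul_assoc, mul_inv_cancel₀ (pow_ne_zero _ hu), mul_one]
  refine ⟨_, rfl, ?_, ?_, ?_, ?_⟩
  · unfold KP wP uP sk
    simp only [PE.ev_add, PE.ev_sub, PE.ev_mul, PE.ev_pow, PE.ev_c, PE.ev_v, vd0,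
      vd1, vd2, vd3, vd4, vd5, vd6, vd7, vd8, Int.cast_one]
    rw [← hq]
    ring
  · unfold fsP wP uP sk'
    simp only [PE.ev_add, PE.ev_sub, PE.ev_mul, PE.ev_pow, PE.ev_c, PE.ev_v, vd0,
      vd1, vd2, vd3, vd4, vd5, vd6, vd7, vd8, Int.cast_one, Int.cast_natCast]
    rw [← hq, ← hq1]
    ring
  · unfold ftP wP uP sk
    simp only [PE.ev_add, PE.ev_sub, PE.ev_mul, PE.ev_pow, PE.ev_c, PE.ev_v, vd0,
      vd1, vd2, vd3, vd4, vd5, vd6, vd7, vd8, Int.cast_one, Int.cast_natCast]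
    rw [← hq]
    ring
  · unfold feP wP uP sk
    simp only [PE.ev_add, PE.ev_sub, PE.ev_mul, PE.ev_pow, PE.ev_c, PE.ev_v, vd0,
      vd1, vd2, vd3, vd4, vd5, vd6, vd7, vd8, Int.cast_one, Int.cast_natCast]
    rw [← hq]
    ring

lemma sumP_nil (k : Nat) (f : Int × RTerm → PE) : sumP k f [] = PE.c 0 := rfl
lemma sumP_cons (k : Nat) (f : Int × RTerm → PE) (x : Int × RTerm) (L : List (Int × RTerm)) :
    sumP k f (x :: L) = Bool.rec (motive := fun _ => PE) (sumP k f L) (PE.add (f x) (sumP k f L))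
      (Nat.beq x.2.fam.val k) := rfl

lemma ev_famP (k : Fin 6) (m Kc : ℕ) (L : List (Int × RTerm)) (hL : ∀ x ∈ L, x.2.q + 1 ≤ Kc)
    {d : R9} (hd : d 0 ≠ 1) :
    PE.ev (vd d) (famP k m Kc L) = (1 - d 0) ^ Kc * gsumk m k L d := by
  unfold famP
  rw [ev_rowEP]
  induction L with
  | nil =>
    simp only [sumP_nil, PE.ev_c, Int.cast_zero, gsumk, List.map_nil, List.sum_nil, mul_zero]
    exact rowE_zero _ _ _ _ _ _ _ _ _ _ _
  | cons x L ih =>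
    have ih' := ih fun y hy => hL y (List.mem_cons_of_mem _ hy)
    obtain ⟨r, hr, h1, h2, h3, h4⟩ := term_ev (hL x List.mem_cons_self) hd
    simp only [sumP_cons]
    unfold gsumk at ih' ⊢
    rw [List.map_cons, List.sum_cons]
    cases hb : Nat.beq x.2.fam.val k.val with
    | true =>
      have hk : x.2.fam = k := Fin.ext (Nat.eq_of_beq_eq_true hb)
      rw [if_pos hk]
      simp only [PE.ev_add, h1, h2, h3, h4]
      rw [rowE_add, ih', rowE_smul]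
      unfold RTerm.FM rG
      rw [hk, hr]
      push_cast
      ring
    | false =>
      have hk : x.2.fam ≠ k := fun h => by
        rw [h, Nat.beq_refl] at hb
        exact absurd hb (by simp)
      rw [if_neg hk, zero_add]
      exact ih'

/-- the expression of a sum of terms -/
def GP (m Kc : Nat) (L : List (Int × RTerm)) : PE :=
  PE.add (PE.add (PE.add (famP 0 m Kc L) (famP 1 m Kc L))
    (PE.add (famP 2 m Kc L) (famP 3 m Kc L))) (PE.add (famP 4 m Kc L) (famP 5 m Kc L))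

lemma ev_GP (m Kc : ℕ) (L : List (Int × RTerm)) (hL : ∀ x ∈ L, x.2.q + 1 ≤ Kc)
    {d : R9} (hd : d 0 ≠ 1) : PE.ev (vd d) (GP m Kc L) = (1 - d 0) ^ Kc * gsum m L d := by
  unfold GP
  simp only [PE.ev_add, ev_famP _ m Kc L hL hd]
  rw [gsum_eq]
  ring

/-- the list of terms with real coefficients -/
def toR (D : ℕ) (L : List (Int × RTerm)) : List (ℝ × RTerm) :=
  L.map fun x => ((x.1 : ℝ) / D, x.2)

lemma rsum_toR (m : ℕ) {D : ℕ} (hD : 0 < D) (L : List (Int × RTerm)) (d : R9) :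
    2 * D * rsumM m (toR D L) d = gsum m L d + gsum m L (sw9 d) := by
  have hD' : (D : ℝ) ≠ 0 := by exact_mod_cast hD.ne'
  unfold toR rsumM gsum
  induction L with
  | nil => simp
  | cons x L ih =>
    simp only [List.map_cons, List.sum_cons] at ih ⊢
    rw [mul_add, ih]
    field_simp
    ring

/-- the symmetrized expression of a sum of terms -/
def RP (m Kc : Nat) (L : List (Int × RTerm)) : PE := PE.add (GP m Kc L) (sb sws (GP m Kc L))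

theorem ev_RP (m : ℕ) {Kc D : ℕ} (hD : 0 < D) {L : List (Int × RTerm)} (hL : ∀ x ∈ L, x.2.q + 1 ≤ Kc)
    {d : R9} (hd : d 0 ≠ 1) :
    PE.ev (vd d) (RP m Kc L) = (1 - d 0) ^ Kc * (2 * D * rsumM m (toR D L) d) := by
  have h0 : sw9 d 0 = d 0 := rfl
  have hd' : sw9 d 0 ≠ 1 := hd
  unfold RP
  rw [PE.ev_add, ev_swap, ev_GP m Kc L hL hd, ev_GP m Kc L hL hd', rsum_toR m hD, h0]
  ring

/-- the expression of the value function, with integer coefficients -/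
def WP (Kc : Nat) (b0 b1 b2 b3 b4 b5 b6 b7 b8 : Int) : PE :=
  PE.mul (PE.pow uP Kc)
    (PE.add (PE.add (PE.add (PE.c (2 * b0)) (PE.mul (PE.c (2 * b1)) (PE.v 3)))
        (PE.add (PE.mul (PE.c b2) (PE.add (PE.v 4) (PE.v 5))) (PE.mul (PE.c (2 * b3)) (PE.v 8))))
      (PE.add (PE.add (PE.mul (PE.c b4) (PE.add (PE.pow (PE.v 4) 2) (PE.pow (PE.v 5) 2)))
          (PE.mul (PE.c (2 * b5)) (PE.mul (PE.v 4) (PE.v 5))))
        (PE.add (PE.add (PE.mul (PE.c (2 * b6)) (PE.mul (PE.v 3) (PE.v 8)))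
            (PE.mul (PE.c b7) (PE.mul (PE.v 3) (PE.add (PE.v 4) (PE.v 5)))))
          (PE.mul (PE.c b8) (PE.add (PE.pow (PE.v 6) 2) (PE.pow (PE.v 7) 2))))))

theorem ev_WP {D : ℕ} (hD : 0 < D) (Kc : ℕ) (b0 b1 b2 b3 b4 b5 b6 b7 b8 : ℤ) (d : R9) :
    PE.ev (vd d) (WP Kc b0 b1 b2 b3 b4 b5 b6 b7 b8) = (1 - d 0) ^ Kc * (2 * D *
      W9 (b0 / D) (b1 / D) (b2 / D) (b3 / D) (b4 / D) (b5 / D) (b6 / D) (b7 / D) (b8 / D) d) := by
  have hD' : (D : ℝ) ≠ 0 := by exact_mod_cast hD.ne'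
  unfold WP W9 uP
  simp only [PE.ev_add, PE.ev_sub, PE.ev_mul, PE.ev_pow, PE.ev_c, PE.ev_v, vd0,
      vd1, vd2, vd3, vd4, vd5, vd6, vd7, vd8, Int.cast_one, Int.cast_mul, Int.cast_ofNat]
  field_simp
  ring

end

end Vale.Agent.P224.POS.RM
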