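import Vale.Agent.P224.POS.Lhs
import Vale.Agent.P224.POS.Check

/-!
The rows of the certificate in dimension four.
-/

namespace Vale.Agent.P224.POS

open Vale.Agent.P224.UE

noncomputable section

/-- the rows: coefficient, row term -/
def rows63 : List (Int × RTerm) :=
  [
   (10451137500, ⟨0, 2, 0, 0, 0, 0, 1, 0⟩),
   (62187187500, ⟨0, 1, 0, 0, 0, 0, 1, 0⟩),
   (-6155662500, ⟨0, 0, 0, 0, 0, 0, 1, 0⟩),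
   (-613372500, ⟨0, 0, 1, 0, 0, 0, 1, 0⟩),
   (-88002000000, ⟨0, 2, 0, 1, 0, 1, 0, 0⟩),
   (-224290777500, ⟨0, 1, 0, 1, 0, 1, 0, 0⟩),
   (17098730000, ⟨0, 0, 0, 1, 0, 1, 0, 0⟩),
   (5081085000, ⟨0, 0, 1, 1, 0, 1, 0, 0⟩),
   (-984937500, ⟨0, 2, 0, 1, 1, 0, 0, 0⟩),
   (-90342112500, ⟨0, 1, 0, 1, 1, 0, 0, 0⟩),
   (3927922500, ⟨0, 0, 0, 1, 1, 0, 0, 0⟩),
   (-3927915000, ⟨0, 0, 1, 1, 1, 0, 0, 0⟩),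
   (3858030000, ⟨1, 1, 0, 1, 0, 0, 1, 0⟩),
   (-7223692500, ⟨1, 0, 0, 1, 0, 0, 1, 0⟩),
   (-3731850000, ⟨1, 0, 1, 1, 0, 0, 1, 0⟩),
   (63075127500, ⟨1, 1, 0, 0, 0, 1, 0, 0⟩),
   (-190296328125, ⟨1, 0, 0, 0, 0, 1, 0, 0⟩),
   (9932017500, ⟨1, 2, 0, 2, 0, 1, 0, 0⟩),
   (-24945885000, ⟨1, 1, 0, 2, 0, 1, 0, 0⟩),
   (11070652500, ⟨1, 0, 0, 2, 0, 1, 0, 0⟩),
   (112852822500, ⟨1, 1, 0, 0, 1, 0, 0, 0⟩),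
   (-110494192500, ⟨1, 0, 0, 0, 1, 0, 0, 0⟩),
   (-19394370000, ⟨1, 0, 1, 0, 1, 0, 0, 0⟩),
   (-8909055000, ⟨1, 2, 0, 2, 1, 0, 0, 0⟩),
   (13089150000, ⟨1, 1, 0, 2, 1, 0, 0, 0⟩),
   (-6007995000, ⟨1, 0, 0, 2, 1, 0, 0, 0⟩),
   (-10451137500, ⟨3, 2, 0, 0, 0, 0, 1, 0⟩),
   (41284912500, ⟨3, 1, 0, 0, 0, 0, 1, 0⟩),
   (-5763285000, ⟨3, 0, 0, 0, 0, 0, 1, 0⟩),
   (-746370000, ⟨3, 0, 1, 0, 0, 0, 1, 0⟩),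
   (13381042500, ⟨3, 2, 0, 1, 0, 1, 0, 0⟩),
   (19794622500, ⟨3, 1, 0, 1, 0, 1, 0, 0⟩),
   (-1264050000, ⟨3, 0, 0, 1, 0, 1, 0, 0⟩),
   (73559970000, ⟨3, 2, 0, 1, 1, 0, 0, 0⟩),
   (-8968140000, ⟨3, 1, 0, 1, 1, 0, 0, 0⟩),
   (-3200145000, ⟨3, 0, 0, 1, 1, 0, 0, 0⟩),
   (15740977500, ⟨5, 1, 0, 1, 0, 0, 0, 0⟩),
   (-11947612500, ⟨5, 0, 0, 1, 0, 0, 0, 0⟩),
   (-6631785000, ⟨5, 0, 1, 1, 0, 0, 0, 0⟩),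
   (-8091405000, ⟨0, 2, 0, 0, 0, 0, 0, 1⟩),
   (-9791595000, ⟨0, 1, 0, 0, 0, 0, 0, 1⟩),
   (5454922500, ⟨0, 0, 0, 0, 0, 0, 0, 1⟩),
   (46687500, ⟨0, 0, 1, 0, 0, 0, 0, 1⟩),
   (-2092095000, ⟨0, 2, 0, 0, 0, 0, 2, 0⟩),
   (3943350000, ⟨0, 1, 0, 0, 0, 0, 2, 0⟩),
   (-6579652500, ⟨0, 0, 0, 0, 0, 0, 2, 0⟩),
   (-356535000, ⟨0, 0, 1, 0, 0, 0, 2, 0⟩),
   (1552905000, ⟨0, 2, 0, 1, 0, 1, 1, 0⟩),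
   (73749397500, ⟨0, 1, 0, 1, 0, 1, 1, 0⟩),
   (-4248112500, ⟨0, 0, 0, 1, 0, 1, 1, 0⟩),
   (-90371137500, ⟨0, 2, 0, 0, 0, 2, 0, 0⟩),
   (-249273990000, ⟨0, 1, 0, 0, 0, 2, 0, 0⟩),
   (2436007500, ⟨0, 0, 0, 0, 0, 2, 0, 0⟩),
   (-2436007500, ⟨0, 0, 1, 0, 0, 2, 0, 0⟩),
   (-35601412500, ⟨0, 2, 0, 1, 1, 0, 1, 0⟩),
   (22967167500, ⟨0, 1, 0, 1, 1, 0, 1, 0⟩),
   (10166220000, ⟨0, 0, 0, 1, 1, 0, 1, 0⟩),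
   (-111574935000, ⟨0, 2, 0, 0, 1, 1, 0, 0⟩),
   (-372972127500, ⟨0, 1, 0, 0, 1, 1, 0, 0⟩),
   (2375145000, ⟨0, 0, 0, 0, 1, 1, 0, 0⟩),
   (-2375145000, ⟨0, 0, 1, 0, 1, 1, 0, 0⟩),
   (71594640000, ⟨0, 2, 0, 0, 2, 0, 0, 0⟩),
   (-4512532500, ⟨1, 1, 0, 1, 0, 0, 0, 1⟩),
   (-9337500, ⟨1, 0, 0, 1, 0, 0, 0, 1⟩),
   (2212672500, ⟨1, 1, 0, 1, 0, 0, 2, 0⟩),
   (-4923945000, ⟨1, 0, 0, 1, 0, 0, 2, 0⟩),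
   (-91506780000, ⟨1, 1, 0, 0, 0, 1, 1, 0⟩),
   (17288100000, ⟨1, 0, 0, 0, 0, 1, 1, 0⟩),
   (1947645000, ⟨1, 2, 0, 2, 0, 1, 1, 0⟩),
   (-925402500, ⟨1, 1, 0, 2, 0, 1, 1, 0⟩),
   (-99065070000, ⟨1, 2, 0, 1, 0, 2, 0, 0⟩),
   (17894767500, ⟨1, 1, 0, 1, 0, 2, 0, 0⟩),
   (-27181485000, ⟨1, 0, 0, 1, 0, 2, 0, 0⟩),
   (-56640757500, ⟨1, 1, 0, 0, 1, 0, 1, 0⟩),
   (-48040852500, ⟨1, 0, 0, 0, 1, 0, 1, 0⟩),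
   (58153860000, ⟨1, 0, 1, 0, 1, 0, 1, 0⟩),
   (9049252500, ⟨1, 2, 0, 2, 1, 0, 1, 0⟩),
   (-5919097500, ⟨1, 1, 0, 2, 1, 0, 1, 0⟩),
   (37887210000, ⟨1, 2, 0, 1, 1, 1, 0, 0⟩),
   (1602382500, ⟨1, 1, 0, 1, 1, 1, 0, 0⟩),
   (-16937437500, ⟨1, 0, 0, 1, 1, 1, 0, 0⟩),
   (61177860000, ⟨1, 2, 0, 1, 2, 0, 0, 0⟩),
   (-22128345000, ⟨1, 1, 0, 1, 2, 0, 0, 0⟩),
   (-5702760000, ⟨1, 0, 0, 1, 2, 0, 0, 0⟩),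
   (62468100000, ⟨2, 1, 0, 1, 0, 0, 1, 0⟩),
   (65155725000, ⟨2, 0, 0, 1, 0, 0, 1, 0⟩),
   (-65155725000, ⟨2, 0, 1, 1, 0, 0, 1, 0⟩),
   (330177240000, ⟨2, 1, 0, 0, 0, 1, 0, 0⟩),
   (-424553872500, ⟨2, 0, 0, 0, 0, 1, 0, 0⟩),
   (-22590292500, ⟨2, 0, 1, 0, 0, 1, 0, 0⟩),
   (6579157500, ⟨2, 1, 0, 0, 1, 0, 0, 0⟩),
   (-130019445000, ⟨2, 0, 0, 0, 1, 0, 0, 0⟩),
   (17973000000, ⟨2, 0, 1, 0, 1, 0, 0, 0⟩),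
   (7289055000, ⟨3, 2, 0, 0, 0, 0, 0, 1⟩),
   (4473427500, ⟨3, 1, 0, 0, 0, 0, 0, 1⟩),
   (-7189672500, ⟨3, 2, 0, 0, 0, 0, 2, 0⟩),
   (358537500, ⟨3, 1, 0, 0, 0, 0, 2, 0⟩),
   (-1572345000, ⟨3, 0, 0, 0, 0, 0, 2, 0⟩),
   (-5147505000, ⟨3, 2, 0, 1, 0, 1, 1, 0⟩),
   (9524092500, ⟨3, 1, 0, 1, 0, 1, 1, 0⟩),
   (66877200000, ⟨3, 2, 0, 0, 0, 2, 0, 0⟩),
   (16694010000, ⟨3, 1, 0, 0, 0, 2, 0, 0⟩),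
   (77476140000, ⟨3, 0, 0, 0, 0, 2, 0, 0⟩),
   (-46116000000, ⟨3, 0, 1, 0, 0, 2, 0, 0⟩),
   (-4733730000, ⟨3, 2, 0, 1, 1, 0, 1, 0⟩),
   (-2888347500, ⟨3, 1, 0, 1, 1, 0, 1, 0⟩),
   (41215815000, ⟨3, 2, 0, 0, 1, 1, 0, 0⟩),
   (46474785000, ⟨3, 1, 0, 0, 1, 1, 0, 0⟩),
   (-7977982500, ⟨3, 0, 0, 0, 1, 1, 0, 0⟩),
   (21245265000, ⟨3, 2, 0, 0, 2, 0, 0, 0⟩),
   (-32940000000, ⟨3, 0, 0, 0, 2, 0, 0, 0⟩),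
   (32940000000, ⟨3, 0, 1, 0, 2, 0, 0, 0⟩),
   (-2536672500, ⟨5, 1, 0, 1, 0, 0, 1, 0⟩),
   (-6217987500, ⟨5, 0, 0, 1, 0, 0, 1, 0⟩),
   (-67763722500, ⟨5, 1, 0, 0, 0, 1, 0, 0⟩),
   (26548200000, ⟨5, 0, 0, 0, 0, 1, 0, 0⟩),
   (-4093132500, ⟨5, 1, 0, 0, 1, 0, 0, 0⟩),
   (-30324780000, ⟨5, 0, 0, 0, 1, 0, 0, 0⟩),
   (224100000, ⟨5, 0, 1, 0, 1, 0, 0, 0⟩)]

/-- all rows are admissible -/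
lemma rows63_ok : rows63.all (fun cT => cT.2.ok) = true := by decide +kernel

lemma rows63_q : rows63.all (fun cT => Nat.ble cT.2.q 2) = true := by decide +kernel

lemma rows63_ok' : ∀ cT ∈ rows63, cT.2.ok = true := by
  have := rows63_ok
  rw [List.all_eq_true] at this
  exact this

lemma rows63_q' : ∀ cT ∈ rows63, cT.2.q ≤ 2 := by
  have := rows63_q
  rw [List.all_eq_true] at this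
  exact fun cT h => Nat.le_of_ble_eq_true (this cT h)

/-- the common denominator -/
def D63 : Int := 23592960000

/-- the value of the rows -/
lemma rval63 (u r : ℝ) :
    rval (rl D63 rows63) u r = -(2062939 / 1048576) * u + 4951 / 2048 * r := by
  have hD : D63 ≠ 0 := by decide
  set f : ℕ → ℝ := fun i => if i = 0 then u else if i = 1 then r else 0 with hf
  have h1 := ev_lv f hD rows63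
  have hc : chk [] ((lv rows63).sub (PE.add (PE.mul (PE.c (-232080637500)) (PE.v 0))
      (PE.mul (PE.c 285177600000) (PE.v 1)))) = true := by decide +kernel
  have h2 := ev_eq_of_chk hc f (fun i hi => by
    have h3 : 10 ≤ i := by simpa using hi
    have h4 : i ≠ 0 := by omega
    have h5 : i ≠ 1 := by omega
    simp only [hf]
    rw [if_neg h4, if_neg h5])
  rw [PE.ev_add, PE.ev_mul, PE.ev_mul, PE.ev_c, PE.ev_c, PE.ev_v, PE.ev_v, h1] at h2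
  have e0 : f 0 = u := by simp [hf]
  have e1 : f 1 = r := by simp [hf]
  rw [e0, e1] at h2
  have eD : (D63 : ℝ) = 23592960000 := by norm_num [D63]
  rw [eD] at h2
  push_cast at h2
  linarith

end

end Vale.Agent.P224.POS
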