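import Vale.Agent.P224.POS.LhsM

/-!
The polynomial expressions of the rows with profiles `rho ^ e`, `rho = sqrt ((1 - s) / 2)`.
-/

namespace Vale.Agent.P224.POS.RH

open Vale.Agent.P224.UE Vale.Agent.P224.POS.RM

set_option linter.unusedSimpArgs false

noncomputable section

/-- a row term with the profile `rho ^ e` -/
structure HT where
  fam : Fin 6
  e : ℤ
  i : ℕ
  j : ℕ
  d : ℕ
  k : ℕ
  l : ℕ

def rho (s : ℝ) : ℝ := Real.sqrt ((1 - s) / 2)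
def rh (e : ℤ) (s : ℝ) : ℝ := rho s ^ e
def rh' (e : ℤ) (s : ℝ) : ℝ := -(e / 4) * rho s ^ (e - 2)

def HT.F (m : ℕ) (T : HT) (d : R9) : ℝ :=
  (d 8 ^ T.l * (d 5 ^ T.k * d 7 ^ T.d)) * rG T.fam m (rh T.e) (rh' T.e) T.i T.j d

/-- the values of the nine variables, the first one is `rho` -/
def vh (d : R9) (i : ℕ) : ℝ :=
  ([rho (d 0), d 1, d 2, d 3, d 4, d 5, d 6, d 7, d 8] : List ℝ).getD i 0

lemma vh_ge (d : R9) (i : ℕ) (h : 9 ≤ i) : vh d i = 0 := by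
  unfold vh
  rw [List.getD_eq_default _ _ (by simpa using h)]

@[simp] lemma vh0 (d : R9) : vh d 0 = rho (d 0) := rfl
@[simp] lemma vh1 (d : R9) : vh d 1 = d 1 := rfl
@[simp] lemma vh2 (d : R9) : vh d 2 = d 2 := rfl
@[simp] lemma vh3 (d : R9) : vh d 3 = d 3 := rfl
@[simp] lemma vh4 (d : R9) : vh d 4 = d 4 := rfl
@[simp] lemma vh5 (d : R9) : vh d 5 = d 5 := rfl
@[simp] lemma vh6 (d : R9) : vh d 6 = d 6 := rfl
@[simp] lemma vh7 (d : R9) : vh d 7 = d 7 := rfl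
@[simp] lemma vh8 (d : R9) : vh d 8 = d 8 := rfl

lemma ev_swsH (d : R9) (i : ℕ) : PE.ev (vh d) (sws i) = vh (sw9 d) i := by
  by_cases hi : i < 9
  · interval_cases i <;> rfl
  · rw [vh_ge _ _ (not_lt.1 hi)]
    unfold sws
    rw [lk_ge _ _ _ (by simpa using not_lt.1 hi)]
    simp

lemma ev_swapH (d : R9) (e : PE) : PE.ev (vh d) (sb sws e) = PE.ev (vh (sw9 d)) e := by
  rw [ev_sb]
  congr 1
  funext i
  exact ev_swsH d i

/-- `s = 1 - 2 rho ^ 2` -/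
def sP : PE := PE.sub (PE.c 1) (PE.mul (PE.c 2) (PE.pow (PE.v 0) 2))

lemma rho_sq {s : ℝ} (hs : s ≤ 1) : rho s ^ 2 = (1 - s) / 2 := by
  unfold rho
  exact Real.sq_sqrt (by linarith)

lemma rho_pos {s : ℝ} (hs : s < 1) : 0 < rho s := Real.sqrt_pos.2 (by linarith)

lemma ev_sP {d : R9} (hd : d 0 ≤ 1) : PE.ev (vh d) sP = d 0 := by
  unfold sP
  simp only [PE.ev_sub, PE.ev_mul, PE.ev_pow, PE.ev_c, PE.ev_v, vh0, rho_sq hd]
  push_cast
  ring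

/-- the weight of a term -/
def wH (x : Int × HT) : PE :=
  PE.mul (PE.mul (PE.c x.1) (PE.pow (PE.v 8) x.2.l))
    (PE.mul (PE.pow (PE.v 5) x.2.k) (PE.pow (PE.v 7) x.2.d))

/-- four times the profile -/
def p0 (Kc : Nat) (x : Int × HT) : PE :=
  PE.mul (PE.c 4) (PE.pow (PE.v 0) (Int.toNat (Kc + x.2.e)))

def KH (Kc : Nat) (x : Int × HT) : PE :=
  PE.mul (wH x) (PE.mul (PE.pow (PE.v 6) x.2.j) (PE.mul (PE.pow (PE.v 1) x.2.i) (p0 Kc x)))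

def fsH (Kc : Nat) (x : Int × HT) : PE :=
  PE.mul (wH x) (PE.mul (PE.pow (PE.v 6) x.2.j) (PE.mul (PE.pow (PE.v 1) x.2.i)
    (PE.mul (PE.c (-x.2.e)) (PE.pow (PE.v 0) (Int.toNat (Kc + x.2.e - 2))))))

def ftH (Kc : Nat) (x : Int × HT) : PE :=
  PE.mul (wH x) (PE.mul (PE.pow (PE.v 6) x.2.j)
    (PE.mul (PE.mul (PE.c x.2.i) (PE.pow (PE.v 1) (x.2.i - 1))) (p0 Kc x)))

def feH (Kc : Nat) (x : Int × HT) : PE :=
  PE.mul (wH x) (PE.mul (PE.mul (PE.c x.2.j) (PE.pow (PE.v 6) (x.2.j - 1)))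
    (PE.mul (PE.pow (PE.v 1) x.2.i) (p0 Kc x)))

/-- the sum over the terms of one family -/
def sumH (k : Nat) (f : Int × HT → PE) (L : List (Int × HT)) : PE :=
  List.rec (motive := fun _ => PE) (PE.c 0) (fun x _ ih =>
    Bool.rec (motive := fun _ => PE) ih (PE.add (f x) ih) (Nat.beq x.2.fam.val k)) L

def qAh : PE := PE.sub (PE.sub (PE.c 1) (PE.pow sP 2)) (PE.pow (PE.v 2) 2)
def qBh : PE := PE.sub (PE.mul (PE.c (-1)) (PE.mul sP (PE.v 1))) (PE.mul (PE.v 2) (PE.v 3))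
def qCh : PE := PE.sub (PE.sub (PE.v 7) (PE.mul sP (PE.v 6))) (PE.mul (PE.v 2) (PE.v 4))
def qDh : PE := PE.sub (PE.sub (PE.c 1) (PE.pow (PE.v 1) 2)) (PE.pow (PE.v 3) 2)
def qFh : PE := PE.sub (PE.sub (PE.v 5) (PE.mul (PE.v 1) (PE.v 6))) (PE.mul (PE.v 3) (PE.v 4))
def qGh : PE := PE.sub (PE.sub (PE.v 8) (PE.pow (PE.v 6) 2)) (PE.pow (PE.v 4) 2)

/-- the rows as expressions -/
def rowEH (k : Fin 6) (m : Nat) (K fs ft fe : PE) : PE :=
  match k with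
  | 0 => PE.sub (l3 qAh qBh qCh fs ft fe) (PE.mul (PE.mul (PE.c m) sP) K)
  | 1 => PE.sub (l3 qBh qDh qFh fs ft fe) (PE.mul (PE.mul (PE.c m) (PE.v 1)) K)
  | 2 => PE.sub (l3 qCh qFh qGh fs ft fe) (PE.mul (PE.mul (PE.c m) (PE.v 6)) K)
  | 3 => PE.sub (PE.sub (PE.mul (PE.v 2) (l3 qBh qDh qFh fs ft fe))
      (PE.mul (PE.v 3) (l3 qAh qBh qCh fs ft fe)))
      (PE.mul (PE.mul (PE.c m) (PE.sub (PE.mul (PE.v 2) (PE.v 1)) (PE.mul (PE.v 3) sP))) K)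
  | 4 => PE.sub (PE.sub (PE.mul (PE.v 2) (l3 qCh qFh qGh fs ft fe))
      (PE.mul (PE.v 4) (l3 qAh qBh qCh fs ft fe)))
      (PE.mul (PE.mul (PE.c m) (PE.sub (PE.mul (PE.v 2) (PE.v 6)) (PE.mul (PE.v 4) sP))) K)
  | 5 => PE.sub (PE.sub (PE.mul (PE.v 3) (l3 qCh qFh qGh fs ft fe))
      (PE.mul (PE.v 4) (l3 qBh qDh qFh fs ft fe)))
      (PE.mul (PE.mul (PE.c m) (PE.sub (PE.mul (PE.v 3) (PE.v 6)) (PE.mul (PE.v 4) (PE.v 1)))) K)

lemma ev_rowEH (k : Fin 6) (m : ℕ) (K fs ft fe : PE) {d : R9} (hd : d 0 ≤ 1) :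
    PE.ev (vh d) (rowEH k m K fs ft fe)
      = rowE k m (d 0) (d 1) (d 2) (d 3) (d 4) (d 5) (d 6) (d 7) (d 8) (PE.ev (vh d) K)
        (PE.ev (vh d) fs) (PE.ev (vh d) ft) (PE.ev (vh d) fe) := by
  have hs := ev_sP hd
  unfold rowEH rowE l3 qAh qBh qCh qDh qFh qGh
  fin_cases k <;> simp only [PE.ev_add, PE.ev_sub, PE.ev_mul, PE.ev_pow, PE.ev_c, PE.ev_v, hs,
    vh1, vh2, vh3, vh4, vh5, vh6, vh7, vh8] <;> push_cast <;> ring

/-- the expression of the terms of one family -/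
def famH (k : Fin 6) (m Kc : Nat) (L : List (Int × HT)) : PE :=
  rowEH k m (sumH k.val (KH Kc) L) (sumH k.val (fsH Kc) L) (sumH k.val (ftH Kc) L)
    (sumH k.val (feH Kc) L)

/-- the plain sum of the terms -/
def gsumH (m : ℕ) (L : List (Int × HT)) (d : R9) : ℝ :=
  (L.map fun x => (x.1 : ℝ) * x.2.F m d).sum

/-- the sum over the terms of one family -/
def gsumHk (m : ℕ) (k : Fin 6) (L : List (Int × HT)) (d : R9) : ℝ :=
  (L.map fun x => if x.2.fam = k then (x.1 : ℝ) * x.2.F m d else 0).sum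

lemma gsumH_eq (m : ℕ) (L : List (Int × HT)) (d : R9) :
    gsumH m L d = gsumHk m 0 L d + gsumHk m 1 L d + gsumHk m 2 L d + gsumHk m 3 L d
      + gsumHk m 4 L d + gsumHk m 5 L d := by
  induction L with
  | nil => simp [gsumH, gsumHk]
  | cons x L ih =>
    simp only [gsumH, gsumHk, List.map_cons, List.sum_cons] at ih ⊢
    rw [ih]
    obtain ⟨n, T⟩ := x
    obtain ⟨fam, q, i, j, dd, k, l⟩ := T
    fin_cases fam <;> simp <;> ring

lemma pow_rh {s : ℝ} (hs : s < 1) {K : ℕ} {e : ℤ} (h : 0 ≤ (K : ℤ) + e) :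
    rho s ^ K * rho s ^ e = rho s ^ (Int.toNat (K + e)) := by
  have h0 := (rho_pos hs).ne'
  rw [← zpow_natCast, ← zpow_natCast, ← zpow_add₀ h0, Int.toNat_of_nonneg h]

/-- the values of the weight and of the profile of a term -/
lemma termH_ev {Kc : ℕ} {x : Int × HT} (hx : 0 ≤ (Kc : ℤ) + x.2.e - 2) {d : R9} (hd : d 0 < 1) :
    ∃ r : ℝ, r = 4 * rho (d 0) ^ Kc * ((x.1 : ℝ) * (d 8 ^ x.2.l * (d 5 ^ x.2.k * d 7 ^ x.2.d))) ∧
    PE.ev (vh d) (KH Kc x) = r * (d 6 ^ x.2.j * (d 1 ^ x.2.i * rh x.2.e (d 0))) ∧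
    PE.ev (vh d) (fsH Kc x) = r * (d 6 ^ x.2.j * (d 1 ^ x.2.i * rh' x.2.e (d 0))) ∧
    PE.ev (vh d) (ftH Kc x)
      = r * (d 6 ^ x.2.j * (x.2.i * d 1 ^ (x.2.i - 1) * rh x.2.e (d 0))) ∧
    PE.ev (vh d) (feH Kc x)
      = r * (x.2.j * d 6 ^ (x.2.j - 1) * (d 1 ^ x.2.i * rh x.2.e (d 0))) := by
  have e0 : rho (d 0) ^ Kc * rho (d 0) ^ x.2.e = rho (d 0) ^ (Int.toNat (Kc + x.2.e)) :=
    pow_rh hd (by omega)
  have e2 : rho (d 0) ^ Kc * rho (d 0) ^ (x.2.e - 2) = rho (d 0) ^ (Int.toNat (Kc + x.2.e - 2)) := by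
    have := pow_rh hd (K := Kc) (e := x.2.e - 2) (by omega)
    rw [this]
    congr 2
    ring
  refine ⟨_, rfl, ?_, ?_, ?_, ?_⟩
  · unfold KH wH p0 rh
    simp only [PE.ev_add, PE.ev_sub, PE.ev_mul, PE.ev_pow, PE.ev_c, PE.ev_v, vh0,
      vh1, vh2, vh3, vh4, vh5, vh6, vh7, vh8, Int.cast_ofNat]
    rw [← e0]
    ring
  · unfold fsH wH rh'
    simp only [PE.ev_add, PE.ev_sub, PE.ev_mul, PE.ev_pow, PE.ev_c, PE.ev_v, vh0,
      vh1, vh2, vh3, vh4, vh5, vh6, vh7, vh8, Int.cast_neg]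
    rw [← e2]
    ring
  · unfold ftH wH p0 rh
    simp only [PE.ev_add, PE.ev_sub, PE.ev_mul, PE.ev_pow, PE.ev_c, PE.ev_v, vh0,
      vh1, vh2, vh3, vh4, vh5, vh6, vh7, vh8, Int.cast_ofNat, Int.cast_natCast]
    rw [← e0]
    ring
  · unfold feH wH p0 rh
    simp only [PE.ev_add, PE.ev_sub, PE.ev_mul, PE.ev_pow, PE.ev_c, PE.ev_v, vh0,
      vh1, vh2, vh3, vh4, vh5, vh6, vh7, vh8, Int.cast_ofNat, Int.cast_natCast]
    rw [← e0]
    ring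

lemma sumH_nil (k : Nat) (f : Int × HT → PE) : sumH k f [] = PE.c 0 := rfl
lemma sumH_cons (k : Nat) (f : Int × HT → PE) (x : Int × HT) (L : List (Int × HT)) :
    sumH k f (x :: L) = Bool.rec (motive := fun _ => PE) (sumH k f L) (PE.add (f x) (sumH k f L))
      (Nat.beq x.2.fam.val k) := rfl

lemma ev_famH (k : Fin 6) (m Kc : ℕ) (L : List (Int × HT))
    (hL : ∀ x ∈ L, 0 ≤ (Kc : ℤ) + x.2.e - 2) {d : R9} (hd : d 0 < 1) :
    PE.ev (vh d) (famH k m Kc L) = 4 * rho (d 0) ^ Kc * gsumHk m k L d := by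
  unfold famH
  rw [ev_rowEH _ _ _ _ _ _ hd.le]
  induction L with
  | nil =>
    simp only [sumH_nil, PE.ev_c, Int.cast_zero, gsumHk, List.map_nil, List.sum_nil, mul_zero]
    exact rowE_zero _ _ _ _ _ _ _ _ _ _ _
  | cons x L ih =>
    have ih' := ih fun y hy => hL y (List.mem_cons_of_mem _ hy)
    obtain ⟨r, hr, h1, h2, h3, h4⟩ := termH_ev (hL x List.mem_cons_self) hd
    simp only [sumH_cons]
    unfold gsumHk at ih' ⊢
    rw [List.map_cons, List.sum_cons]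
    cases hb : Nat.beq x.2.fam.val k.val with
    | true =>
      have hk : x.2.fam = k := Fin.ext (Nat.eq_of_beq_eq_true hb)
      rw [if_pos hk]
      simp only [PE.ev_add, h1, h2, h3, h4]
      rw [rowE_add, ih', rowE_smul]
      unfold HT.F rG
      rw [hk, hr]
      ring
    | false =>
      have hk : x.2.fam ≠ k := fun h => by
        rw [h, Nat.beq_refl] at hb
        exact absurd hb (by simp)
      rw [if_neg hk, zero_add]
      exact ih'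

/-- the expression of a sum of terms -/
def GH (m Kc : Nat) (L : List (Int × HT)) : PE :=
  PE.add (PE.add (PE.add (famH 0 m Kc L) (famH 1 m Kc L))
    (PE.add (famH 2 m Kc L) (famH 3 m Kc L))) (PE.add (famH 4 m Kc L) (famH 5 m Kc L))

lemma ev_GH (m Kc : ℕ) (L : List (Int × HT)) (hL : ∀ x ∈ L, 0 ≤ (Kc : ℤ) + x.2.e - 2)
    {d : R9} (hd : d 0 < 1) :
    PE.ev (vh d) (GH m Kc L) = 4 * rho (d 0) ^ Kc * gsumH m L d := by
  unfold GH
  simp only [PE.ev_add, ev_famH _ m Kc L hL hd]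
  rw [gsumH_eq]
  ring

/-- the list with real coefficients -/
def rlH (D : Int) (l : List (Int × HT)) : List (ℝ × HT) := l.map fun cT => ((cT.1 : ℝ) / D, cT.2)

/-- the symmetrized sum of terms -/
def rsumH (m : ℕ) (l : List (ℝ × HT)) (d : R9) : ℝ :=
  (l.map fun cT => cT.1 * ((cT.2.F m d + cT.2.F m (sw9 d)) / 2)).sum

lemma rsumH_rl (m : ℕ) {D : Int} (hD : D ≠ 0) (L : List (Int × HT)) (d : R9) :
    2 * D * rsumH m (rlH D L) d = gsumH m L d + gsumH m L (sw9 d) := by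
  have hD' : (D : ℝ) ≠ 0 := by exact_mod_cast hD
  unfold rlH rsumH gsumH
  induction L with
  | nil => simp
  | cons x L ih =>
    simp only [List.map_cons, List.sum_cons] at ih ⊢
    rw [mul_add, ih]
    field_simp
    ring

/-- the symmetrized expression of a sum of terms -/
def RPh (m Kc : Nat) (L : List (Int × HT)) : PE := PE.add (GH m Kc L) (sb sws (GH m Kc L))

theorem ev_RPh (m : ℕ) {Kc : ℕ} {D : Int} (hD : D ≠ 0) {L : List (Int × HT)}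
    (hL : ∀ x ∈ L, 0 ≤ (Kc : ℤ) + x.2.e - 2) {d : R9} (hd : d 0 < 1) :
    PE.ev (vh d) (RPh m Kc L) = 8 * D * rho (d 0) ^ Kc * rsumH m (rlH D L) d := by
  have h0 : sw9 d 0 = d 0 := rfl
  have hd' : sw9 d 0 < 1 := hd
  have h1 := rsumH_rl m hD L d
  unfold RPh
  rw [PE.ev_add, ev_swapH, ev_GH m Kc L hL hd, ev_GH m Kc L hL hd', h0]
  linear_combination (-4 * rho (d 0) ^ Kc) * h1

/-- the expression of the value function, with integer coefficients -/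
def WPh (Kc : Nat) (b0 b1 b2 b3 b4 b5 b6 b7 b8 : Int) : PE :=
  PE.mul (PE.mul (PE.c 4) (PE.pow (PE.v 0) Kc))
    (PE.add (PE.add (PE.add (PE.c (2 * b0)) (PE.mul (PE.c (2 * b1)) (PE.v 3)))
        (PE.add (PE.mul (PE.c b2) (PE.add (PE.v 4) (PE.v 5))) (PE.mul (PE.c (2 * b3)) (PE.v 8))))
      (PE.add (PE.add (PE.mul (PE.c b4) (PE.add (PE.pow (PE.v 4) 2) (PE.pow (PE.v 5) 2)))
          (PE.mul (PE.c (2 * b5)) (PE.mul (PE.v 4) (PE.v 5))))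
        (PE.add (PE.add (PE.mul (PE.c (2 * b6)) (PE.mul (PE.v 3) (PE.v 8)))
            (PE.mul (PE.c b7) (PE.mul (PE.v 3) (PE.add (PE.v 4) (PE.v 5)))))
          (PE.mul (PE.c b8) (PE.add (PE.pow (PE.v 6) 2) (PE.pow (PE.v 7) 2))))))

theorem ev_WPh {D : Int} (hD : D ≠ 0) (Kc : ℕ) (b0 b1 b2 b3 b4 b5 b6 b7 b8 : ℤ) (d : R9) :
    PE.ev (vh d) (WPh Kc b0 b1 b2 b3 b4 b5 b6 b7 b8) = 8 * D * rho (d 0) ^ Kc *
      W9 (b0 / D) (b1 / D) (b2 / D) (b3 / D) (b4 / D) (b5 / D) (b6 / D) (b7 / D) (b8 / D) d := by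
  have hD' : (D : ℝ) ≠ 0 := by exact_mod_cast hD
  unfold WPh W9
  simp only [PE.ev_add, PE.ev_sub, PE.ev_mul, PE.ev_pow, PE.ev_c, PE.ev_v, vh0,
      vh1, vh2, vh3, vh4, vh5, vh6, vh7, vh8, Int.cast_mul, Int.cast_ofNat]
  field_simp
  ring

/-- the left side of a certificate without a further functional -/
def lhsH (m K : Nat) (b0 b1 b2 b3 b4 b5 b6 b7 b8 : Int) (L : List (Int × HT)) : PE :=
  PE.add (WPh K b0 b1 b2 b3 b4 b5 b6 b7 b8) (RPh m K L)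

theorem ev_lhsH {d : R9} (hd : d 0 < 1) (m : ℕ) {K : ℕ} {D : Int} (hD : D ≠ 0)
    (b0 b1 b2 b3 b4 b5 b6 b7 b8 : Int) {L : List (Int × HT)}
    (hL : ∀ x ∈ L, 0 ≤ (K : ℤ) + x.2.e - 2) :
    PE.ev (vh d) (lhsH m K b0 b1 b2 b3 b4 b5 b6 b7 b8 L)
      = 8 * D * rho (d 0) ^ K * (
        W9 (b0 / D) (b1 / D) (b2 / D) (b3 / D) (b4 / D) (b5 / D) (b6 / D) (b7 / D) (b8 / D) d
        + rsumH m (rlH D L) d) := by
  unfold lhsH
  rw [PE.ev_add, ev_WPh hD, ev_RPh m hD hL hd]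
  ring

/-- nonnegativity of the certificate -/
theorem nonneg_of_lhsH {d : R9} (hd : d 0 < 1) (m : ℕ) {K : ℕ} {D : Int} (hD : 0 < D)
    (b0 b1 b2 b3 b4 b5 b6 b7 b8 : Int) {L : List (Int × HT)}
    (hL : ∀ x ∈ L, 0 ≤ (K : ℤ) + x.2.e - 2)
    (h : 0 ≤ PE.ev (vh d) (lhsH m K b0 b1 b2 b3 b4 b5 b6 b7 b8 L)) :
    0 ≤ W9 (b0 / D) (b1 / D) (b2 / D) (b3 / D) (b4 / D) (b5 / D) (b6 / D) (b7 / D) (b8 / D) d
        + rsumH m (rlH D L) d := by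
  rw [ev_lhsH hd m hD.ne' b0 b1 b2 b3 b4 b5 b6 b7 b8 hL] at h
  have hD0 : (0 : ℝ) < D := by exact_mod_cast hD
  have hw : 0 < rho (d 0) ^ K := pow_pos (rho_pos hd) K
  exact nonneg_of_mul_nonneg_right h (by positivity)

end

end Vale.Agent.P224.POS.RH
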