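import Vale.Agent.P224.POS.Check

/-!
Sums of squares with vectors: polynomial expressions for `∑ G i j ⟪el i, el j⟫`, where the elements
are products of polynomials with the vectors `a₁, d₁, a₂, d₂, e` (numbers 1, …, 5; number 0 stands for
the scalar 1), and their positivity.

Variables: 0 = w, 1 = T, 2 = b, 3 = g, 4 = A₁, 5 = D₁, 6 = A₂, 7 = D₂, 8 = E.
-/

namespace Vale.Agent.P224.POS

noncomputable section

open scoped RealInnerProductSpace

/-- the table of inner products -/
def grTab : List (List PE) :=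
  [[.c 1, .c 0, .c 0, .c 0, .c 0, .c 0],
   [.c 0, .sub (.c 1) (.v 0), .c 0, .v 1, .v 2, .v 4],
   [.c 0, .c 0, .v 0, .sub (.c 0) (.v 2), .sub (.c 0) (.v 1), .v 5],
   [.c 0, .v 1, .sub (.c 0) (.v 2), .sub (.c 1) (.v 3), .c 0, .v 6],
   [.c 0, .v 2, .sub (.c 0) (.v 1), .c 0, .v 3, .v 7],
   [.c 0, .v 4, .v 5, .v 6, .v 7, .v 8]]

/-- the inner product of the vectors number `k` and `l` -/
def gr (k l : Nat) : PE := lk (fun _ => PE.c 0) (lk (fun _ => []) grTab k) l

/-- the factor of an entry in a lower triangular row: `2` unless it is the last one -/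
def fac (a : Int) (tl : List Int) : Int :=
  List.rec (motive := fun _ => Int) a (fun _ _ _ => Int.mul 2 a) tl

/-- one row: the sum of `c_j p_j ⟪v_k, v_{k_j}⟫` -/
def rowS (k : Nat) (row : List Int) (els : List (Nat × PE)) : PE :=
  List.rec (motive := fun _ => List (Nat × PE) → PE) (fun _ => PE.c 0)
    (fun a tl ih els => List.rec (motive := fun _ => PE) (PE.c 0)
      (fun e es _ => PE.add (PE.mul (PE.c (fac a tl)) (PE.mul e.2 (gr k e.1))) (ih es)) els)
    row els

/-- the sum over all pairs (`all` = all elements, `G` = the lower triangular rows) -/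
def blkS (all : List (Nat × PE)) (G : List (List Int)) (els : List (Nat × PE)) : PE :=
  List.rec (motive := fun _ => List (Nat × PE) → PE) (fun _ => PE.c 0)
    (fun r _ ih els => List.rec (motive := fun _ => PE) (PE.c 0)
      (fun e es _ => PE.add (PE.mul e.2 (rowS e.1 r all)) (ih es)) els)
    G els

/-- a block: elements (number of the vector, polynomial), lower triangular integer matrix -/
structure Blk where
  /-- the elements -/
  els : List (Nat × PE)
  /-- the rows -/
  G : List (List Int)

/-- the expression of a block -/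
def Blk.pe (B : Blk) : PE := blkS B.els B.G B.els

/-- the rows have lengths `n + 1, n + 2, …` -/
def tri (G : List (List Int)) (n : Nat) : Bool :=
  List.rec (motive := fun _ => Nat → Bool) (fun _ => true)
    (fun r _ ih n => Bool.rec (motive := fun _ => Bool) false (ih (Nat.succ n))
      (Nat.beq (List.length r) (Nat.succ n))) G n

/-- the entries of the symmetric matrix -/
def gij (G : List (List Int)) (i j : ℕ) : ℤ := (G.getD (max i j) []).getD (min i j) 0

/-- positivity of the quadratic form -/
def QPos (G : List (List Int)) : Prop :=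
  ∀ x : ℕ → ℝ, 0 ≤ ∑ i ∈ Finset.range G.length, ∑ j ∈ Finset.range G.length,
    (gij G i j : ℝ) * (x i * x j)

/-- the number of the vector of an element -/
def elk (els : List (Nat × PE)) (i : ℕ) : ℕ := (els.getD i (0, PE.c 0)).1

/-- the polynomial of an element -/
def elp (els : List (Nat × PE)) (i : ℕ) : PE := (els.getD i (0, PE.c 0)).2

section

variable {R : Type*} [CommRing R] (f : ℕ → R)

lemma ev_rowS (k : ℕ) (row : List Int) (els : List (Nat × PE)) :
    PE.ev f (rowS k row els) = ∑ j ∈ Finset.range row.length,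
      ((fac (row.getD j 0) (row.drop (j + 1)) : ℤ) : R)
        * (PE.ev f (elp els j) * PE.ev f (gr k (elk els j))) := by
  induction row generalizing els with
  | nil => simp [rowS]
  | cons a tl ih =>
    rw [List.length_cons, Finset.sum_range_succ']
    cases els with
    | nil =>
      have e1 : rowS k (a :: tl) [] = PE.c 0 := rfl
      rw [e1]
      simp [elp]
    | cons e es =>
      have e1 : rowS k (a :: tl) (e :: es)
        = PE.add (PE.mul (PE.c (fac a tl)) (PE.mul e.2 (gr k e.1))) (rowS k tl es) := rfl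
      rw [e1, PE.ev_add, ih es, PE.ev_mul, PE.ev_mul, PE.ev_c, add_comm]
      rfl

lemma ev_blkS (all : List (Nat × PE)) (G : List (List Int)) (els : List (Nat × PE)) :
    PE.ev f (blkS all G els) = ∑ i ∈ Finset.range G.length,
      PE.ev f (elp els i) * PE.ev f (rowS (elk els i) (G.getD i []) all) := by
  induction G generalizing els with
  | nil => simp [blkS]
  | cons r tl ih =>
    rw [List.length_cons, Finset.sum_range_succ']
    cases els with
    | nil =>
      have e1 : blkS all (r :: tl) [] = PE.c 0 := rfl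
      rw [e1]
      simp [elp]
    | cons e es =>
      have e1 : blkS all (r :: tl) (e :: es)
        = PE.add (PE.mul e.2 (rowS e.1 r all)) (blkS all tl es) := rfl
      rw [e1, PE.ev_add, ih es, PE.ev_mul, add_comm]
      rfl

lemma tri_spec (G : List (List Int)) (n : ℕ) (h : tri G n = true) :
    ∀ i < G.length, (G.getD i []).length = n + i + 1 := by
  induction G generalizing n with
  | nil => intro i hi; exact absurd hi (by simp)
  | cons r tl ih =>
    have e1 : tri (r :: tl) n = Bool.rec (motive := fun _ => Bool) false (tri tl (Nat.succ n))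
      (Nat.beq (List.length r) (Nat.succ n)) := rfl
    rw [e1] at h
    cases h1 : Nat.beq (List.length r) (Nat.succ n) with
    | false => rw [h1] at h; exact absurd h (by simp)
    | true =>
      rw [h1] at h
      intro i hi
      cases i with
      | zero => simpa using Nat.eq_of_beq_eq_true h1
      | succ i =>
        rw [List.getD_cons_succ, ih (n + 1) h i (by simpa using hi)]
        omega

lemma fac_nil (a : ℤ) : fac a [] = a := rfl

lemma fac_ne (a : ℤ) {tl : List ℤ} (h : tl ≠ []) : fac a tl = 2 * a := by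
  cases tl with
  | nil => exact absurd rfl h
  | cons b t => rfl

/-- symmetrisation of a sum over pairs -/
lemma sum_sym (n : ℕ) (a : ℕ → ℕ → R) (F : ℕ → ℕ → R) (hF : ∀ i j, F i j = F j i) :
    ∑ i ∈ Finset.range n, ∑ j ∈ Finset.range (i + 1), (if j = i then 1 else 2) * (a i j * F i j)
      = ∑ i ∈ Finset.range n, ∑ j ∈ Finset.range n, a (max i j) (min i j) * F i j := by
  induction n with
  | zero => simp
  | succ n ih =>
    have e1 : ∑ i ∈ Finset.range n, ∑ j ∈ Finset.range (n + 1), a (max i j) (min i j) * F i j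
        = ∑ i ∈ Finset.range n, ∑ j ∈ Finset.range n, a (max i j) (min i j) * F i j
          + ∑ i ∈ Finset.range n, a n i * F n i := by
      rw [← Finset.sum_add_distrib]
      refine Finset.sum_congr rfl fun i hi => ?_
      have := Finset.mem_range.1 hi
      rw [Finset.sum_range_succ, max_eq_right this.le, min_eq_left this.le, hF i n]
    have e2 : ∑ j ∈ Finset.range (n + 1), a (max n j) (min n j) * F n j
        = ∑ i ∈ Finset.range n, a n i * F n i + a n n * F n n := by
      rw [Finset.sum_range_succ, max_self, min_self]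
      congr 1
      refine Finset.sum_congr rfl fun i hi => ?_
      have := Finset.mem_range.1 hi
      rw [max_eq_left this.le, min_eq_right this.le]
    have e3 : ∑ j ∈ Finset.range (n + 1), (if j = n then 1 else 2) * (a n j * F n j)
        = 2 * ∑ i ∈ Finset.range n, a n i * F n i + a n n * F n n := by
      rw [Finset.sum_range_succ, if_pos rfl, one_mul, Finset.mul_sum]
      congr 1
      refine Finset.sum_congr rfl fun i hi => ?_
      have := Finset.mem_range.1 hi
      rw [if_neg this.ne]
    rw [Finset.sum_range_succ, ih, e3,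
      Finset.sum_range_succ (fun i => ∑ j ∈ Finset.range (n + 1), a (max i j) (min i j) * F i j) n,
      e1, e2]
    ring

/-- the value of a block -/
theorem ev_blk (B : Blk) (htri : tri B.G 0 = true)
    (hsym : ∀ k l, PE.ev f (gr k l) = PE.ev f (gr l k)) :
    PE.ev f B.pe = ∑ i ∈ Finset.range B.G.length, ∑ j ∈ Finset.range B.G.length,
      (gij B.G i j : R) * (PE.ev f (elp B.els i) * PE.ev f (elp B.els j)
        * PE.ev f (gr (elk B.els i) (elk B.els j))) := by
  unfold Blk.pe
  rw [ev_blkS]
  have hs := sum_sym B.G.length (fun i j => (((B.G.getD i []).getD j 0 : ℤ) : R))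
    (fun i j => PE.ev f (elp B.els i) * PE.ev f (elp B.els j)
        * PE.ev f (gr (elk B.els i) (elk B.els j)))
    (fun i j => by rw [hsym (elk B.els i) (elk B.els j)]; ring)
  refine Eq.trans ?_ hs
  refine Finset.sum_congr rfl fun i hi => ?_
  have hl := tri_spec B.G 0 htri i (Finset.mem_range.1 hi)
  rw [zero_add] at hl
  rw [ev_rowS, hl, Finset.mul_sum]
  refine Finset.sum_congr rfl fun j hj => ?_
  have hj' := Finset.mem_range.1 hj
  by_cases hji : j = i
  · subst hji
    rw [if_pos rfl, List.drop_eq_nil_of_le hl.le, fac_nil]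
    ring
  · have : (B.G.getD i []).drop (j + 1) ≠ [] := by
      intro h0
      have := List.drop_eq_nil_iff.1 h0
      omega
    rw [if_neg hji, fac_ne _ this]
    push_cast
    ring

end

section

variable {V : Type*} [NormedAddCommGroup V] [InnerProductSpace ℝ V]

/-- positive semidefinite matrices give nonnegative forms of vectors -/
lemma quad_vec_nonneg {n : ℕ} (a : ℕ → ℕ → ℝ) (hs : ∀ i j, a i j = a j i)
    (h : ∀ x : ℕ → ℝ, 0 ≤ ∑ i ∈ Finset.range n, ∑ j ∈ Finset.range n, a i j * (x i * x j))
    (v : ℕ → V) :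
    0 ≤ ∑ i ∈ Finset.range n, ∑ j ∈ Finset.range n, a i j * ⟪v i, v j⟫ := by
  classical
  set A : Matrix (Fin n) (Fin n) ℝ := Matrix.of fun i j => a i j with hA
  have hpos : A.PosSemidef := by
    rw [Matrix.posSemidef_iff_dotProduct_mulVec]
    refine ⟨?_, fun x => ?_⟩
    · ext i j
      simp [hA, hs i j]
    · have := h (fun i => if hi : i < n then x ⟨i, hi⟩ else 0)
      have e : star x ⬝ᵥ A.mulVec x = ∑ i ∈ Finset.range n, ∑ j ∈ Finset.range n, a i j
          * ((if hi : i < n then x ⟨i, hi⟩ else 0) * (if hj : j < n then x ⟨j, hj⟩ else 0)) := by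
        rw [Finset.sum_range]
        simp only [dotProduct, Matrix.mulVec]
        refine Finset.sum_congr rfl fun i _ => ?_
        rw [Finset.sum_range, Finset.mul_sum]
        refine Finset.sum_congr rfl fun j _ => ?_
        simp [hA]
        ring
      rw [e]
      exact this
  obtain ⟨m, u, hu⟩ := Matrix.posSemidef_iff_eq_sum_vecMulVec.1 hpos
  have hij : ∀ i j : Fin n, a i j = ∑ k, u k i * u k j := by
    intro i j
    have := congrFun (congrFun hu i) j
    simpa [hA, Matrix.sum_apply, Matrix.vecMulVec_apply] using this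
  have e : ∑ i ∈ Finset.range n, ∑ j ∈ Finset.range n, a i j * ⟪v i, v j⟫
      = ∑ k : Fin m, ⟪∑ i : Fin n, u k i • v i, ∑ j : Fin n, u k j • v j⟫ := by
    rw [Finset.sum_range]
    have e1 : ∀ i : Fin n, ∑ j ∈ Finset.range n, a i j * ⟪v i, v j⟫
        = ∑ k : Fin m, ∑ j : Fin n, u k i * (u k j * ⟪v i, v j⟫) := by
      intro i
      rw [Finset.sum_range, Finset.sum_comm]
      refine Finset.sum_congr rfl fun j _ => ?_
      rw [hij, Finset.sum_mul]
      exact Finset.sum_congr rfl fun k _ => by ring
    rw [Finset.sum_congr rfl fun i _ => e1 i, Finset.sum_comm]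
    refine Finset.sum_congr rfl fun k _ => ?_
    rw [sum_inner]
    refine Finset.sum_congr rfl fun i _ => ?_
    rw [inner_sum]
    refine Finset.sum_congr rfl fun j _ => ?_
    rw [real_inner_smul_left, real_inner_smul_right]
  rw [e]
  exact Finset.sum_nonneg fun k _ => real_inner_self_nonneg

/-- the variables are the inner products of the vectors `v 1, …, v 5` as in the table -/
def IsGram (f : ℕ → ℝ) (v : ℕ → V) : Prop :=
  v 0 = 0 ∧ ∀ k l, PE.ev f (gr k l) = if k = 0 ∧ l = 0 then 1 else ⟪v k, v l⟫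

/-- the vectors number `0, 1, …, 5` and zero afterwards -/
def vec5 (a d a' d' e : V) (k : ℕ) : V := [0, a, d, a', d', e].getD k 0

lemma gr_ge {k l : ℕ} (h : 6 ≤ k ∨ 6 ≤ l) : gr k l = PE.c 0 := by
  unfold gr
  by_cases hk : 6 ≤ k
  · rw [lk_ge _ _ k (by simpa [grTab] using hk)]
    rfl
  · have hl : 6 ≤ l := h.resolve_left hk
    have hk' : k < 6 := not_le.1 hk
    have h6 : ∀ i < 6, (lk (fun _ => ([] : List PE)) grTab i).length = 6 := by
      intro i hi
      interval_cases i <;> rfl
    rw [lk_ge _ _ l (by rw [h6 k hk']; exact hl)]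

/-- the table from fifteen inner products -/
lemma isGram_vec5 {a d a' d' e : V} {w T b g A D A' D' E : ℝ} (f : ℕ → ℝ)
    (f0 : f 0 = w) (f1 : f 1 = T) (f2 : f 2 = b) (f3 : f 3 = g) (f4 : f 4 = A) (f5 : f 5 = D)
    (f6 : f 6 = A') (f7 : f 7 = D') (f8 : f 8 = E)
    (haa : ⟪a, a⟫ = 1 - w) (hdd : ⟪d, d⟫ = w) (had : ⟪a, d⟫ = 0)
    (haa' : ⟪a, a'⟫ = T) (had' : ⟪a, d'⟫ = b) (hda' : ⟪d, a'⟫ = -b) (hdd' : ⟪d, d'⟫ = -T)
    (ha'a' : ⟪a', a'⟫ = 1 - g) (ha'd' : ⟪a', d'⟫ = 0) (hd'd' : ⟪d', d'⟫ = g)
    (hae : ⟪a, e⟫ = A) (hde : ⟪d, e⟫ = D) (ha'e : ⟪a', e⟫ = A') (hd'e : ⟪d', e⟫ = D')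
    (hee : ⟪e, e⟫ = E) : IsGram f (vec5 a d a' d' e) := by
  refine ⟨rfl, fun k l => ?_⟩
  by_cases h : 6 ≤ k ∨ 6 ≤ l
  · rw [gr_ge h, if_neg (by omega), PE.ev_c]
    rcases h with h | h
    · have : vec5 a d a' d' e k = 0 := by
        unfold vec5
        rw [List.getD_eq_default _ _ (by simpa using h)]
      rw [this, inner_zero_left, Int.cast_zero]
    · have : vec5 a d a' d' e l = 0 := by
        unfold vec5
        rw [List.getD_eq_default _ _ (by simpa using h)]
      rw [this, inner_zero_right, Int.cast_zero]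
  · have hk : k < 6 := by omega
    have hl : l < 6 := by omega
    have cda : ⟪d, a⟫ = 0 := by rw [real_inner_comm]; exact had
    have ca'a : ⟪a', a⟫ = T := by rw [real_inner_comm]; exact haa'
    have cd'a : ⟪d', a⟫ = b := by rw [real_inner_comm]; exact had'
    have ca'd : ⟪a', d⟫ = -b := by rw [real_inner_comm]; exact hda'
    have cd'd : ⟪d', d⟫ = -T := by rw [real_inner_comm]; exact hdd'
    have cd'a' : ⟪d', a'⟫ = 0 := by rw [real_inner_comm]; exact ha'd'
    have cea : ⟪e, a⟫ = A := by rw [real_inner_comm]; exact hae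
    have ced : ⟪e, d⟫ = D := by rw [real_inner_comm]; exact hde
    have cea' : ⟪e, a'⟫ = A' := by rw [real_inner_comm]; exact ha'e
    have ced' : ⟪e, d'⟫ = D' := by rw [real_inner_comm]; exact hd'e
    interval_cases k <;> interval_cases l <;>
      simp only [gr, grTab, lk_zero, lk_succ, PE.ev_c, PE.ev_v, PE.ev_sub, vec5,
        List.getD_cons_zero, List.getD_cons_succ, inner_zero_left, inner_zero_right, f0, f1, f2, f3,
        f4, f5, f6, f7, f8, haa, hdd, had, haa', had', hda', hdd', ha'a', ha'd', hd'd', hae, hde,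
        ha'e, hd'e, hee, cda, ca'a, cd'a, ca'd, cd'd, cd'a', cea, ced, cea', ced', Int.cast_zero,
        Int.cast_one, zero_sub, and_self, and_false, false_and, if_true, if_false] <;> norm_num

variable {f : ℕ → ℝ} {v : ℕ → V}

lemma IsGram.sym (h : IsGram f v) (k l : ℕ) : PE.ev f (gr k l) = PE.ev f (gr l k) := by
  rw [h.2 k l, h.2 l k]
  by_cases hkl : k = 0 ∧ l = 0
  · rw [if_pos hkl, if_pos hkl.symm]
  · rw [if_neg hkl, if_neg fun h' => hkl h'.symm, real_inner_comm]

lemma gij_sym (G : List (List ℤ)) (i j : ℕ) : gij G i j = gij G j i := by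
  unfold gij
  rw [max_comm, min_comm]

/-- positivity of a block -/
theorem Blk.nonneg (B : Blk) (h : IsGram f v) (htri : tri B.G 0 = true) (hpos : QPos B.G) :
    0 ≤ PE.ev f B.pe := by
  rw [ev_blk f B htri h.sym]
  have h1 := quad_vec_nonneg (fun i j => (gij B.G i j : ℝ)) (fun i j => by rw [gij_sym]) hpos
    (fun i => PE.ev f (elp B.els i) • v (elk B.els i))
  have h2 := hpos (fun i => if elk B.els i = 0 then PE.ev f (elp B.els i) else 0)
  refine (add_nonneg h1 h2).trans (le_of_eq ?_)
  rw [← Finset.sum_add_distrib]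
  refine Finset.sum_congr rfl fun i _ => ?_
  rw [← Finset.sum_add_distrib]
  refine Finset.sum_congr rfl fun j _ => ?_
  rw [real_inner_smul_left, real_inner_smul_right, h.2]
  beta_reduce
  by_cases hi : elk B.els i = 0
  · by_cases hj : elk B.els j = 0
    · rw [if_pos hi, if_pos hj, if_pos ⟨hi, hj⟩, hi, h.1, inner_zero_left]
      ring
    · rw [if_neg hj, if_neg (fun h' : elk B.els i = 0 ∧ elk B.els j = 0 => hj h'.2)]
      ring
  · rw [if_neg hi, if_neg (fun h' : elk B.els i = 0 ∧ elk B.els j = 0 => hi h'.1)]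
    ring

/-- the sum of the blocks -/
def sumPE (L : List Blk) : PE :=
  List.rec (motive := fun _ => PE) (PE.c 0) (fun B _ ih => PE.add B.pe ih) L

/-- the right side of the identity: vector blocks and `25 - 36 E` times scalar blocks -/
def rhsPE (BV BS : List Blk) : PE :=
  PE.add (sumPE BV) (PE.mul (PE.sub (PE.c 25) (PE.mul (PE.c 36) (PE.v 8))) (sumPE BS))

lemma sumPE_nonneg (L : List Blk) (h : IsGram f v)
    (hL : ∀ B ∈ L, tri B.G 0 = true ∧ QPos B.G) : 0 ≤ PE.ev f (sumPE L) := by
  induction L with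
  | nil => simp [sumPE]
  | cons B L ih =>
    have e : sumPE (B :: L) = PE.add B.pe (sumPE L) := rfl
    rw [e, PE.ev_add]
    exact add_nonneg (B.nonneg h (hL B (by simp)).1 (hL B (by simp)).2)
      (ih fun B' hB' => hL B' (by simp [hB']))

/-- the right side is nonnegative -/
theorem sos_nonneg (BV BS : List Blk) (h : IsGram f v) (hE : f 8 ≤ 25 / 36)
    (hV : ∀ B ∈ BV, tri B.G 0 = true ∧ QPos B.G) (hS : ∀ B ∈ BS, tri B.G 0 = true ∧ QPos B.G) :
    0 ≤ PE.ev f (rhsPE BV BS) := by
  have e : PE.ev f (rhsPE BV BS)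
      = PE.ev f (sumPE BV) + (25 - 36 * f 8) * PE.ev f (sumPE BS) := by
    unfold rhsPE
    rw [PE.ev_add, PE.ev_mul, PE.ev_sub, PE.ev_mul, PE.ev_c, PE.ev_c, PE.ev_v]
    push_cast
    ring
  rw [e]
  exact add_nonneg (sumPE_nonneg BV h hV) (mul_nonneg (by linarith) (sumPE_nonneg BS h hS))

end

end

end Vale.Agent.P224.POS
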