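import Vale.Agent.P224.POS.Sos

/-!
Sums of squares with vectors, for an arbitrary table of inner products and arbitrary multipliers.
Vector number 0 stands for the scalar 1 (its row and column of the table are `1, 0, 0, …`).
-/

namespace Vale.Agent.P224.POS

noncomputable section

open scoped RealInnerProductSpace

/-- the inner product of the vectors number `k` and `l` in the table -/
def grT (tab : List (List PE)) (k l : Nat) : PE :=
  lk (fun _ => PE.c 0) (lk (fun _ => []) tab k) l

/-- one row: the sum of `c_j p_j ⟪v_k, v_{k_j}⟫` -/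
def rowT (tab : List (List PE)) (k : Nat) (row : List Int) (els : List (Nat × PE)) : PE :=
  List.rec (motive := fun _ => List (Nat × PE) → PE) (fun _ => PE.c 0)
    (fun a tl ih els => List.rec (motive := fun _ => PE) (PE.c 0)
      (fun e es _ => PE.add (PE.mul (PE.c (fac a tl)) (PE.mul e.2 (grT tab k e.1))) (ih es)) els)
    row els

/-- the sum over all pairs (`all` = all elements, `G` = the lower triangular rows) -/
def blkST (tab : List (List PE)) (all : List (Nat × PE)) (G : List (List Int))
    (els : List (Nat × PE)) : PE :=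
  List.rec (motive := fun _ => List (Nat × PE) → PE) (fun _ => PE.c 0)
    (fun r _ ih els => List.rec (motive := fun _ => PE) (PE.c 0)
      (fun e es _ => PE.add (PE.mul e.2 (rowT tab e.1 r all)) (ih es)) els)
    G els

/-- the expression of a block -/
def blkT (tab : List (List PE)) (B : Blk) : PE := blkST tab B.els B.G B.els

section

variable {R : Type*} [CommRing R] (tab : List (List PE)) (f : ℕ → R)

lemma ev_rowT (k : ℕ) (row : List Int) (els : List (Nat × PE)) :
    PE.ev f (rowT tab k row els) = ∑ j ∈ Finset.range row.length,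
      ((fac (row.getD j 0) (row.drop (j + 1)) : ℤ) : R)
        * (PE.ev f (elp els j) * PE.ev f (grT tab k (elk els j))) := by
  induction row generalizing els with
  | nil => simp [rowT]
  | cons a tl ih =>
    rw [List.length_cons, Finset.sum_range_succ']
    cases els with
    | nil =>
      have e1 : rowT tab k (a :: tl) [] = PE.c 0 := rfl
      rw [e1]
      simp [elp]
    | cons e es =>
      have e1 : rowT tab k (a :: tl) (e :: es)
        = PE.add (PE.mul (PE.c (fac a tl)) (PE.mul e.2 (grT tab k e.1))) (rowT tab k tl es) := rfl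
      rw [e1, PE.ev_add, ih es, PE.ev_mul, PE.ev_mul, PE.ev_c, add_comm]
      rfl

lemma ev_blkST (all : List (Nat × PE)) (G : List (List Int)) (els : List (Nat × PE)) :
    PE.ev f (blkST tab all G els) = ∑ i ∈ Finset.range G.length,
      PE.ev f (elp els i) * PE.ev f (rowT tab (elk els i) (G.getD i []) all) := by
  induction G generalizing els with
  | nil => simp [blkST]
  | cons r tl ih =>
    rw [List.length_cons, Finset.sum_range_succ']
    cases els with
    | nil =>
      have e1 : blkST tab all (r :: tl) [] = PE.c 0 := rfl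
      rw [e1]
      simp [elp]
    | cons e es =>
      have e1 : blkST tab all (r :: tl) (e :: es)
        = PE.add (PE.mul e.2 (rowT tab e.1 r all)) (blkST tab all tl es) := rfl
      rw [e1, PE.ev_add, ih es, PE.ev_mul, add_comm]
      rfl

/-- the value of a block -/
theorem ev_blkT (B : Blk) (htri : tri B.G 0 = true)
    (hsym : ∀ k l, PE.ev f (grT tab k l) = PE.ev f (grT tab l k)) :
    PE.ev f (blkT tab B) = ∑ i ∈ Finset.range B.G.length, ∑ j ∈ Finset.range B.G.length,
      (gij B.G i j : R) * (PE.ev f (elp B.els i) * PE.ev f (elp B.els j)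
        * PE.ev f (grT tab (elk B.els i) (elk B.els j))) := by
  unfold blkT
  rw [ev_blkST]
  have hs := sum_sym B.G.length (fun i j => (((B.G.getD i []).getD j 0 : ℤ) : R))
    (fun i j => PE.ev f (elp B.els i) * PE.ev f (elp B.els j)
        * PE.ev f (grT tab (elk B.els i) (elk B.els j)))
    (fun i j => by rw [hsym (elk B.els i) (elk B.els j)]; ring)
  refine Eq.trans ?_ hs
  refine Finset.sum_congr rfl fun i hi => ?_
  have hl := tri_spec B.G 0 htri i (Finset.mem_range.1 hi)
  rw [zero_add] at hl
  rw [ev_rowT, hl, Finset.mul_sum]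
  refine Finset.sum_congr rfl fun j hj => ?_
  have hj' := Finset.mem_range.1 hj
  by_cases hji : j = i
  · subst hji
    rw [if_pos rfl, List.drop_eq_nil_of_le hl.le, fac_nil]
    ring
  · have : (B.G.getD i []).drop (j + 1) ≠ [] := by
      intro h0
      have := List.drop_eq_nil_iff.1 h0
      omega
    rw [if_neg hji, fac_ne _ this]
    push_cast
    ring

end

section

variable {V : Type*} [NormedAddCommGroup V] [InnerProductSpace ℝ V]

/-- the table consists of the inner products of the vectors `v 1, v 2, …` -/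
def IsGramT (tab : List (List PE)) (f : ℕ → ℝ) (v : ℕ → V) : Prop :=
  v 0 = 0 ∧ ∀ k l, PE.ev f (grT tab k l) = if k = 0 ∧ l = 0 then 1 else ⟪v k, v l⟫

lemma grT_ge {tab : List (List PE)} {n k l : ℕ} (htab : tab.length = n)
    (hrow : ∀ r ∈ tab, r.length = n) (h : n ≤ k ∨ n ≤ l) : grT tab k l = PE.c 0 := by
  unfold grT
  by_cases hk : n ≤ k
  · rw [lk_ge _ _ k (by omega)]
    rfl
  · have hl : n ≤ l := h.resolve_left hk
    have hk' : k < tab.length := by omega
    have h6 : (lk (fun _ => ([] : List PE)) tab k).length = n := by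
      rw [lk_lt _ [] _ _ hk', List.getD_eq_getElem _ _ hk']
      exact hrow _ (List.getElem_mem hk')
    rw [lk_ge _ _ l (by rw [h6]; exact hl)]

/-- the entries inside the table suffice -/
lemma isGramT_of {tab : List (List PE)} {n : ℕ} (hn : 0 < n) (htab : tab.length = n)
    (hrow : ∀ r ∈ tab, r.length = n) {f : ℕ → ℝ} {v : ℕ → V} (h0 : v 0 = 0)
    (hv : ∀ k, n ≤ k → v k = 0)
    (h : ∀ k < n, ∀ l < n, PE.ev f (grT tab k l) = if k = 0 ∧ l = 0 then 1 else ⟪v k, v l⟫) :
    IsGramT tab f v := by
  refine ⟨h0, fun k l => ?_⟩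
  by_cases hkl : n ≤ k ∨ n ≤ l
  · rw [grT_ge htab hrow hkl, if_neg (by omega), PE.ev_c]
    rcases hkl with hk | hl
    · rw [hv k hk, inner_zero_left, Int.cast_zero]
    · rw [hv l hl, inner_zero_right, Int.cast_zero]
  · exact h k (by omega) l (by omega)

variable {tab : List (List PE)} {f : ℕ → ℝ} {v : ℕ → V}

lemma IsGramT.sym (h : IsGramT tab f v) (k l : ℕ) :
    PE.ev f (grT tab k l) = PE.ev f (grT tab l k) := by
  rw [h.2 k l, h.2 l k]
  by_cases hkl : k = 0 ∧ l = 0
  · rw [if_pos hkl, if_pos hkl.symm]
  · rw [if_neg hkl, if_neg fun h' => hkl h'.symm, real_inner_comm]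

/-- positivity of a block -/
theorem blkT_nonneg (B : Blk) (h : IsGramT tab f v) (htri : tri B.G 0 = true) (hpos : QPos B.G) :
    0 ≤ PE.ev f (blkT tab B) := by
  rw [ev_blkT tab f B htri h.sym]
  have h1 := quad_vec_nonneg (fun i j => (gij B.G i j : ℝ)) (fun i j => by rw [gij_sym]) hpos
    (fun i => PE.ev f (elp B.els i) • v (elk B.els i))
  have h2 := hpos (fun i => if elk B.els i = 0 then PE.ev f (elp B.els i) else 0)
  refine (add_nonneg h1 h2).trans (le_of_eq ?_)
  rw [← Finset.sum_add_distrib]
  refine Finset.sum_congr rfl fun i _ => ?_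
  rw [← Finset.sum_add_distrib]
  refine Finset.sum_congr rfl fun j _ => ?_
  rw [real_inner_smul_left, real_inner_smul_right, h.2]
  beta_reduce
  by_cases hi : elk B.els i = 0
  · by_cases hj : elk B.els j = 0
    · rw [if_pos hi, if_pos hj, if_pos ⟨hi, hj⟩, hi, h.1, inner_zero_left]
      ring
    · rw [if_neg hj, if_neg (fun h' : elk B.els i = 0 ∧ elk B.els j = 0 => hj h'.2)]
      ring
  · rw [if_neg hi, if_neg (fun h' : elk B.els i = 0 ∧ elk B.els j = 0 => hi h'.1)]
    ring

/-- the sum of the blocks with multipliers -/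
def rhsT (tab : List (List PE)) (L : List (PE × Blk)) : PE :=
  List.rec (motive := fun _ => PE) (PE.c 0)
    (fun B _ ih => PE.add (PE.mul B.1 (blkT tab B.2)) ih) L

/-- the right side is nonnegative -/
theorem sosT_nonneg (L : List (PE × Blk)) (h : IsGramT tab f v)
    (hL : ∀ B ∈ L, tri B.2.G 0 = true ∧ QPos B.2.G) (hm : ∀ B ∈ L, 0 ≤ PE.ev f B.1) :
    0 ≤ PE.ev f (rhsT tab L) := by
  induction L with
  | nil => simp [rhsT]
  | cons B L ih =>
    have e : rhsT tab (B :: L) = PE.add (PE.mul B.1 (blkT tab B.2)) (rhsT tab L) := rfl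
    rw [e, PE.ev_add, PE.ev_mul]
    exact add_nonneg (mul_nonneg (hm B (by simp))
      (blkT_nonneg B.2 h (hL B (by simp)).1 (hL B (by simp)).2))
      (ih (fun B' hB' => hL B' (by simp [hB'])) (fun B' hB' => hm B' (by simp [hB'])))

end

end

end Vale.Agent.P224.POS
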