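import Vale.Agent.P224.POS.Lhs
import Vale.Agent.P224.POS.Sos

/-!
The substitution `a, d = (x ± y)/2`, `a', d' = (N ± w)/2` for pair data: Gram table, the passage
between the nine pair data and the nine new data, and nonnegativity from a verified identity.
-/

namespace Vale.Agent.P224.POS

open Vale.Agent.P224.UE
open scoped RealInnerProductSpace

set_option linter.unusedSimpArgs false

noncomputable section

/-- the new data `(w, T, b, g, A1, D1, A2, D2, E)` of pair data `(s, t, p, c, n1, n2, x1, x2, E)` -/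
def ndat (d : R9) : R9 :=
  ![(1 - d 0) / 2, (d 1 + d 2) / 4, (d 2 - d 1) / 4, (1 - d 3) / 2, (d 6 + d 7) / 2,
    (d 6 - d 7) / 2, (d 4 + d 5) / 2, (d 4 - d 5) / 2, d 8]

/-- pair data from the new data -/
def odat (u : R9) : R9 :=
  ![1 - 2 * u 0, 2 * (u 1 - u 2), 2 * (u 1 + u 2), 1 - 2 * u 3, u 6 + u 7, u 6 - u 7, u 4 + u 5,
    u 4 - u 5, u 8]

lemma odat_ndat (d : R9) : odat (ndat d) = d := by
  ext i
  fin_cases i <;> simp [odat, ndat] <;> ring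

lemma cd_ge (d : R9) {i : ℕ} (h : 9 ≤ i) : cd d i = 0 := by
  unfold cd
  rw [dif_neg (not_lt.2 h)]

/-- the pair data as polynomials of the new data -/
def sbF (i : ℕ) : PE :=
  match i with
  | 0 => PE.sub (PE.c 1) (PE.mul (PE.c 2) (PE.v 0))
  | 1 => PE.mul (PE.c 2) (PE.sub (PE.v 1) (PE.v 2))
  | 2 => PE.mul (PE.c 2) (PE.add (PE.v 1) (PE.v 2))
  | 3 => PE.sub (PE.c 1) (PE.mul (PE.c 2) (PE.v 3))
  | 4 => PE.add (PE.v 6) (PE.v 7)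
  | 5 => PE.sub (PE.v 6) (PE.v 7)
  | 6 => PE.add (PE.v 4) (PE.v 5)
  | 7 => PE.sub (PE.v 4) (PE.v 5)
  | i => PE.v i

lemma ev_sbF (u : R9) (i : ℕ) : PE.ev (cd u) (sbF i) = cd (odat u) i := by
  match i with
  | 0 => simp [sbF, odat, cd]
  | 1 => simp [sbF, odat, cd]
  | 2 => simp [sbF, odat, cd]
  | 3 => simp [sbF, odat, cd]
  | 4 => simp [sbF, odat, cd]
  | 5 => simp [sbF, odat, cd]
  | 6 => simp [sbF, odat, cd]
  | 7 => simp [sbF, odat, cd]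
  | 8 => simp [sbF, odat, cd]
  | (n + 9) =>
    rw [show sbF (n + 9) = PE.v (n + 9) from rfl, PE.ev_v, cd_ge _ (by omega), cd_ge _ (by omega)]

lemma ev_sbF_ndat (d : R9) (i : ℕ) : PE.ev (cd (ndat d)) (sbF i) = cd d i := by
  rw [ev_sbF, odat_ndat]

lemma ev_sb_sbF (d : R9) (P : PE) : PE.ev (cd (ndat d)) (PE.sb sbF P) = PE.ev (cd d) P := by
  rw [PE.ev_sb]
  congr 1
  funext i
  exact ev_sbF_ndat d i

/-- the exchange of the two points in the new data -/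
lemma ndat_sw (d : R9) :
    ndat (sw9 d) = ![ndat d 0, ndat d 1, -ndat d 2, ndat d 3, ndat d 4, -ndat d 5, ndat d 6,
      -ndat d 7, ndat d 8] := by
  ext i
  fin_cases i <;> simp [ndat, sw9] <;> ring

section

variable {E : Type*} [NormedAddCommGroup E] [InnerProductSpace ℝ E]

/-- **Gram table** of `a, d = (x ± y)/2`, `a', d' = (N ± w)/2`, `e` for unit vectors with
`⟪x, N⟫ = 0 = ⟪y, w⟫`. -/
theorem isGram_dv {x N y w : E} (e : E) (hx : ‖x‖ = 1) (hN : ‖N‖ = 1) (hy : ‖y‖ = 1)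
    (hw : ‖w‖ = 1) (hxN : ⟪x, N⟫ = 0) (hyw : ⟪y, w⟫ = 0) :
    IsGram (cd (ndat (dv x N y w e))) (vec5 ((1 / 2 : ℝ) • (x + y)) ((1 / 2 : ℝ) • (x - y))
      ((1 / 2 : ℝ) • (N + w)) ((1 / 2 : ℝ) • (N - w)) e) := by
  have e1 : ⟪x, x⟫ = 1 := by rw [real_inner_self_eq_norm_sq, hx]; norm_num
  have e2 : ⟪N, N⟫ = 1 := by rw [real_inner_self_eq_norm_sq, hN]; norm_num
  have e3 : ⟪y, y⟫ = 1 := by rw [real_inner_self_eq_norm_sq, hy]; norm_num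
  have e4 : ⟪w, w⟫ = 1 := by rw [real_inner_self_eq_norm_sq, hw]; norm_num
  have c1 : ⟪N, x⟫ = 0 := by rw [real_inner_comm]; exact hxN
  have c2 : ⟪w, y⟫ = 0 := by rw [real_inner_comm]; exact hyw
  have c3 : ⟪y, x⟫ = ⟪x, y⟫ := real_inner_comm _ _
  have c4 : ⟪w, x⟫ = ⟪x, w⟫ := real_inner_comm _ _
  have c5 : ⟪y, N⟫ = ⟪N, y⟫ := real_inner_comm _ _
  have c6 : ⟪w, N⟫ = ⟪N, w⟫ := real_inner_comm _ _
  refine isGram_vec5 (w := (1 - ⟪x, y⟫) / 2) (T := (⟪x, w⟫ + ⟪N, y⟫) / 4)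
    (b := (⟪N, y⟫ - ⟪x, w⟫) / 4) (g := (1 - ⟪N, w⟫) / 2) (A := (⟪x, e⟫ + ⟪y, e⟫) / 2)
    (D := (⟪x, e⟫ - ⟪y, e⟫) / 2) (A' := (⟪N, e⟫ + ⟪w, e⟫) / 2) (D' := (⟪N, e⟫ - ⟪w, e⟫) / 2)
    (E := ⟪e, e⟫) _ rfl rfl rfl rfl rfl rfl rfl rfl rfl ?_ ?_ ?_ ?_ ?_ ?_ ?_ ?_ ?_ ?_ ?_ ?_ ?_ ?_
    rfl <;>
  · simp only [inner_add_left, inner_add_right, inner_sub_left, inner_sub_right,
      real_inner_smul_left, real_inner_smul_right, e1, e2, e3, e4, hxN, hyw, c1, c2, c3, c4, c5, c6]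
    ring

/-- **Nonnegativity from a verified identity**: if twice the sum of squares is the expression `P`
in the new variables, then `P` is nonnegative on the pair data with `‖e‖ ^ 2 ≤ 25 / 36`. -/
theorem nonneg_of_identity {P : PE} {BV BS : List Blk} (k : Int) (hk : 0 ≤ k)
    (hid : ∀ f : ℕ → ℝ, (∀ i, 9 ≤ i → f i = 0) →
      PE.ev f (PE.sb sbF P) = PE.ev f (PE.mul (PE.c k) (rhsPE BV BS)))
    (hV : ∀ B ∈ BV, tri B.G 0 = true ∧ QPos B.G) (hS : ∀ B ∈ BS, tri B.G 0 = true ∧ QPos B.G)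
    {e x N y w : E} (he : ‖e‖ ^ 2 ≤ 25 / 36) (hx : ‖x‖ = 1) (hN : ‖N‖ = 1) (hy : ‖y‖ = 1)
    (hw : ‖w‖ = 1) (hxN : ⟪x, N⟫ = 0) (hyw : ⟪y, w⟫ = 0) :
    0 ≤ PE.ev (cd (dv x N y w e)) P := by
  rw [← ev_sb_sbF, hid _ fun i hi => cd_ge _ hi, PE.ev_mul, PE.ev_c]
  have h8 : cd (ndat (dv x N y w e)) 8 ≤ 25 / 36 := by
    have : cd (ndat (dv x N y w e)) 8 = ⟪e, e⟫ := rfl
    rw [this, real_inner_self_eq_norm_sq]
    exact he
  exact mul_nonneg (by exact_mod_cast hk)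
    (sos_nonneg BV BS (isGram_dv e hx hN hy hw hxN hyw) h8 hV hS)

/-- the same with the kernel check of the identity -/
theorem nonneg_of_chk {P : PE} {BV BS : List Blk} {Ms : List ℕ} (k : Int) (hk : 0 ≤ k)
    (hid : chk Ms (PE.sub (PE.sb sbF P) (PE.mul (PE.c k) (rhsPE BV BS))) = true)
    (hV : ∀ B ∈ BV, tri B.G 0 = true ∧ QPos B.G) (hS : ∀ B ∈ BS, tri B.G 0 = true ∧ QPos B.G)
    {e x N y w : E} (he : ‖e‖ ^ 2 ≤ 25 / 36) (hx : ‖x‖ = 1) (hN : ‖N‖ = 1) (hy : ‖y‖ = 1)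
    (hw : ‖w‖ = 1) (hxN : ⟪x, N⟫ = 0) (hyw : ⟪y, w⟫ = 0) :
    0 ≤ PE.ev (cd (dv x N y w e)) P :=
  nonneg_of_identity k hk (fun f hf => ev_eq_of_chk hid f fun i hi => hf i (by omega)) hV hS he hx
    hN hy hw hxN hyw

end

end

end Vale.Agent.P224.POS
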