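import Vale.Agent.P224.UE.LawS
import Vale.Agent.P224.POS.Check

/-!
The closed form of the value of a list of row terms with integer coefficients.
-/

namespace Vale.Agent.P224.POS

open Vale.Agent.P224.UE

/-- the real coefficients: integers over a common denominator -/
noncomputable def scaled (D : ℝ) (l : List (ℤ × RTerm)) : List (ℝ × RTerm) :=
  l.map fun cT => ((cT.1 : ℝ) / D, cT.2)

lemma scaled_nil (D : ℝ) : scaled D [] = [] := rfl

lemma scaled_cons (D : ℝ) (cT : ℤ × RTerm) (l : List (ℤ × RTerm)) :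
    scaled D (cT :: l) = ((cT.1 : ℝ) / D, cT.2) :: scaled D l := rfl

lemma scaled_ok {D : ℝ} {l : List (ℤ × RTerm)} (h : (l.all fun cT => cT.2.ok) = true) :
    ∀ cT ∈ scaled D l, cT.2.ok = true := by
  intro cT hcT
  unfold scaled at hcT
  rw [List.mem_map] at hcT
  obtain ⟨a, ha, rfl⟩ := hcT
  exact List.all_eq_true.1 h a ha

/-- five times the moments, `u` and `r` are the variables `0` and `1` -/
def momPE (a b : ℕ) : PE :=
  match a, b with
  | 0, 0 => .c 5
  | 1, 0 => .mul (.c 5) (.v 0)
  | 2, 0 => .mul (.c 5) (.v 1)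
  | 0, 2 => .sub (.v 0) (.v 1)
  | _, _ => .c 0

/-- five times the value of a term -/
def vPE (T : RTerm) : PE :=
  if T.sub = true then .c 0
  else .mul (.c (if T.fam = 0 then 1 else -1)) (.mul (.pow (.v 0) T.l) (momPE T.kn T.kx))

/-- five times the value of a list -/
def rvalPE : List (ℤ × RTerm) → PE
  | [] => .c 0
  | cT :: l => .add (.mul (.c cT.1) (vPE cT.2)) (rvalPE l)

/-- the environment -/
def ur (u r : ℝ) : ℕ → ℝ
  | 0 => u
  | 1 => r
  | _ => 0

lemma momPE_ev (u r : ℝ) (a b : ℕ) : PE.ev (ur u r) (momPE a b) = 5 * mom u r a b := by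
  unfold momPE mom
  split <;> simp [ur]
  ring

lemma vPE_ev (u r : ℝ) (T : RTerm) : PE.ev (ur u r) (vPE T) = 5 * T.V u r := by
  unfold vPE RTerm.V
  by_cases h : T.sub = true
  · rw [if_pos h, if_pos h]
    simp
  · rw [if_neg h, if_neg h, PE.ev_mul, PE.ev_mul, PE.ev_pow, PE.ev_c, momPE_ev, PE.ev_v]
    change _ * (u ^ T.l * _) = _
    split_ifs
    · push_cast
      ring
    · push_cast
      ring

lemma rvalPE_ev {D : ℝ} (u r : ℝ) (l : List (ℤ × RTerm)) :
    PE.ev (ur u r) (rvalPE l) / D = 5 * rval (scaled D l) u r := by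
  induction l with
  | nil => simp [rvalPE, scaled_nil, rval]
  | cons cT l ih =>
    rw [rvalPE, PE.ev_add, PE.ev_mul, PE.ev_c, vPE_ev, add_div, ih, scaled_cons]
    unfold rval
    simp only [List.map_cons, List.sum_cons]
    ring

/-- the closed form of the value of a list, verified by the kernel -/
theorem rval_eq {D : ℝ} {l : List (ℤ × RTerm)} {q : PE}
    (h : chk [] ((rvalPE l).sub q) = true) (u r : ℝ) :
    rval (scaled D l) u r = PE.ev (ur u r) q / (5 * D) := by
  have h1 := ev_eq_of_chk h (ur u r) (fun i hi => by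
    match i with
    | 0 => simp at hi
    | 1 => simp at hi
    | n + 2 => rfl)
  rw [mul_comm, ← div_div, ← h1, rvalPE_ev]
  ring

end Vale.Agent.P224.POS
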