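import Vale.Agent.P224.POS.Z
import Vale.Agent.P224.POS.Lhs
import Vale.Agent.P224.POS.DTerms
import Vale.Agent.P224.POS.LawNum

/-!
The assembly with the numbers of the certificate in dimension four.
-/

namespace Vale.Agent.P224.POS

open MeasureTheory Set Filter Function Module Vale.Agent.P224 Vale.Agent.P224.UE
open Vale.Agent.P224.SM2 hiding ker
open scoped Topology RealInnerProductSpace ENNReal ContDiff Manifold

set_option linter.unusedSectionVars false

/-- the left side of the certificate -/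
noncomputable def lhs4 : PE :=
  lhsP 2359296 0 0 (-77675692500) 154263667500 (-126646605000) (-46617570000) 51876945000
    12575542500 0 cT

lemma cT_q : ∀ cT' ∈ cT, cT'.2.q ≤ 2 := by decide

lemma rl_cT : rl cD cT = cL := rfl

/-- the pointwise inequality from the positivity of the polynomial -/
lemma pos4 {d : R9} (hs : d 0 < 1) (h : 0 ≤ PE.ev (cd d) lhs4) :
    0 ≤ Lr d + W9 0 0 (-(3452253 / 1048576)) (6856163 / 1048576) (-(2814369 / 524288))
      (-(517973 / 262144)) (1152821 / 524288) (558913 / 1048576) 0 d + rsum cL d := by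
  have h1 := nonneg_of_lhsP hs (D4 := 2359296) (D := cD) (by unfold cD; norm_num)
    (by unfold cD; norm_num) 0 0 (-77675692500) 154263667500 (-126646605000) (-46617570000)
    51876945000 12575542500 0 cT_q h
  rw [rl_cT] at h1
  refine h1.trans (le_of_eq ?_)
  unfold cD
  norm_num

section

variable {V W M : Type*} [NormedAddCommGroup V] [InnerProductSpace ℝ V] [FiniteDimensional ℝ V]
  [NormedAddCommGroup W] [InnerProductSpace ℝ W] [FiniteDimensional ℝ W]
  [TopologicalSpace M] [ChartedSpace V M]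
  [MeasurableSpace V] [BorelSpace V] [MeasurableSpace M] [BorelSpace M]
  [IsManifold 𝓘(ℝ, V) ∞ M] [CompactSpace M] [T2Space M] [ConnectedSpace M]
  [MeasurableSpace W] [BorelSpace W]

/-- The sharp bound from the two remaining facts. -/
theorem main4_of (hV : finrank ℝ V = 4) (hW : finrank ℝ W = finrank ℝ V + 2)
    {F : M → W} (hF : SphImm V F) (hmin : ∀ x n, IsUnitNormal V F x n → meanCurv V F x n = 0)
    (hng : ¬ ∃ a : W, a ≠ 0 ∧ ∀ x, ⟪F x, a⟫ = 0)
    (hL : ∀ N : M → W, ContMDiff 𝓘(ℝ, V) 𝓘(ℝ, W) ∞ N → (∀ x, IsUnitNormal V F x (N x)) →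
      Injective F → ∀ e : W, Integrable (fun q => Lr (dat F N e q)) ((volM V F).prod (volM V F)) ∧
        ∫ q, Lr (dat F N e q) ∂((volM V F).prod (volM V F))
          + 3 / 2 * sphereVol 4 * (volM V F).real univ
          ≤ (volM V F).real univ ^ 2
            + (3 * Real.log 2 - 3 / 2) * ‖∫ x, N x ∂(volM V F)‖ ^ 2)
    (hpos : ∀ e x N y w : W, ‖e‖ ^ 2 ≤ 25 / 36 → ‖x‖ = 1 → ‖N‖ = 1 → ‖y‖ = 1 → ‖w‖ = 1 →
      ⟪x, N⟫ = 0 → ⟪y, w⟫ = 0 → ⟪x, y⟫ < 1 → 0 ≤ PE.ev (cd (dv x N y w e)) lhs4) :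
    ENNReal.ofReal (leastClifford (finrank ℝ V)) ≤ volM V F univ := by
  refine main4_of_cert hV hW hF hmin hng cL_ok hL (fun e x N y w he hx hN hy hw hxN hyw hs =>
    pos4 hs (hpos e x N y w he hx hN hy hw hxN hyw hs)) ?_
  intro Θ u r h1 h2 hu hT hr1 hr2
  exact law_neg_S h1 h2 hu hT hr1 hr2 (rval_cL u r)

end

end Vale.Agent.P224.POS
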