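import Vale.Agent.P224.POS.Z4
import Vale.Agent.P224.POS.Id63

/-!
The assembly with the verified certificate: only the static inequality is left.
-/

namespace Vale.Agent.P224.POS

open MeasureTheory Set Filter Function Module Vale.Agent.P224 Vale.Agent.P224.UE
open Vale.Agent.P224.SM2 hiding ker
open scoped Topology RealInnerProductSpace ENNReal ContDiff Manifold

set_option linter.unusedSectionVars false

lemma lhs4_eq : lhs4 = P63 := rfl

section

variable {V W M : Type*} [NormedAddCommGroup V] [InnerProductSpace ℝ V] [FiniteDimensional ℝ V]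
  [NormedAddCommGroup W] [InnerProductSpace ℝ W] [FiniteDimensional ℝ W]
  [TopologicalSpace M] [ChartedSpace V M]
  [MeasurableSpace V] [BorelSpace V] [MeasurableSpace M] [BorelSpace M]
  [IsManifold 𝓘(ℝ, V) ∞ M] [CompactSpace M] [T2Space M] [ConnectedSpace M]
  [MeasurableSpace W] [BorelSpace W]

/-- The sharp bound from the static inequality. -/
theorem main4_of_static (hV : finrank ℝ V = 4) (hW : finrank ℝ W = finrank ℝ V + 2)
    {F : M → W} (hF : SphImm V F) (hmin : ∀ x n, IsUnitNormal V F x n → meanCurv V F x n = 0)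
    (hng : ¬ ∃ a : W, a ≠ 0 ∧ ∀ x, ⟪F x, a⟫ = 0)
    (hL : ∀ N : M → W, ContMDiff 𝓘(ℝ, V) 𝓘(ℝ, W) ∞ N → (∀ x, IsUnitNormal V F x (N x)) →
      Injective F → ∀ e : W, Integrable (fun q => Lr (dat F N e q)) ((volM V F).prod (volM V F)) ∧
        ∫ q, Lr (dat F N e q) ∂((volM V F).prod (volM V F))
          + 3 / 2 * sphereVol 4 * (volM V F).real univ
          ≤ (volM V F).real univ ^ 2
            + (3 * Real.log 2 - 3 / 2) * ‖∫ x, N x ∂(volM V F)‖ ^ 2) :
    ENNReal.ofReal (leastClifford (finrank ℝ V)) ≤ volM V F univ := by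
  refine main4_of hV hW hF hmin hng hL fun e x N y w he hx hN hy hw hxN hyw _ => ?_
  rw [lhs4_eq]
  exact pos63 he hx hN hy hw hxN hyw

end

end Vale.Agent.P224.POS
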