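import Vale.Agent.P224.POS.ZM
import Vale.Agent.P224.SH.HDlim

/-!
The final assembly in even dimension, from the pointwise inequality of the static part.
-/

namespace Vale.Agent.P224.POS

open MeasureTheory Set Filter Function Module Vale.Agent.P224 Vale.Agent.P224.UE
open Vale.Agent.P224.SMH Vale.Agent.P224.SH
open Vale.Agent.P224.SM2 hiding ker
open scoped Topology RealInnerProductSpace ENNReal ContDiff Manifold

set_option linter.unusedSectionVars false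

/-- the value at one on the pair data -/
lemma Hd_dat {X W : Type*} [NormedAddCommGroup W] [InnerProductSpace ℝ W] {d : HD} {L : R9 → ℝ}
    (hLd : ∀ x : R9, x 0 < 1 → Hd d 1 (x 0, x 1, x 2, x 3) = L x) {p n : X → W} {v : W}
    {q : X × X} (hq : ⟪p q.1, p q.2⟫ < 1) : Hd d 1 (SM2.pr p n q) = L (dat p n v q) := by
  have h : dat p n v q 0 < 1 := hq
  rw [← hLd _ h]
  rfl

section

variable {V W M : Type*} [NormedAddCommGroup V] [InnerProductSpace ℝ V] [FiniteDimensional ℝ V]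
  [NormedAddCommGroup W] [InnerProductSpace ℝ W] [FiniteDimensional ℝ W]
  [TopologicalSpace M] [ChartedSpace V M]
  [MeasurableSpace V] [BorelSpace V] [MeasurableSpace M] [BorelSpace M]
  [IsManifold 𝓘(ℝ, V) ∞ M] [CompactSpace M] [T2Space M]
  [MeasurableSpace W] [BorelSpace W]

/-- the static inequality in dimension `m`, from the pointwise inequality -/
theorem staticM_of_le {m : ℕ} (hm : 3 ≤ m) (hV : finrank ℝ V = m)
    (hW : finrank ℝ W = finrank ℝ V + 2) {F : M → W}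
    (hF : SphImm V F) (hmin : ∀ x n, IsUnitNormal V F x n → meanCurv V F x n = 0)
    {y Z e r : ℝ → ℝ} {lam C γ : ℝ} (hlam : 0 ≤ lam) (hC : C = 2 * lam) (hγ : γ = m * r 0)
    (hc : Cert m y Z e r) (hl : CertLim m y Z e r lam)
    (h0 : y 0 = ((m : ℝ) - 1) / (m - 2)) (h1 : Z 0 = ((m : ℝ) - 1) / (m - 2)) (he : e 0 = 0)
    {d : HD} {kA kB : ℕ} (hz : d.zOk = true) (hd : d.dvOk kA kB = true)
    (hqA : 2 * kA < m) (hqB : 2 * kB < m + 4)
    (hle : ∀ T ∈ Ioo (0 : ℝ) 1, ∀ k, Adm k → Hd' d T k ≤ FK m T (y T) (e T) (r T) k)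
    {L : R9 → ℝ} (hLd : ∀ x : R9, x 0 < 1 → Hd d 1 (x 0, x 1, x 2, x 3) = L x)
    {N : M → W} (hNs : ContMDiff 𝓘(ℝ, V) 𝓘(ℝ, W) ∞ N) (hN : ∀ x, IsUnitNormal V F x (N x))
    (hinj : Injective F) (v : W) :
    Integrable (fun q => L (dat F N v q)) ((volM V F).prod (volM V F)) ∧
      ∫ q, L (dat F N v q) ∂((volM V F).prod (volM V F))
        + C * sphereVol m * (volM V F).real univ
      ≤ (volM V F).real univ ^ 2 + γ * ‖∫ x, N x ∂(volM V F)‖ ^ 2 := by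
  subst hV
  have hfin : IsFiniteMeasure (volM V F) := isFiniteMeasure_volM hF
  have h := static_HD hm hW hF hmin hNs hN hinj hlam hc hl h0 h1 he hz hd hqA hqB hle
  have hae := (twoG_of_min hW hF hmin hNs hN).ae_lt (by omega) v
  have heq : (fun q => Hd d 1 (SM2.pr F N q))
      =ᵐ[(volM V F).prod (volM V F)] fun q => L (dat F N v q) := by
    filter_upwards [hae] with q hq
    exact Hd_dat hLd hq
  refine ⟨h.1.congr heq, ?_⟩
  have h2 := h.2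
  rw [integral_congr_ae heq] at h2
  rw [hC, hγ]
  linarith

/-- The sharp bound in dimension `2 * h` from the certificate data. -/
theorem mainE_of [ConnectedSpace M] {h : ℕ} (hh : 2 ≤ h) (hV : finrank ℝ V = 2 * h)
    (hW : finrank ℝ W = finrank ℝ V + 2)
    {F : M → W} (hF : SphImm V F) (hmin : ∀ x n, IsUnitNormal V F x n → meanCurv V F x n = 0)
    (hng : ¬ ∃ a : W, a ≠ 0 ∧ ∀ x, ⟪F x, a⟫ = 0)
    {y Z e r : ℝ → ℝ} {lam C γ : ℝ} (hlam : 0 ≤ lam) (hC : C = 2 * lam) (hC2 : C ≤ 2)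
    (hCl : leastClifford (2 * h) ≤ C * sphereVol (2 * h)) {m : ℕ} (hm : m = 2 * h)
    (hγ : γ = m * r 0)
    (hc : Cert m y Z e r) (hl : CertLim m y Z e r lam)
    (h0 : y 0 = ((m : ℝ) - 1) / (m - 2)) (h1 : Z 0 = ((m : ℝ) - 1) / (m - 2)) (he : e 0 = 0)
    {d : HD} {kA kB : ℕ} (hz : d.zOk = true) (hd : d.dvOk kA kB = true)
    (hqA : 2 * kA < m) (hqB : 2 * kB < m + 4)
    (hle : ∀ T ∈ Ioo (0 : ℝ) 1, ∀ k, Adm k → Hd' d T k ≤ FK m T (y T) (e T) (r T) k)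
    {L : R9 → ℝ} (hLd : ∀ x : R9, x 0 < 1 → Hd d 1 (x 0, x 1, x 2, x 3) = L x)
    {b0 b1 b2 b3 b4 b5 b6 b7 b8 : ℝ} {l : List (ℝ × RTerm)}
    (hlk : ∀ cT ∈ l, cT.2.okM m = true)
    (hpos : ∀ e x N y w : W, ‖e‖ ^ 2 ≤ 25 / 36 → ‖x‖ = 1 → ‖N‖ = 1 → ‖y‖ = 1 → ‖w‖ = 1 →
      ⟪x, N⟫ = 0 → ⟪y, w⟫ = 0 → ⟪x, y⟫ < 1 → 0 ≤ L (dv x N y w e)
        + W9 b0 b1 b2 b3 b4 b5 b6 b7 b8 (dv x N y w e) + rsumM m l (dv x N y w e))
    (hneg : ∀ Θ u r : ℝ, 6 / 5 ≤ Θ → Θ < C → 0 ≤ u → Θ ^ 2 * u ≤ 1 → u ^ 2 ≤ r → r ≤ u →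
      Θ * (1 + γ * u + (b0 + (b1 + b2 + b3) * u + (b4 + b7) * r + (b5 + b6) * u ^ 2
        + b8 * ((u - r) / (m + 1)))) + (gam h h)⁻¹ * rvalM m l u r < C) :
    ENNReal.ofReal (leastClifford (finrank ℝ V)) ≤ volM V F univ := by
  subst hm
  refine main_m_of_cert hh hV hW hF hmin hng hC2 hCl hlk (L := L) (γ := γ) ?_ hpos ?_
  · intro N hNs hN hinj v
    exact staticM_of_le (by omega) hV hW hF hmin hlam hC hγ hc hl h0 h1 he hz hd hqA hqB hle hLd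
      hNs hN hinj v
  · intro Θ u r a1 a2 a3 a4 a5 a6
    have := hneg Θ u r a1 a2 a3 a4 a5 a6
    push_cast at this ⊢
    exact this

end

end Vale.Agent.P224.POS
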