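import Vale.Agent.P224.UE.LawM
import Vale.Agent.P224.TP.Top
import Vale.Agent.P224.Bdl.B5

/-!
The final assembly in any dimension: a law for the normalized volume and the integral of the normal
gives a volume bound.
-/

namespace Vale.Agent.P224.POS

open MeasureTheory Set Filter Function Module Vale.Agent.P224 Vale.Agent.P224.UE
open Vale.Agent.P224.SM2 hiding ker
open scoped Topology RealInnerProductSpace ENNReal ContDiff Manifold

set_option linter.unusedSectionVars false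

section

variable {V W M : Type*} [NormedAddCommGroup V] [InnerProductSpace ℝ V] [FiniteDimensional ℝ V]
  [NormedAddCommGroup W] [InnerProductSpace ℝ W] [FiniteDimensional ℝ W]
  [TopologicalSpace M] [ChartedSpace V M]
  [MeasurableSpace V] [BorelSpace V] [MeasurableSpace M] [BorelSpace M]
  [IsManifold 𝓘(ℝ, V) ∞ M] [CompactSpace M] [T2Space M] [ConnectedSpace M]
  [MeasurableSpace W] [BorelSpace W]

/-- A volume bound from a law. Here `L Θ u r` is a relation between the normalized volume `Θ`, the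
square `u` of the norm of the mean `e` of the normal, and a second moment `r`. -/
theorem main_of_law (hm : 2 ≤ finrank ℝ V) (hW : finrank ℝ W = finrank ℝ V + 2)
    {F : M → W} (hF : SphImm V F) (hmin : ∀ x n, IsUnitNormal V F x n → meanCurv V F x n = 0)
    (hng : ¬ ∃ a : W, a ≠ 0 ∧ ∀ x, ⟪F x, a⟫ = 0) {C : ℝ} (hC2 : C ≤ 2)
    {L : ℝ → ℝ → ℝ → Prop}
    (hlaw : ∀ (N : M → W) (e : W) (B : ℝ), ContMDiff 𝓘(ℝ, V) 𝓘(ℝ, W) ∞ N →
      (∀ x, IsUnitNormal V F x (N x)) → Injective F →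
      EmbD (volM V F) (finrank ℝ V) F N B (sphereVol (finrank ℝ V)) →
      0 < (volM V F).real univ → (volM V F).real univ • e = ∫ x, N x ∂(volM V F) →
      ‖e‖ ^ 2 ≤ 25 / 36 →
      ∃ r, (‖e‖ ^ 2) ^ 2 ≤ r ∧ r ≤ ‖e‖ ^ 2 ∧
        L ((volM V F).real univ / sphereVol (finrank ℝ V)) (‖e‖ ^ 2) r)
    (hneg : ∀ Θ u r : ℝ, 6 / 5 ≤ Θ → Θ < C → 0 ≤ u → Θ ^ 2 * u ≤ 1 → u ^ 2 ≤ r → r ≤ u →
      ¬ L Θ u r) :
    ENNReal.ofReal (C * sphereVol (finrank ℝ V)) ≤ volM V F univ := by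
  have hm0 : 0 < finrank ℝ V := by omega
  have hfin : IsFiniteMeasure (volM V F) := isFiniteMeasure_volM hF
  set A := (volM V F).real univ with hA
  set S := sphereVol (finrank ℝ V) with hS
  have hS0 : 0 < S := sphereVol_pos' _
  refine ENNReal.ofReal_le_of_le_toReal (?_ : C * S ≤ A)
  by_cases hinj : Injective F
  swap
  · have h2 := TwoSide.two_le (by omega) hW hF hmin hinj
    have h3 : C * S ≤ 2 * S := by gcongr
    linarith
  by_contra hlt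
  rw [not_le] at hlt
  have h65 : 6 / 5 * S ≤ A := by
    have h1 := (PM.main_frac hm hW hF hmin hng).1
    have h2 := ENNReal.toReal_mono (measure_ne_top _ _) h1
    rwa [ENNReal.toReal_ofReal (by positivity)] at h2
  have hA0 : 0 < A := by linarith
  obtain ⟨N, hNs, hN, htop⟩ := TP.exists_normal_le hW hm0 hF hinj
  obtain ⟨B, hE⟩ := embD_of_inj hm0 hW hF hmin hNs hN hinj
  set e : W := A⁻¹ • ∫ x, N x ∂(volM V F) with he
  have he' : A • e = ∫ x, N x ∂(volM V F) := by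
    rw [he, smul_smul, mul_inv_cancel₀ hA0.ne', one_smul]
  have hn : ‖∫ x, N x ∂(volM V F)‖ = A * ‖e‖ := by
    rw [← he', norm_smul, Real.norm_eq_abs, abs_of_pos hA0]
  rw [hn] at htop
  have h1 : 6 / 5 ≤ A / S := by
    rw [le_div_iff₀ hS0]
    exact h65
  have h2 : A / S < C := by
    rw [div_lt_iff₀ hS0]
    exact hlt
  have h3 : A / S * ‖e‖ ≤ 1 := by
    rw [div_mul_eq_mul_div, div_le_one hS0]
    exact htop
  have h4 : (A / S) ^ 2 * ‖e‖ ^ 2 ≤ 1 := by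
    have h0 : 0 ≤ A / S * ‖e‖ := mul_nonneg (by linarith) (norm_nonneg _)
    calc (A / S) ^ 2 * ‖e‖ ^ 2 = (A / S * ‖e‖) ^ 2 := by ring
      _ ≤ 1 := pow_le_one₀ h0 h3
  have h5 : ‖e‖ ^ 2 ≤ 25 / 36 := by
    have h6 : (6 / 5 : ℝ) ^ 2 ≤ (A / S) ^ 2 := pow_le_pow_left₀ (by norm_num) h1 2
    have h7 := mul_le_mul_of_nonneg_right h6 (sq_nonneg ‖e‖)
    linarith
  obtain ⟨r, hr1, hr2, hr3⟩ := hlaw N e B hNs hN hinj hE hA0 he' h5
  exact hneg _ _ _ h1 h2 (sq_nonneg _) h4 hr1 hr2 hr3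

/-- A volume bound from a law of the form `S * v1 ≤ A * v0`. -/
theorem main_of_flux (hm : 2 ≤ finrank ℝ V) (hW : finrank ℝ W = finrank ℝ V + 2)
    {F : M → W} (hF : SphImm V F) (hmin : ∀ x n, IsUnitNormal V F x n → meanCurv V F x n = 0)
    (hng : ¬ ∃ a : W, a ≠ 0 ∧ ∀ x, ⟪F x, a⟫ = 0) {C : ℝ} (hC2 : C ≤ 2)
    {v0 v1 : ℝ → ℝ → ℝ}
    (hlaw : ∀ (N : M → W) (e : W) (B : ℝ), ContMDiff 𝓘(ℝ, V) 𝓘(ℝ, W) ∞ N →
      (∀ x, IsUnitNormal V F x (N x)) → Injective F →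
      EmbD (volM V F) (finrank ℝ V) F N B (sphereVol (finrank ℝ V)) →
      0 < (volM V F).real univ → (volM V F).real univ • e = ∫ x, N x ∂(volM V F) →
      ‖e‖ ^ 2 ≤ 25 / 36 →
      ∃ r, (‖e‖ ^ 2) ^ 2 ≤ r ∧ r ≤ ‖e‖ ^ 2 ∧
        sphereVol (finrank ℝ V) * v1 (‖e‖ ^ 2) r ≤ (volM V F).real univ * v0 (‖e‖ ^ 2) r)
    (hneg : ∀ Θ u r : ℝ, 6 / 5 ≤ Θ → Θ < C → 0 ≤ u → Θ ^ 2 * u ≤ 1 → u ^ 2 ≤ r → r ≤ u →
      Θ * v0 u r < v1 u r) :
    ENNReal.ofReal (C * sphereVol (finrank ℝ V)) ≤ volM V F univ := by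
  refine main_of_law hm hW hF hmin hng hC2 (L := fun Θ u r => v1 u r ≤ Θ * v0 u r)
    (fun N e B hNs hN hinj hE hA he h5 => ?_)
    fun Θ u r h1 h2 h3 h4 h5 h6 h => absurd (hneg Θ u r h1 h2 h3 h4 h5 h6) (not_lt.2 h)
  obtain ⟨r, hr1, hr2, hr3⟩ := hlaw N e B hNs hN hinj hE hA he h5
  refine ⟨r, hr1, hr2, ?_⟩
  have hS0 : 0 < sphereVol (finrank ℝ V) := sphereVol_pos' _
  change v1 (‖e‖ ^ 2) r ≤ (volM V F).real univ / sphereVol (finrank ℝ V) * v0 (‖e‖ ^ 2) r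
  rw [div_mul_eq_mul_div, le_div_iff₀ hS0]
  linarith

/-- A volume bound from a law of the form `0 ≤ A * v0 + K * S * v1`. -/
theorem main_of_sum (hm : 2 ≤ finrank ℝ V) (hW : finrank ℝ W = finrank ℝ V + 2)
    {F : M → W} (hF : SphImm V F) (hmin : ∀ x n, IsUnitNormal V F x n → meanCurv V F x n = 0)
    (hng : ¬ ∃ a : W, a ≠ 0 ∧ ∀ x, ⟪F x, a⟫ = 0) {C : ℝ} (hC2 : C ≤ 2) {K : ℝ}
    {v0 v1 : ℝ → ℝ → ℝ}
    (hlaw : ∀ (N : M → W) (e : W) (B : ℝ), ContMDiff 𝓘(ℝ, V) 𝓘(ℝ, W) ∞ N →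
      (∀ x, IsUnitNormal V F x (N x)) → Injective F →
      EmbD (volM V F) (finrank ℝ V) F N B (sphereVol (finrank ℝ V)) →
      0 < (volM V F).real univ → (volM V F).real univ • e = ∫ x, N x ∂(volM V F) →
      ‖e‖ ^ 2 ≤ 25 / 36 →
      ∃ r, (‖e‖ ^ 2) ^ 2 ≤ r ∧ r ≤ ‖e‖ ^ 2 ∧
        0 ≤ (volM V F).real univ * v0 (‖e‖ ^ 2) r
          + K * sphereVol (finrank ℝ V) * v1 (‖e‖ ^ 2) r)
    (hneg : ∀ Θ u r : ℝ, 6 / 5 ≤ Θ → Θ < C → 0 ≤ u → Θ ^ 2 * u ≤ 1 → u ^ 2 ≤ r → r ≤ u →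
      Θ * v0 u r + K * v1 u r < 0) :
    ENNReal.ofReal (C * sphereVol (finrank ℝ V)) ≤ volM V F univ := by
  refine main_of_flux hm hW hF hmin hng hC2 (v0 := v0) (v1 := fun u r => -(K * v1 u r))
    (fun N e B hNs hN hinj hE hA he h5 => ?_) fun Θ u r h1 h2 h3 h4 h5 h6 => ?_
  · obtain ⟨r, hr1, hr2, hr3⟩ := hlaw N e B hNs hN hinj hE hA he h5
    exact ⟨r, hr1, hr2, by linarith⟩
  · have := hneg Θ u r h1 h2 h3 h4 h5 h6
    linarith

end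

end Vale.Agent.P224.POS
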